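-- KEEP
import Claimed.Agent.R289.Pl.Defs

/-!
# Row 289 (S0537, Cardy for Poisson-Voronoi), box S1 = Section 1 of the paper (01-fields.tex), file S1/Defs      (head helper227, deputy helper268; proofs of helper156)

Vocabulary of record for darts, walls, components, labels: `Claimed/Agent/R289/Pl/Defs.lean` (helper57): `PvMap IsSph Occ Tag Wall CStep InComp SameLab`.
This file adds

* `pvOm` = `exp(2 pi i/3)` and its algebra;
* `colLaw V` = fair product colours on `V -> Bool`;
* the chart geometry: `bary side upart qpart` (side decomposition, `U`- and `Q`-summands, area identity);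
* `LeftV` (closed left side of a rim);
* walls and components are equivalence classes: `Wall.refl Wall.symm Wall.trans wall_congr cstep_congr cstep_symm`, `sameLab_symm sameLab_trans sameLab_refl tag_unique isolated`.
-/

set_option autoImplicit false

namespace Claimed.Agent.R289

open MeasureTheory

/-- `omega = exp(2 pi i/3)` -/
noncomputable def pvOm : ℂ := Complex.exp (2 * Real.pi * Complex.I / 3)

/-- fair product colours -/
noncomputable def colLaw (V : Type) : Measure (V → Bool) := Measure.infinitePi fun _ : V => (PMF.uniformOfFintype Bool).toMeasure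

namespace PvMap

variable {V D : Type} (T : PvMap V D)

/-- vertex of a face of the component of the tag `d` (closed left side of the rim) -/
def LeftV (s : V → Bool) (d : D) (v : V) : Prop := ∃ e, T.InComp s d e ∧ ¬ T.Wall s d e ∧ T.src e = v

variable (pos : V → ℂ)

/-- barycentre of the face of `d` -/
noncomputable def bary (d : D) : ℂ := (pos (T.src d) + pos (T.tgt d) + pos (T.apex d)) / 3
/-- CLOCKWISE side vector `d_{tj}` -/
def side (d : D) : ℂ := pos (T.src d) - pos (T.tgt d)
/-- `p_t omega^j` -/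
noncomputable def upart (d : D) : ℂ := (T.side pos d + (starRingEnd ℂ) pvOm * T.side pos (T.nxt d) + pvOm * T.side pos (T.nxt (T.nxt d))) / 3
/-- `q_t conj(omega)^j` -/
noncomputable def qpart (d : D) : ℂ := (T.side pos d + pvOm * T.side pos (T.nxt d) + (starRingEnd ℂ) pvOm * T.side pos (T.nxt (T.nxt d))) / 3

end PvMap

theorem pvf_defs_eqns_cite : True := by
  have := @pvOm.eq_1; have := @colLaw.eq_1; have := @PvMap.LeftV.eq_1; have := @PvMap.bary.eq_1; have := @PvMap.side.eq_1
  have := @PvMap.upart.eq_1; have := @PvMap.qpart.eq_1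
  trivial

/-! ## 1. Walls and components are equivalence classes; labels -/

namespace PvMap

variable {V D : Type} (T : PvMap V D)

theorem rtg_symm {α : Type} {r : α → α → Prop} (hr : ∀ a b, r a b → r b a) {a b : α} (h : Relation.ReflTransGen r a b) :
    Relation.ReflTransGen r b a := by
  induction h with
  | refl => exact Relation.ReflTransGen.refl
  | tail _ hbc ih => exact Relation.ReflTransGen.head (hr _ _ hbc) ih

theorem occ_opp {s : V → Bool} {d : D} (h : T.Occ s d) : T.Occ s (T.opp d) := by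
  unfold Occ at h ⊢
  rw [T.tgt_opp, T.src_opp']
  exact h.symm

/-- one tag per face -/
theorem tag_unique (s : V → Bool) {d d' : D} (h : T.Tag s d) (h' : T.Tag s d') (hf : T.SF d d') : d' = d := by
  rcases hf with rfl | rfl | rfl
  · rfl
  · exfalso
    have h2 := h'.2
    rw [T.apex_nxt, T.src_nxt] at h2
    exact h2 h.1
  · exfalso
    have h1 := h'.1
    rw [T.src_nxt2, T.tgt_nxt2] at h1
    exact h.2 h1

/-! ### walls and components are equivalence classes -/

theorem Wall.refl (s : V → Bool) (d : D) : T.Wall s d d := Relation.ReflTransGen.refl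

theorem Wall.trans {s : V → Bool} {d d' d'' : D} (h : T.Wall s d d') (h' : T.Wall s d' d'') : T.Wall s d d'' :=
  Relation.ReflTransGen.trans h h'

theorem Wall.symm {s : V → Bool} {d d' : D} (h : T.Wall s d d') : T.Wall s d' d := by
  refine rtg_symm ?_ h
  rintro a b (hab | ⟨ho, rfl⟩)
  · exact Or.inl (T.sf_symm hab)
  · exact Or.inr ⟨T.occ_opp ho, (T.opp_opp a).symm⟩

theorem Wall.of_SF (s : V → Bool) {d d' : D} (h : T.SF d d') : T.Wall s d d' := Relation.ReflTransGen.single (Or.inl h)

theorem wall_congr {s : V → Bool} {d d' : D} (h : T.Wall s d d') (a : D) : T.Wall s d a ↔ T.Wall s d' a :=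
  ⟨fun h1 => Wall.trans T (Wall.symm T h) h1, fun h1 => Wall.trans T h h1⟩

theorem cstep_congr {s : V → Bool} {d d' : D} (h : T.Wall s d d') : T.CStep s d = T.CStep s d' := by
  funext a b
  unfold CStep
  rw [T.wall_congr h a]

theorem cstep_symm (s : V → Bool) (d₀ : D) : ∀ a b, T.CStep s d₀ a b → T.CStep s d₀ b a := by
  rintro a b (rfl | ⟨hab, hw⟩)
  · exact Or.inl (T.opp_opp a).symm
  · exact Or.inr ⟨T.sf_symm hab, fun hb => hw (Wall.trans T hb (Wall.of_SF T s (T.sf_symm hab)))⟩

theorem sameLab_symm (s : V → Bool) {d d' : D} (h : T.SameLab s d d') : T.SameLab s d' d := by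
  obtain ⟨h1, h2, h3, h4⟩ := h
  refine ⟨h2, h1, Wall.symm T h3, ?_⟩
  unfold InComp at h4 ⊢
  rw [← T.cstep_congr h3]
  exact rtg_symm (T.cstep_symm s d) h4

theorem sameLab_trans (s : V → Bool) {d d' d'' : D} (h : T.SameLab s d d') (h' : T.SameLab s d' d'') : T.SameLab s d d'' := by
  obtain ⟨h1, h2, h3, h4⟩ := h
  obtain ⟨-, k2, k3, k4⟩ := h'
  refine ⟨h1, k2, Wall.trans T h3 k3, ?_⟩
  unfold InComp at h4 k4 ⊢
  rw [← T.cstep_congr h3] at k4
  exact h4.trans k4

theorem sameLab_refl (s : V → Bool) {d : D} (h : T.Tag s d) : T.SameLab s d d :=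
  ⟨h, h, Wall.refl T s d, Relation.ReflTransGen.refl⟩

/-- every face of a wall through a tagged face carries an occupied dual edge -/
theorem wall_occ {s : V → Bool} {d : D} (hd : T.Tag s d) {e : D} (h : T.Wall s d e) : ∃ b, T.SF e b ∧ T.Occ s b := by
  induction h with
  | refl =>
    refine ⟨T.nxt d, Or.inr (Or.inl rfl), ?_⟩
    unfold Occ
    rw [T.src_nxt, T.tgt_nxt, ← hd.1]
    exact hd.2.symm
  | tail _ hstep ih =>
    obtain ⟨b, hb, ho⟩ := ih
    rcases hstep with hsf | ⟨ho', rfl⟩
    · exact ⟨b, T.sf_trans (T.sf_symm hsf) hb, ho⟩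
    · exact ⟨_, T.sf_refl _, T.occ_opp ho'⟩

/-- a dart with equal ends in a face which carries an occupied dual edge is a tag -/
theorem tag_of_occ {s : V → Bool} {e : D} (he : s (T.src e) = s (T.tgt e)) (h : ∃ b, T.SF e b ∧ T.Occ s b) : T.Tag s e := by
  refine ⟨he, ?_⟩
  obtain ⟨b, hb, ho⟩ := h
  unfold Occ at ho
  rcases hb with rfl | rfl | rfl
  · exact absurd he ho
  · rw [T.src_nxt, T.tgt_nxt, ← he] at ho
    exact ho.symm
  · rw [T.src_nxt2, T.tgt_nxt2] at ho
    exact ho

/-- TEX[fields:isolated]: an isolated open edge has exactly the two tags `d`, `opp d` -/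
theorem isolated (s : V → Bool) {d : D} (hd : T.Tag s d) (hC : T.Wall s d (T.opp d)) (d' : D) :
    T.SameLab s d d' ↔ d' = d ∨ d' = T.opp d := by
  constructor
  · rintro ⟨-, -, -, h⟩
    unfold InComp at h
    induction h with
    | refl => exact Or.inl rfl
    | tail _ hstep ih =>
      rcases hstep with rfl | ⟨_, hw⟩
      · rcases ih with rfl | rfl
        · exact Or.inr rfl
        · exact Or.inl (T.opp_opp d)
      · rcases ih with rfl | rfl
        · exact absurd (Wall.refl T s _) hw
        · exact absurd hC hw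
  · rintro (rfl | rfl)
    · exact T.sameLab_refl s hd
    · refine ⟨hd, T.tag_of_occ ?_ (T.wall_occ hd hC), hC, Relation.ReflTransGen.single (Or.inl rfl)⟩
      rw [T.src_opp', T.tgt_opp]
      exact hd.1.symm

end PvMap

/-! ## 2. The cube root of unity -/

theorem pvOm_eq : pvOm = ⟨-1 / 2, Real.sqrt 3 / 2⟩ := by
  have e : (2 * Real.pi * Complex.I / 3 : ℂ) = ((Real.pi - Real.pi / 3 : ℝ) : ℂ) * Complex.I := by
    push_cast; ring
  unfold pvOm
  rw [e, Complex.exp_mul_I, ← Complex.ofReal_cos, ← Complex.ofReal_sin, Real.cos_pi_sub, Real.sin_pi_sub, Real.cos_pi_div_three,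
    Real.sin_pi_div_three]
  apply Complex.ext <;> simp <;> ring

theorem pvOm_re : pvOm.re = -1 / 2 := by rw [pvOm_eq]
theorem pvOm_im : pvOm.im = Real.sqrt 3 / 2 := by rw [pvOm_eq]

theorem pv_sqrt3_sq : Real.sqrt 3 * Real.sqrt 3 = 3 := Real.mul_self_sqrt (by norm_num)

/-- `ω ω̄ = 1` -/
theorem pvOm_mul_conj : pvOm * (starRingEnd ℂ) pvOm = 1 := by
  have h := pv_sqrt3_sq
  apply Complex.ext <;> simp [pvOm_re, pvOm_im] <;> nlinarith

/-- `ω² = ω̄` -/
theorem pvOm_sq : pvOm * pvOm = (starRingEnd ℂ) pvOm := by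
  have h := pv_sqrt3_sq
  apply Complex.ext <;> simp [pvOm_re, pvOm_im] <;> nlinarith

/-- `ω̄² = ω` -/
theorem pvOm_conj_sq : (starRingEnd ℂ) pvOm * (starRingEnd ℂ) pvOm = pvOm := by
  have h := pv_sqrt3_sq
  apply Complex.ext <;> simp [pvOm_re, pvOm_im] <;> nlinarith

/-- `1 + ω + ω̄ = 0` -/
theorem pvOm_sum : 1 + pvOm + (starRingEnd ℂ) pvOm = 0 := by
  apply Complex.ext <;> simp [pvOm_re, pvOm_im] <;> norm_num

theorem pvOm_cube : pvOm ^ 3 = 1 := by
  rw [pow_succ, sq, pvOm_sq, mul_comm, pvOm_mul_conj]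

/-! ## 3. Geometry of a chart: the two displacement fields -/

namespace PvMap

variable {V D : Type} (T : PvMap V D) (pos : V → ℂ)

theorem side_nxt (d : D) : T.side pos (T.nxt d) = pos (T.tgt d) - pos (T.apex d) := rfl
theorem side_nxt2 (d : D) : T.side pos (T.nxt (T.nxt d)) = pos (T.apex d) - pos (T.src d) := by
  unfold side; rw [T.src_nxt2, T.tgt_nxt2]

/-- the three sides of a face add up to `0` -/
theorem side_sum (d : D) : T.side pos d + T.side pos (T.nxt d) + T.side pos (T.nxt (T.nxt d)) = 0 := by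
  rw [side_nxt, side_nxt2]; unfold side; ring

/-- TEX[fields:side-decomposition] -/
theorem upart_add_qpart (d : D) : T.upart pos d + T.qpart pos d = T.side pos d := by
  have h1 := T.side_sum pos d
  have h2 := pvOm_sum
  unfold upart qpart
  have e1 : T.side pos (T.nxt (T.nxt d)) = -T.side pos d - T.side pos (T.nxt d) := by linear_combination h1
  have e2 : (starRingEnd ℂ) pvOm = -1 - pvOm := by linear_combination h2
  rw [e1, e2]
  ring

theorem upart_nxt (d : D) : T.upart pos (T.nxt d) = pvOm * T.upart pos d := by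
  unfold upart
  rw [T.nxt3]
  linear_combination (-(1 / 3 : ℂ) * T.side pos (T.nxt d)) * pvOm_mul_conj + (-(1 / 3 : ℂ) * T.side pos (T.nxt (T.nxt d))) * pvOm_sq

theorem qpart_nxt (d : D) : T.qpart pos (T.nxt d) = (starRingEnd ℂ) pvOm * T.qpart pos d := by
  unfold qpart
  rw [T.nxt3]
  linear_combination (-(1 / 3 : ℂ) * T.side pos (T.nxt d)) * pvOm_mul_conj + (-(1 / 3 : ℂ) * T.side pos (T.nxt (T.nxt d))) * pvOm_conj_sq

theorem pv_I_div_sqrt3 : (Complex.I / (Real.sqrt 3 : ℂ)) = ⟨0, Real.sqrt 3 / 3⟩ := by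
  have h3 : (Real.sqrt 3 : ℂ) ≠ 0 := by
    have : Real.sqrt 3 ≠ 0 := (Real.sqrt_pos.2 (by norm_num)).ne'
    exact_mod_cast this
  rw [div_eq_iff h3]
  have h := pv_sqrt3_sq
  apply Complex.ext <;> simp <;> nlinarith

/-- `Q`-summand `= δ/2 - (i/√3) h`, `δ` = clockwise side, `h` = facing vertex minus midpoint -/
theorem qpart_eq (d : D) : T.qpart pos d = T.side pos d / 2 - Complex.I / Real.sqrt 3 * (pos (T.apex d) - (pos (T.src d) + pos (T.tgt d)) / 2) := by
  unfold qpart
  rw [side_nxt, side_nxt2, pv_I_div_sqrt3]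
  unfold side
  generalize pos (T.src d) = a
  generalize pos (T.tgt d) = b
  generalize pos (T.apex d) = c
  apply Complex.ext <;> simp [pvOm_re, pvOm_im] <;> ring

/-- `U`-summand `= δ/2 + (i/√3) h` -/
theorem upart_eq (d : D) : T.upart pos d = T.side pos d / 2 + Complex.I / Real.sqrt 3 * (pos (T.apex d) - (pos (T.src d) + pos (T.tgt d)) / 2) := by
  have h1 := T.upart_add_qpart pos d
  have h2 := T.qpart_eq pos d
  linear_combination h1 - h2

/-- TEX[fields:area]: `|p|² - |q|² = (4/√3) Area`, signed area of the positively oriented face -/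
theorem area_id (d : D) : ‖T.upart pos d‖ ^ 2 - ‖T.qpart pos d‖ ^ 2
    = 4 / Real.sqrt 3 * (((starRingEnd ℂ) (pos (T.tgt d) - pos (T.src d)) * (pos (T.apex d) - pos (T.src d))).im / 2) := by
  rw [upart_eq, qpart_eq, pv_I_div_sqrt3]
  unfold side
  generalize pos (T.src d) = a
  generalize pos (T.tgt d) = b
  generalize pos (T.apex d) = c
  have h := pv_sqrt3_sq
  have h3 : Real.sqrt 3 ≠ 0 := (Real.sqrt_pos.2 (by norm_num)).ne'
  have e : 4 / Real.sqrt 3 = 4 * Real.sqrt 3 / 3 := by field_simp; nlinarith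
  rw [e, Complex.sq_norm, Complex.sq_norm, Complex.normSq_apply, Complex.normSq_apply]
  simp
  ring

end PvMap

end Claimed.Agent.R289
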