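-- KEEP
import Claimed.Agent.R289.S1.Defs
import Claimed.Agent.R289.PppPv
import Claimed.Agent.R289.Del.GenPos

/-!
# Row 289 (S0537, Cardy for Poisson-Voronoi), box S1, file S1/Meas = THE `colLaw` KIT      (helper268; prefix `pvf_`, `pvf`)

* A. `colLaw V` is a probability measure; `pvfFlip A` (flip the colours on `A`) preserves it; pull-back along an injection; finite `V`: counting measure.
* B. measurability of the events `Occ Tag Wall CStep InComp SameLab` (general lemma `pvf_meas_rtg`).
* C. the PIECEWISE-FLIP lemma (`pvf_piecewise_flip_le`, `pvf_piecewise_flip`): the tool for orthogonality in infinite volume.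
* E. QCOL2 (`pvf_quenched`): `∫ F d(pvP ε) = ∫ db ∫ F (pvfCf (pvfSites b) σ) d(colLaw ↥(pvfSites b))`: given the sites, the colours ON THE SITES are fair and independent; `pvf_cf_rec`: a functional `G Y σ` is read back from the configuration.
* D. the QCOL SEAM: `pvLaw ε` = image of `pvfBaseLaw ε × colLaw ((ℤ × ℤ) × ℕ)` under `pvfGlue`: the colours are integrated LAST (honest quenched Fubini, no conditional laws).
-/

set_option autoImplicit false

namespace Claimed.Agent.R289

open MeasureTheory Set Relation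
open Claims.C0465
open scoped ENNReal

/-! ## A. the law of the colours -/

theorem pvf_colLaw_eq (V : Type) : colLaw V = Measure.infinitePi fun _ : V => pvCoin := rfl

instance pvf_colLaw_prob (V : Type) : IsProbabilityMeasure (colLaw V) := by
  rw [pvf_colLaw_eq]; infer_instance

open Classical in
/-- flip the colours of the vertices of `A` -/
noncomputable def pvfFlip {V : Type} (A : Set V) (s : V → Bool) : V → Bool := fun v => if v ∈ A then !s v else s v

section flip

variable {V : Type}

theorem pvf_flip_mem {A : Set V} {v : V} (h : v ∈ A) (s : V → Bool) : pvfFlip A s v = !s v := by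
  unfold pvfFlip; rw [if_pos h]

theorem pvf_flip_notMem {A : Set V} {v : V} (h : v ∉ A) (s : V → Bool) : pvfFlip A s v = s v := by
  unfold pvfFlip; rw [if_neg h]

theorem pvf_flip_flip (A : Set V) (s : V → Bool) : pvfFlip A (pvfFlip A s) = s := by
  funext v
  by_cases h : v ∈ A
  · rw [pvf_flip_mem h, pvf_flip_mem h, Bool.not_not]
  · rw [pvf_flip_notMem h, pvf_flip_notMem h]

theorem pvf_measurable_flip (A : Set V) : Measurable (pvfFlip A) := by
  refine measurable_pi_lambda _ fun v => ?_
  by_cases h : v ∈ A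
  · have : (fun s : V → Bool => pvfFlip A s v) = fun s => !s v := by funext s; exact pvf_flip_mem h s
    rw [this]
    exact (measurable_of_countable not).comp (measurable_pi_apply v)
  · have : (fun s : V → Bool => pvfFlip A s v) = fun s => s v := by funext s; exact pvf_flip_notMem h s
    rw [this]
    exact measurable_pi_apply v

/-- **the fair product law is invariant under flips** (of any set of vertices) -/
theorem pvf_colLaw_flip (A : Set V) : (colLaw V).map (pvfFlip A) = colLaw V := by
  classical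
  have h1 := Measure.infinitePi_map_pi (fun _ : V => pvCoin) (f := fun v => if v ∈ A then not else id)
    (fun v => measurable_of_countable _)
  have e1 : (fun (x : V → Bool) v => (if v ∈ A then not else id) (x v)) = pvfFlip A := by
    funext x v
    by_cases h : v ∈ A
    · rw [pvf_flip_mem h, if_pos h]
    · rw [pvf_flip_notMem h, if_neg h]; rfl
  have e2 : (fun v : V => pvCoin.map (if v ∈ A then not else id)) = fun _ => pvCoin := by
    funext v
    by_cases h : v ∈ A
    · rw [if_pos h, pvCoin_map_not]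
    · rw [if_neg h, Measure.map_id]
  rw [e1, e2] at h1
  exact h1

/-- the flip as a measurable equivalence -/
noncomputable def pvfFlipE (A : Set V) : (V → Bool) ≃ᵐ (V → Bool) where
  toFun := pvfFlip A
  invFun := pvfFlip A
  left_inv := pvf_flip_flip A
  right_inv := pvf_flip_flip A
  measurable_toFun := pvf_measurable_flip A
  measurable_invFun := pvf_measurable_flip A

theorem pvf_flip_image (A : Set V) (E : Set (V → Bool)) : pvfFlip A '' E = pvfFlip A ⁻¹' E := by
  ext s
  constructor
  · rintro ⟨t, ht, rfl⟩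
    show pvfFlip A (pvfFlip A t) ∈ E
    rwa [pvf_flip_flip]
  · intro h
    exact ⟨pvfFlip A s, h, pvf_flip_flip A s⟩

/-- no measurability needed -/
theorem pvf_colLaw_flip_preimage (A : Set V) (E : Set (V → Bool)) : colLaw V (pvfFlip A ⁻¹' E) = colLaw V E := by
  have h := (pvfFlipE A).map_apply (μ := colLaw V) E
  have e : (colLaw V).map (pvfFlipE A) = colLaw V := pvf_colLaw_flip A
  rw [e] at h
  exact h.symm

theorem pvf_colLaw_flip_image (A : Set V) (E : Set (V → Bool)) : colLaw V (pvfFlip A '' E) = colLaw V E := by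
  rw [pvf_flip_image, pvf_colLaw_flip_preimage]

theorem pvf_flip_image_meas (A : Set V) {E : Set (V → Bool)} (hE : MeasurableSet E) : MeasurableSet (pvfFlip A '' E) := by
  rw [pvf_flip_image]; exact pvf_measurable_flip A hE

end flip

/-- **pull-back along an injection**: the colours of a sub-family are again fair and independent -/
theorem pvf_colLaw_comp {V I : Type} (f : V → I) (hf : Function.Injective f) : (colLaw I).map (fun s : I → Bool => s ∘ f) = colLaw V := by
  classical
  rw [pvf_colLaw_eq V]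
  refine Measure.eq_infinitePi _ fun S t ht => ?_
  have hm : Measurable (fun s : I → Bool => s ∘ f) := measurable_pi_lambda _ fun v => measurable_pi_apply (f v)
  rw [Measure.map_apply hm (MeasurableSet.pi S.countable_toSet fun i _ => ht i)]
  let t' : I → Set Bool := fun i => if h : ∃ v, f v = i then t h.choose else univ
  have ht' : ∀ v, t' (f v) = t v := by
    intro v
    have h : ∃ w, f w = f v := ⟨v, rfl⟩
    show (if h : ∃ w, f w = f v then t h.choose else univ) = t v
    rw [dif_pos h, hf h.choose_spec]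
  have e : (fun s : I → Bool => s ∘ f) ⁻¹' (S : Set V).pi t = ((S.image f : Finset I) : Set I).pi t' := by
    ext s
    simp only [mem_preimage, Set.mem_pi, Finset.mem_coe, Finset.mem_image, Function.comp_apply, forall_exists_index, and_imp,
      forall_apply_eq_imp_iff₂, ht']
  rw [e, pvf_colLaw_eq I, Measure.infinitePi_pi _ (fun i _ => MeasurableSet.of_discrete), Finset.prod_image (fun a _ b _ h => hf h)]
  exact Finset.prod_congr rfl fun v _ => by rw [ht']

/-- cylinder probabilities -/
theorem pvf_colLaw_cyl {V : Type} (S : Finset V) (σ : V → Bool) : colLaw V {s | ∀ v ∈ S, s v = σ v} = (2⁻¹ : ℝ≥0∞) ^ S.card := by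
  have e : {s : V → Bool | ∀ v ∈ S, s v = σ v} = (S : Set V).pi fun v => {σ v} := by
    ext s
    simp only [mem_ofPred_eq, Set.mem_pi, Finset.mem_coe, mem_singleton_iff]
  rw [e, pvf_colLaw_eq, Measure.infinitePi_pi _ (fun i _ => MeasurableSet.of_discrete)]
  simp only [pvCoin_apply, Finset.prod_const]

theorem pvf_colLaw_singleton {V : Type} [Fintype V] (s : V → Bool) : colLaw V {s} = (2⁻¹ : ℝ≥0∞) ^ Fintype.card V := by
  rw [pvf_colLaw_eq, Measure.infinitePi_singleton_of_fintype]
  simp only [pvCoin_apply, Finset.prod_const, Finset.card_univ]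

/-- finite `V`: the law of the colours is the normalised counting measure -/
theorem pvf_colLaw_fintype {V : Type} [Fintype V] (E : Set (V → Bool)) : colLaw V E = (E.ncard : ℝ≥0∞) * (2⁻¹ : ℝ≥0∞) ^ Fintype.card V := by
  classical
  have hfin : E.Finite := E.toFinite
  have h1 : colLaw V E = ∑ s ∈ hfin.toFinset, colLaw V {s} := by
    rw [sum_measure_singleton]
    simp
  rw [h1, Finset.sum_congr rfl fun s _ => pvf_colLaw_singleton s, Finset.sum_const, nsmul_eq_mul, Set.ncard_eq_toFinset_card E hfin]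

/-! ## B. measurability -/

/-- **reachability is measurable**: `ReflTransGen` of a measurable family of relations on a countable type -/
theorem pvf_meas_rtg {Ω α : Type} [MeasurableSpace Ω] [Countable α] (r : Ω → α → α → Prop) (hr : ∀ a b, MeasurableSet {w | r w a b}) (a b : α) :
    MeasurableSet {w | ReflTransGen (r w) a b} := by
  let R : ℕ → α → Set Ω := fun n => Nat.rec (fun b => {_w | a = b}) (fun _ Rn b => ⋃ c, Rn c ∩ {w | r w c b}) n
  have hR0 : ∀ b, R 0 b = {_w | a = b} := fun _ => rfl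
  have hRs : ∀ n b, R (n + 1) b = ⋃ c, R n c ∩ {w | r w c b} := fun _ _ => rfl
  have hm : ∀ n b, MeasurableSet (R n b) := by
    intro n
    induction n with
    | zero => intro b; rw [hR0]; exact MeasurableSet.const _
    | succ n ih => intro b; rw [hRs]; exact MeasurableSet.iUnion fun c => (ih c).inter (hr c b)
  have e : {w | ReflTransGen (r w) a b} = ⋃ n, R n b := by
    ext w
    simp only [mem_ofPred_eq, mem_iUnion]
    constructor
    · intro h
      induction h with
      | refl => exact ⟨0, rfl⟩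
      | tail _ hbc ih =>
        obtain ⟨n, hn⟩ := ih
        refine ⟨n + 1, ?_⟩
        rw [hRs]
        exact mem_iUnion.2 ⟨_, hn, hbc⟩
    · rintro ⟨n, hn⟩
      induction n generalizing b with
      | zero =>
        have : a = b := hn
        rw [this]
      | succ n ih =>
        rw [hRs] at hn
        obtain ⟨c, hc1, hc2⟩ := mem_iUnion.1 hn
        exact (ih c hc1).tail hc2
  rw [e]
  exact MeasurableSet.iUnion fun n => hm n b

section events

variable {V D : Type} (T : PvMap V D)

theorem pvf_meas_eq (v w : V) : MeasurableSet {s : V → Bool | s v = s w} :=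
  measurableSet_eq_fun (measurable_pi_apply v) (measurable_pi_apply w)

theorem pvf_meas_val (v : V) (b : Bool) : MeasurableSet {s : V → Bool | s v = b} :=
  measurableSet_eq_fun (measurable_pi_apply v) measurable_const

theorem pvf_meas_occ (d : D) : MeasurableSet {s : V → Bool | T.Occ s d} := (pvf_meas_eq _ _).compl

theorem pvf_meas_tag (d : D) : MeasurableSet {s : V → Bool | T.Tag s d} := (pvf_meas_eq _ _).inter (pvf_meas_eq _ _).compl

/-- a dart is a tag with probability `1/4` -/
theorem pvf_colLaw_tag (d : D) : colLaw V {s : V → Bool | T.Tag s d} = 4⁻¹ := by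
  classical
  have h1 := T.tgt_ne_src d
  have h2 := T.apex_ne_src d
  have h3 := T.apex_ne_tgt d
  let S : Finset V := {T.src d, T.tgt d, T.apex d}
  have hS : S.card = 3 := by
    show ({T.src d, T.tgt d, T.apex d} : Finset V).card = 3
    rw [Finset.card_insert_of_notMem, Finset.card_insert_of_notMem, Finset.card_singleton]
    · simpa using h3.symm
    · simp only [Finset.mem_insert, Finset.mem_singleton, not_or]
      exact ⟨h1.symm, h2.symm⟩
  let σ : Bool → V → Bool := fun b v => if v = T.apex d then !b else b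
  have hσ1 : ∀ b, σ b (T.src d) = b := fun b => if_neg h2.symm
  have hσ2 : ∀ b, σ b (T.tgt d) = b := fun b => if_neg h3.symm
  have hσ3 : ∀ b, σ b (T.apex d) = !b := fun b => if_pos rfl
  have hC : ∀ b, {s : V → Bool | ∀ v ∈ S, s v = σ b v} = {s | s (T.src d) = b ∧ s (T.tgt d) = b ∧ s (T.apex d) = !b} := by
    intro b
    ext s
    simp only [S, mem_ofPred_eq, Finset.mem_insert, Finset.mem_singleton, forall_eq_or_imp, forall_eq, hσ1, hσ2, hσ3]
  have e : {s : V → Bool | T.Tag s d} = {s | ∀ v ∈ S, s v = σ true v} ∪ {s | ∀ v ∈ S, s v = σ false v} := by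
    rw [hC, hC]
    ext s
    simp only [PvMap.Tag, mem_ofPred_eq, mem_union]
    cases s (T.src d) <;> cases s (T.tgt d) <;> cases s (T.apex d) <;> simp
  have hd : Disjoint {s : V → Bool | ∀ v ∈ S, s v = σ true v} {s | ∀ v ∈ S, s v = σ false v} := by
    rw [hC, hC]
    refine Set.disjoint_left.2 fun s h h' => ?_
    have := h.1.symm.trans h'.1
    exact absurd this (by decide)
  have hm : MeasurableSet {s : V → Bool | ∀ v ∈ S, s v = σ false v} := by
    rw [hC]
    exact (pvf_meas_val _ _).inter ((pvf_meas_val _ _).inter (pvf_meas_val _ _))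
  rw [e, measure_union hd hm, pvf_colLaw_cyl, pvf_colLaw_cyl, hS]
  rw [← two_mul, pow_succ, pow_two, ← mul_assoc, ← mul_assoc, ENNReal.mul_inv_cancel (by norm_num) (by norm_num), one_mul,
    ← ENNReal.mul_inv (by norm_num) (by norm_num)]
  norm_num

variable [Countable D]

theorem pvf_meas_wall (d d' : D) : MeasurableSet {s : V → Bool | T.Wall s d d'} := by
  refine pvf_meas_rtg (fun s a b => T.SF a b ∨ (T.Occ s a ∧ b = T.opp a)) (fun a b => ?_) d d'
  exact (MeasurableSet.const _).union ((pvf_meas_occ T a).inter (MeasurableSet.const _))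

theorem pvf_meas_cstep (d₀ a b : D) : MeasurableSet {s : V → Bool | T.CStep s d₀ a b} :=
  (MeasurableSet.const _).union ((MeasurableSet.const _).inter (pvf_meas_wall T d₀ a).compl)

theorem pvf_meas_inComp (d e : D) : MeasurableSet {s : V → Bool | T.InComp s d e} :=
  pvf_meas_rtg (fun s a b => T.CStep s d a b) (fun a b => pvf_meas_cstep T d a b) d e

theorem pvf_meas_sameLab (d d' : D) : MeasurableSet {s : V → Bool | T.SameLab s d d'} :=
  (pvf_meas_tag T d).inter ((pvf_meas_tag T d').inter ((pvf_meas_wall T d d').inter (pvf_meas_inComp T d d')))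

/-- the wall through `d` is a given set of darts -/
theorem pvf_meas_wall_eq (d : D) (L : Set D) : MeasurableSet {s : V → Bool | {e | T.Wall s d e} = L} := by
  have e : {s : V → Bool | {e | T.Wall s d e} = L} = ⋂ e, {s | T.Wall s d e ↔ e ∈ L} := by
    ext s
    simp only [mem_ofPred_eq, mem_iInter, Set.ext_iff]
  rw [e]
  refine MeasurableSet.iInter fun e => ?_
  by_cases h : e ∈ L
  · simpa only [h, iff_true] using pvf_meas_wall T d e
  · have e2 : {s : V → Bool | T.Wall s d e ↔ e ∈ L} = {s | T.Wall s d e}ᶜ := by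
      ext s; simp only [h, iff_false, mem_ofPred_eq, mem_compl_iff]
    rw [e2]; exact (pvf_meas_wall T d e).compl

theorem pvf_meas_wall_finite (d : D) : MeasurableSet {s : V → Bool | {e | T.Wall s d e}.Finite} := by
  have e : {s : V → Bool | {e | T.Wall s d e}.Finite} = ⋃ L : Finset D, {s | {e | T.Wall s d e} = (L : Set D)} := by
    ext s
    simp only [mem_ofPred_eq, mem_iUnion]
    constructor
    · intro h
      exact ⟨h.toFinset, h.coe_toFinset.symm⟩
    · rintro ⟨L, hL⟩
      rw [hL]; exact L.finite_toSet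
  rw [e]
  exact MeasurableSet.iUnion fun L => pvf_meas_wall_eq T d _

end events

/-! ## C. the piecewise-flip lemma -/

/-- **PIECEWISE FLIP, inequality**: `E` is covered by countably many disjoint measurable pieces, the piece `P i` is moved by the flip of `A i` into `E'`, and the moved pieces are disjoint -/
theorem pvf_piecewise_flip_le {V ι : Type} [Countable ι] {E E' : Set (V → Bool)} (P : ι → Set (V → Bool)) (A : ι → Set V)
    (hP : ∀ i, MeasurableSet (P i)) (hE : E ⊆ ⋃ i, P i)
    (hdisj : Pairwise (Function.onFun Disjoint fun i => pvfFlip (A i) '' P i)) (hE' : ∀ i, pvfFlip (A i) '' P i ⊆ E') :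
    colLaw V E ≤ colLaw V E' := by
  calc colLaw V E ≤ colLaw V (⋃ i, P i) := measure_mono hE
    _ ≤ ∑' i, colLaw V (P i) := measure_iUnion_le _
    _ = ∑' i, colLaw V (pvfFlip (A i) '' P i) := by simp only [pvf_colLaw_flip_image]
    _ = colLaw V (⋃ i, pvfFlip (A i) '' P i) := (measure_iUnion hdisj fun i => pvf_flip_image_meas _ (hP i)).symm
    _ ≤ colLaw V E' := measure_mono (iUnion_subset hE')

/-- **PIECEWISE FLIP, map form**: an injective map `Φ : E → E'` which on the measurable piece `{κ = i}` of `E` is the flip of `A i` -/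
theorem pvf_flip_map_le {V ι : Type} [Countable ι] {E E' : Set (V → Bool)} (Φ : (V → Bool) → (V → Bool)) (κ : (V → Bool) → ι) (A : ι → Set V)
    (hP : ∀ i, MeasurableSet {s | s ∈ E ∧ κ s = i}) (hΦ : ∀ s ∈ E, Φ s = pvfFlip (A (κ s)) s) (hinj : InjOn Φ E) (hE' : MapsTo Φ E E') :
    colLaw V E ≤ colLaw V E' := by
  refine pvf_piecewise_flip_le (fun i => {s | s ∈ E ∧ κ s = i}) A hP (fun s hs => mem_iUnion.2 ⟨κ s, hs, rfl⟩) ?_ ?_
  · intro i j hij
    refine Set.disjoint_left.2 ?_
    rintro _ ⟨s, ⟨hs, rfl⟩, rfl⟩ ⟨t, ⟨ht, rfl⟩, hst⟩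
    rw [← hΦ s hs, ← hΦ t ht] at hst
    exact hij (by rw [hinj ht hs hst])
  · rintro i _ ⟨s, ⟨hs, rfl⟩, rfl⟩
    rw [← hΦ s hs]
    exact hE' hs

/-! ## D. the QCOL seam: the colours are integrated last -/

/-- counts and positions (no colours) -/
abbrev PvfBase := (ℤ × ℤ → ℕ) × ((ℤ × ℤ) × ℕ → ℝ × ℝ)

/-- the index set of the potential sites -/
abbrev PvfIx := (ℤ × ℤ) × ℕ

/-- the law of the counts and positions -/
noncomputable def pvfBaseLaw (ε : ℝ) : Measure PvfBase :=
  (Measure.infinitePi (fun _ : ℤ × ℤ => ProbabilityTheory.poissonMeasure (pvRate ε))).prod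
    (Measure.infinitePi (fun _ : PvfIx => (volume : Measure (ℝ × ℝ)).restrict (Ico (0 : ℝ) 1 ×ˢ Ico (0 : ℝ) 1)))

/-- put the colours on -/
def pvfGlue (p : PvfBase × (PvfIx → Bool)) : PVSample := (p.1.1, fun i => (p.1.2 i, p.2 i))

theorem pvf_measurable_glue : Measurable pvfGlue := by
  unfold pvfGlue
  fun_prop

instance pvf_sq_prob : IsProbabilityMeasure ((volume : Measure (ℝ × ℝ)).restrict (Ico (0 : ℝ) 1 ×ˢ Ico (0 : ℝ) 1)) := ⟨by
  rw [Measure.restrict_apply MeasurableSet.univ, univ_inter, Measure.volume_eq_prod, Measure.prod_prod]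
  simp⟩

instance pvf_baseLaw_prob (ε : ℝ) : IsProbabilityMeasure (pvfBaseLaw ε) := by
  unfold pvfBaseLaw; infer_instance

/-- **QCOL**: the frozen law is the image of (counts, positions) x (fair colours) -/
theorem pvf_qcol (ε : ℝ) : pvLaw ε = ((pvfBaseLaw ε).prod (colLaw PvfIx)).map pvfGlue := by
  have hz := infinitePi_prod_zip (fun _ : PvfIx => (volume : Measure (ℝ × ℝ)).restrict (Ico (0 : ℝ) 1 ×ˢ Ico (0 : ℝ) 1)) (fun _ : PvfIx => pvCoin)
  rw [pvLaw_eq]
  have e1 : (Measure.infinitePi fun _ : PvfIx => pvMark)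
      = ((Measure.infinitePi fun _ : PvfIx => (volume : Measure (ℝ × ℝ)).restrict (Ico (0 : ℝ) 1 ×ˢ Ico (0 : ℝ) 1)).prod (colLaw PvfIx)).map
        (fun p i => (p.1 i, p.2 i)) := hz.symm
  rw [e1]
  have hzm : Measurable (fun (p : (PvfIx → ℝ × ℝ) × (PvfIx → Bool)) (i : PvfIx) => (p.1 i, p.2 i)) := by fun_prop
  set μN := Measure.infinitePi (fun _ : ℤ × ℤ => ProbabilityTheory.poissonMeasure (pvRate ε)) with hμN
  set μX := Measure.infinitePi fun _ : PvfIx => (volume : Measure (ℝ × ℝ)).restrict (Ico (0 : ℝ) 1 ×ˢ Ico (0 : ℝ) 1) with hμX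
  have e2 : μN.prod ((μX.prod (colLaw PvfIx)).map fun p i => (p.1 i, p.2 i))
      = (μN.prod (μX.prod (colLaw PvfIx))).map (Prod.map id fun p i => (p.1 i, p.2 i)) := by
    rw [← Measure.map_prod_map _ _ measurable_id hzm, Measure.map_id]
  rw [e2, ← Measure.prodAssoc_prod, Measure.map_map (measurable_id.prodMap hzm) MeasurableEquiv.prodAssoc.measurable]
  rfl

/-- **quenched Fubini**: the colours are integrated last -/
theorem pvf_qcol_lintegral (ε : ℝ) {F : PVSample → ℝ≥0∞} (hF : Measurable F) :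
    ∫⁻ ω, F ω ∂pvLaw ε = ∫⁻ b, ∫⁻ s, F (pvfGlue (b, s)) ∂colLaw PvfIx ∂pvfBaseLaw ε := by
  rw [pvf_qcol, lintegral_map hF pvf_measurable_glue]
  exact lintegral_prod (fun a => F (pvfGlue a)) (hF.comp pvf_measurable_glue).aemeasurable

theorem pvf_qcol_apply (ε : ℝ) {E : Set PVSample} (hE : MeasurableSet E) :
    pvLaw ε E = ∫⁻ b, colLaw PvfIx {s | pvfGlue (b, s) ∈ E} ∂pvfBaseLaw ε := by
  rw [pvf_qcol, Measure.map_apply pvf_measurable_glue hE, Measure.prod_apply (pvf_measurable_glue hE)]
  rfl

theorem pvf_qcol_ae (ε : ℝ) {p : PVSample → Prop} (hp : MeasurableSet {ω | p ω}) :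
    (∀ᵐ ω ∂pvLaw ε, p ω) ↔ ∀ᵐ b ∂pvfBaseLaw ε, ∀ᵐ s ∂colLaw PvfIx, p (pvfGlue (b, s)) := by
  rw [pvf_qcol, ae_map_iff pvf_measurable_glue.aemeasurable hp]
  exact Measure.ae_prod_iff_ae_ae (pvf_measurable_glue hp)

/-- forget the colours -/
def pvfBase (ω : PVSample) : PvfBase := (ω.1, fun i => (ω.2 i).1)
/-- the colours -/
def pvfCol (ω : PVSample) : PvfIx → Bool := fun i => (ω.2 i).2

theorem pvf_measurable_base : Measurable pvfBase := by unfold pvfBase; fun_prop
theorem pvf_measurable_col : Measurable pvfCol := by unfold pvfCol; fun_prop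
theorem pvf_glue_base_col (ω : PVSample) : pvfGlue (pvfBase ω, pvfCol ω) = ω := rfl
theorem pvf_base_glue (b : PvfBase) (s : PvfIx → Bool) : pvfBase (pvfGlue (b, s)) = b := rfl
theorem pvf_col_glue (b : PvfBase) (s : PvfIx → Bool) : pvfCol (pvfGlue (b, s)) = s := rfl

theorem pvf_map_base (ε : ℝ) : (pvLaw ε).map pvfBase = pvfBaseLaw ε := by
  rw [pvf_qcol, Measure.map_map pvf_measurable_base pvf_measurable_glue]
  exact Measure.map_fst_prod.trans (by rw [measure_univ, one_smul])

theorem pvf_map_col (ε : ℝ) : (pvLaw ε).map pvfCol = colLaw PvfIx := by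
  rw [pvf_qcol, Measure.map_map pvf_measurable_col pvf_measurable_glue]
  exact Measure.map_snd_prod.trans (by rw [measure_univ, one_smul])

/-- the sites do not depend on the colours -/
theorem pvf_site_glue (b : PvfBase) (s : PvfIx → Bool) (k : ℤ × ℤ) (j : ℕ) :
    pvSite (pvfGlue (b, s)) k j = ⟨(k.1 : ℝ) + (b.2 (k, j)).1, (k.2 : ℝ) + (b.2 (k, j)).2⟩ := rfl

/-- **flipping colours in the frozen model**: for every set `A b` of indices chosen from the counts and positions alone (jointly measurable event), the flip preserves `pvLaw` of events; inequality form of the piecewise flip, integrated over the base -/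
theorem pvf_qcol_mono (ε : ℝ) {E E' : Set PVSample} (hE : MeasurableSet E) (hE' : MeasurableSet E')
    (h : ∀ᵐ b ∂pvfBaseLaw ε, colLaw PvfIx {s | pvfGlue (b, s) ∈ E} ≤ colLaw PvfIx {s | pvfGlue (b, s) ∈ E'}) : pvLaw ε E ≤ pvLaw ε E' := by
  rw [pvf_qcol_apply ε hE, pvf_qcol_apply ε hE']
  exact lintegral_mono_ae h

theorem pvf_meas_eqns_cite : True := by
  have := @pvfBase.eq_1; have := @pvfCol.eq_1
  have := @pvfFlip.eq_1; have := @pvfFlipE.eq_1; have := @pvfBaseLaw.eq_1; have := @pvfGlue.eq_1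
  trivial

/-! ## E. QCOL2: given the sites, their colours are fair and independent -/

/-- position of the potential site `i` -/
def pvfPos (b : PvfBase) (i : PvfIx) : ℂ := ⟨(i.1.1 : ℝ) + (b.2 i).1, (i.1.2 : ℝ) + (b.2 i).2⟩
/-- the active indices -/
def pvfAct (b : PvfBase) : Set PvfIx := {i | i.2 < b.1 i.1}
/-- the sites -/
def pvfSites (b : PvfBase) : Set ℂ := pvfPos b '' pvfAct b
/-- the coloured configuration with sites `Y` and colours `σ` -/
def pvfCf (Y : Set ℂ) (σ : ↥Y → Bool) : Conf PvPt := ⟨{p | ∃ v : ↥Y, p = ((v : ℂ), σ v)}⟩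
open Classical in
/-- the colouring of the sites of a configuration (`true` = black) -/
noncomputable def pvfColOf (η : Conf PvPt) : ↥(cfSites η) → Bool := fun v => decide (((v : ℂ), true) ∈ η.pts)

theorem pvf_mem_conf_glue {b : PvfBase} {s : PvfIx → Bool} {p : PvPt} :
    p ∈ (pvConf (pvfGlue (b, s))).pts ↔ ∃ i ∈ pvfAct b, p = (pvfPos b i, s i) := by
  constructor
  · rintro ⟨k, j, hj, rfl⟩
    exact ⟨(k, j), hj, rfl⟩
  · rintro ⟨⟨k, j⟩, hj, rfl⟩
    exact ⟨k, j, hj, rfl⟩

theorem pvf_cfSites_glue (b : PvfBase) (s : PvfIx → Bool) : cfSites (pvConf (pvfGlue (b, s))) = pvfSites b := by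
  ext z
  simp only [cfSites, pvfSites, mem_image]
  constructor
  · rintro ⟨p, hp, rfl⟩
    obtain ⟨i, hi, rfl⟩ := pvf_mem_conf_glue.1 hp
    exact ⟨i, hi, rfl⟩
  · rintro ⟨i, hi, rfl⟩
    exact ⟨_, pvf_mem_conf_glue.2 ⟨i, hi, rfl⟩, rfl⟩

theorem pvf_sites_countable (b : PvfBase) : (pvfSites b).Countable := (Set.to_countable (pvfAct b)).image _

/-- an index of a site -/
noncomputable def pvfIdx (b : PvfBase) (v : ↥(pvfSites b)) : PvfIx := v.2.choose

theorem pvf_idx_act (b : PvfBase) (v : ↥(pvfSites b)) : pvfIdx b v ∈ pvfAct b := v.2.choose_spec.1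
theorem pvf_idx_pos (b : PvfBase) (v : ↥(pvfSites b)) : pvfPos b (pvfIdx b v) = v := v.2.choose_spec.2
theorem pvf_idx_inj (b : PvfBase) : Function.Injective (pvfIdx b) := fun v w h => by
  apply Subtype.ext
  rw [← pvf_idx_pos b v, ← pvf_idx_pos b w, h]

/-- without double points the configuration is (sites, colours of the sites) -/
theorem pvf_conf_glue {b : PvfBase} (hb : InjOn (pvfPos b) (pvfAct b)) (s : PvfIx → Bool) :
    pvConf (pvfGlue (b, s)) = pvfCf (pvfSites b) (s ∘ pvfIdx b) := by
  ext p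
  rw [pvf_mem_conf_glue]
  constructor
  · rintro ⟨i, hi, rfl⟩
    refine ⟨⟨pvfPos b i, i, hi, rfl⟩, ?_⟩
    have : pvfIdx b ⟨pvfPos b i, i, hi, rfl⟩ = i := hb (pvf_idx_act b _) hi (pvf_idx_pos b _)
    simp only [Function.comp_apply, this]
  · rintro ⟨v, rfl⟩
    exact ⟨pvfIdx b v, pvf_idx_act b v, by rw [pvf_idx_pos]; rfl⟩

theorem pvf_measurable_cf {Y : Set ℂ} (hY : Y.Countable) : Measurable (pvfCf Y) := by
  have := hY.to_subtype
  refine Conf.measurable_of_void fun B _ => ?_
  have e : pvfCf Y ⁻¹' Conf.void B = ⋂ v : ↥Y, {σ | ((v : ℂ), σ v) ∉ B} := by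
    ext σ
    simp only [mem_preimage, Conf.mem_void, pvfCf, mem_ofPred_eq, mem_iInter]
    constructor
    · intro h v
      exact h _ ⟨v, rfl⟩
    · rintro h _ ⟨v, rfl⟩
      exact h v
  rw [e]
  refine MeasurableSet.iInter fun v => ?_
  have hm : MeasurableSet {c : Bool | ((v : ℂ), c) ∉ B} := MeasurableSet.of_discrete
  exact (measurable_pi_apply (X := fun _ : ↥Y => Bool) v) hm

theorem pvf_cfSites_cf (Y : Set ℂ) (σ : ↥Y → Bool) : cfSites (pvfCf Y σ) = Y := by
  ext z
  simp only [cfSites, pvfCf, mem_image, mem_ofPred_eq]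
  constructor
  · rintro ⟨_, ⟨v, rfl⟩, rfl⟩
    exact v.2
  · intro hz
    exact ⟨_, ⟨⟨z, hz⟩, rfl⟩, rfl⟩

theorem pvf_mem_cf {Y : Set ℂ} {σ : ↥Y → Bool} (v : ↥Y) (c : Bool) : ((v : ℂ), c) ∈ (pvfCf Y σ).pts ↔ σ v = c := by
  constructor
  · rintro ⟨w, hw⟩
    have h1 : (v : ℂ) = w := congrArg Prod.fst hw
    have h2 : c = σ w := congrArg Prod.snd hw
    rw [Subtype.ext h1, h2]
  · rintro rfl
    exact ⟨v, rfl⟩

/-- **every functional of (sites, colouring) is read back from the configuration** -/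
theorem pvf_cf_rec {β : Sort*} (G : (Y : Set ℂ) → (↥Y → Bool) → β) (Y : Set ℂ) (σ : ↥Y → Bool) :
    G (cfSites (pvfCf Y σ)) (pvfColOf (pvfCf Y σ)) = G Y σ := by
  have key : ∀ (Y' : Set ℂ) (h : Y' = Y) (c : ↥Y' → Bool), (∀ v : ↥Y', c v = σ ⟨v, h ▸ v.2⟩) → G Y' c = G Y σ := by
    intro Y' h c hc
    subst h
    congr 1
    funext v
    exact hc v
  refine key _ (pvf_cfSites_cf Y σ) _ fun v => ?_
  have hv : (v : ℂ) ∈ Y := (Set.ext_iff.1 (pvf_cfSites_cf Y σ) v).1 v.2
  have h0 := pvf_mem_cf (σ := σ) ⟨v, hv⟩ true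
  show pvfColOf (pvfCf Y σ) v = σ ⟨v, hv⟩
  unfold pvfColOf
  cases h : σ ⟨v, hv⟩
  · rw [@decide_eq_false_iff_not]
    intro h'
    rw [h0.1 h'] at h
    exact absurd h (by decide)
  · rw [@decide_eq_true_iff]
    exact h0.2 h

/-- an almost sure property of the counts and positions -/
theorem pvf_ae_base (ε : ℝ) {q : PvfBase → Prop} (h : ∀ᵐ ω ∂pvLaw ε, q (pvfBase ω)) : ∀ᵐ b ∂pvfBaseLaw ε, q b := by
  rw [pvf_qcol] at h
  have h1 := ae_of_ae_map pvf_measurable_glue.aemeasurable h
  have h2 : ((pvfBaseLaw ε).prod (colLaw PvfIx)) ({b | ¬ q b} ×ˢ univ) = 0 := by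
    refine measure_mono_null ?_ h1
    rintro ⟨b, s⟩ ⟨hb, -⟩
    exact hb
  rw [Measure.prod_prod, measure_univ, mul_one] at h2
  exact h2

theorem pvf_ae_inj (ε : ℝ) : ∀ᵐ b ∂pvfBaseLaw ε, Function.Injective (pvfPos b) := by
  refine pvf_ae_base ε ?_
  filter_upwards [delgp_ae ε] with ω hω i j hij
  by_contra hne
  exact hω.inj i j hne hij

/-- **QCOL2, quenched Fubini on configurations**: sites first, then fair independent colours ON THE SITES -/
theorem pvf_quenched (ε : ℝ) {F : Conf PvPt → ℝ≥0∞} (hF : Measurable F) :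
    ∫⁻ η, F η ∂pvP ε = ∫⁻ b, ∫⁻ σ, F (pvfCf (pvfSites b) σ) ∂colLaw ↥(pvfSites b) ∂pvfBaseLaw ε := by
  unfold pvP
  rw [lintegral_map hF measurable_pvConf]
  refine (pvf_qcol_lintegral ε (hF.comp measurable_pvConf)).trans ?_
  refine lintegral_congr_ae ?_
  filter_upwards [pvf_ae_inj ε] with b hb
  rw [← pvf_colLaw_comp (pvfIdx b) (pvf_idx_inj b)]
  refine Eq.trans ?_ (lintegral_map (f := fun σ => F (pvfCf (pvfSites b) σ)) (hF.comp (pvf_measurable_cf (pvf_sites_countable b)))
    (measurable_pi_lambda _ fun v => measurable_pi_apply _)).symm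
  refine lintegral_congr fun s => ?_
  show F (pvConf (pvfGlue (b, s))) = _
  rw [pvf_conf_glue hb.injOn]

theorem pvf_quenched_apply (ε : ℝ) {E : Set (Conf PvPt)} (hE : MeasurableSet E) :
    pvP ε E = ∫⁻ b, colLaw ↥(pvfSites b) {σ | pvfCf (pvfSites b) σ ∈ E} ∂pvfBaseLaw ε := by
  have h := pvf_quenched ε (F := E.indicator 1) (measurable_one.indicator hE)
  rw [lintegral_indicator_one hE] at h
  rw [h]
  refine lintegral_congr fun b => ?_
  have hm : MeasurableSet {σ | pvfCf (pvfSites b) σ ∈ E} := pvf_measurable_cf (pvf_sites_countable b) hE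
  rw [← lintegral_indicator_one hm]
  rfl

theorem pvf_meas_eqns_cite2 : True := by
  have := @pvfPos.eq_1; have := @pvfAct.eq_1; have := @pvfSites.eq_1; have := @pvfCf.eq_1; have := @pvfColOf.eq_1; have := @pvfIdx.eq_1
  trivial

end Claimed.Agent.R289
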