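-- KEEP
import Claimed.Agent.R289.Pl.Defs

/-!
# Row 289 (S0537, Cardy for Poisson-Voronoi), box S1, file S1/Orth      (helper53; prefix `pvso`, `Pvso`)

**Prop 1.2 (finite orthogonality) in count form**, fully proved: `pvso_orth_count`:
on a finite triangulated sphere the number of colourings for which `d`, `d'` (darts of two different faces) are tags of one label
does not change under `(d, d') -> (nxt d, nxt (nxt d'))`.

Everything is done on `ZMod 2` cochains `c : D -> ZMod 2` (`S = pvsoCo s` = the occupied dual edges of the colouring `s`).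

* sec. 0-1: coboundary on faces `pvsoDel`, handshake `pvso_parity`;
* sec. 2: wall classes `pvsoW`, component steps `pvsoC`, TOGGLES `PvsoTog K d d' g` (`g` symmetric, inside `K` it is the indicator of `d`, `d'`,
  face sums zero off `K`): `pvso_tog_of_comp`, `pvso_comp_of_tog`: a toggle exists iff `d`, `d'` lie in one component of the complement of the wall;
* sec. 3: `PvsoLab S d d'` (cochain form of `SameLab`), `PvsoIm d d' r` (the image `r = S + g`), `pvso_fwd`, `pvso_bwd`: `S -> S + g` is a bijection `Lab -> Im`;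
* sec. 4-7: THETA: the three arcs of `r` between the faces of `d` and `d'` leave and enter in opposite cyclic orders (Sperner with labels in `(ZMod 2)^2`): `pvso_sperner`, `pvso_theta`, `pvso_theta_im`,
  hence `PvsoIm d d' r <-> PvsoIm (nxt d) (nxt (nxt d')) r`: `pvso_im_iff`;
* sec. 8: back to colourings: `pvso_lab_iff`, the bijection `pvsoPsi`, `pvso_psi`, `pvso_orth_count`.
-/

set_option autoImplicit false
set_option linter.unusedSectionVars false

namespace Claimed.Agent.R289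

open Relation

/-! ## finite checks (before the classical instances are opened) -/

/-- signed count of the oriented pair `α → β` -/
def pvsoF (α β a b : ZMod 2 × ZMod 2) : ℤ := (if a = α ∧ b = β then 1 else 0) - (if a = β ∧ b = α then 1 else 0)

/-- the same round a triangle -/
def pvsoM (α β p q w : ZMod 2 × ZMod 2) : ℤ := pvsoF α β p q + pvsoF α β q w + pvsoF α β w p

theorem pvso5_eqns_cite : True := by
  have := @pvsoF.eq_1; have := @pvsoM.eq_1
  trivial

set_option synthInstance.maxSize 2000 in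
set_option synthInstance.maxHeartbeats 400000 in
set_option maxRecDepth 100000 in
theorem pvso_dec_face : ∀ a0 a1 a2 b0 b1 b2 c0 c1 c2 : ZMod 2,
    (a0 = 1 → b0 = 0) → (a1 = 1 → b1 = 0) → (a2 = 1 → b2 = 0) → (a0 = 1 → c0 = 0) → (a1 = 1 → c1 = 0) → (a2 = 1 → c2 = 0) →
    (b0 = 1 → c0 = 0) → (b1 = 1 → c1 = 0) → (b2 = 1 → c2 = 0) → a0 + a1 + a2 = 0 → b0 + b1 + b2 = 0 → c0 + c1 + c2 = 0 →
    (a0 = 0 ∧ b0 = 0 ∧ c0 = 0) ∨ (a1 = 0 ∧ b1 = 0 ∧ c1 = 0) ∨ (a2 = 0 ∧ b2 = 0 ∧ c2 = 0) := by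
  decide

theorem pvso_dec_orient : ∀ l m : ZMod 2 × ZMod 2,
    ¬ ∀ α β : ZMod 2 × ZMod 2, pvsoM α β l (l + (1, 0)) (l + (1, 0) + (1, 1)) + pvsoM α β m (m + (1, 0)) (m + (1, 0) + (1, 1)) = 0 := by
  decide

set_option synthInstance.maxSize 2000 in
set_option synthInstance.maxHeartbeats 400000 in
set_option maxRecDepth 100000 in
theorem pvso_dec_u : ∀ a0 a1 a2 b0 b1 b2 c0 c1 c2 : ZMod 2,
    (a0 = 1 → b0 = 0) → (a1 = 1 → b1 = 0) → (a2 = 1 → b2 = 0) → (a0 = 1 → c0 = 0) → (a1 = 1 → c1 = 0) → (a2 = 1 → c2 = 0) →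
    (b0 = 1 → c0 = 0) → (b1 = 1 → c1 = 0) → (b2 = 1 → c2 = 0) → a0 + a1 + a2 = 1 → b0 + b1 + b2 = 1 → c0 + c1 + c2 = 1 → a0 = 1 →
    (a1 = 0 ∧ b0 = 0 ∧ c0 = 0 ∧ b1 = 1 ∧ c1 = 0) ∨ (b2 = 1 ∧ c1 = 1) := by
  decide

set_option synthInstance.maxSize 2000 in
set_option synthInstance.maxHeartbeats 400000 in
set_option maxRecDepth 100000 in
theorem pvso_dec_loc : ∀ a0 a1 a2 s0 s1 s2 : ZMod 2, (a0 = 1 → s0 = 1) → (a1 = 1 → s1 = 1) → (a2 = 1 → s2 = 1) → a0 + a1 + a2 = 0 → s0 + s1 + s2 = 0 →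
    ¬ (a0 = 0 ∧ a1 = 0 ∧ a2 = 0) → s0 = 1 → a0 = 1 := by
  decide

/-- `ZMod 2` to `Bool` -/
def pvsoB (x : ZMod 2) : Bool := decide (x = 1)

theorem pvsoB_eqns_cite : True := by
  have := @pvsoB.eq_1
  trivial

theorem pvso_dec_bool : ∀ a b c : Bool, ((if a = b then 0 else 1 : ZMod 2) + (if b = c then 0 else 1) + (if c = a then 0 else 1)) = 0 := by
  decide

theorem pvso_dec_sh : ∀ (a b : Bool) (x y : ZMod 2),
    (if xor a (pvsoB x) = xor b (pvsoB y) then (0 : ZMod 2) else 1) = (if a = b then 0 else 1) + (x + y) := by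
  decide

theorem pvso_dec_xor : ∀ (a : Bool) (x : ZMod 2), xor (xor a (pvsoB x)) (pvsoB x) = a := by
  decide

open Classical

section pvso

variable {V D : Type} (T : PvMap V D)

/-! ## 0. cochains: indicator, face degree -/

/-- indicator of a dart -/
noncomputable def pvsoI (a : D) (x : D) : ZMod 2 := if x = a then 1 else 0

/-- indicator of a face -/
noncomputable def pvsoFc (a : D) (x : D) : ZMod 2 := if T.SF a x then 1 else 0

/-- degree (mod 2) of a cochain at the face of `x` -/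
def pvsoDel (c : D → ZMod 2) (x : D) : ZMod 2 := c x + c (T.nxt x) + c (T.nxt (T.nxt x))

theorem pvso0_eqns_cite : True := by
  have := @pvsoI.eq_1; have := @pvsoFc.eq_1; have := @pvsoDel.eq_1
  trivial

theorem pvso_z2_cases (x : ZMod 2) : x = 0 ∨ x = 1 := by revert x; decide

theorem pvso_z2_ne_zero {x : ZMod 2} (h : x ≠ 0) : x = 1 := (pvso_z2_cases x).resolve_left h

theorem pvso_z2_ne_one {x : ZMod 2} (h : x ≠ 1) : x = 0 := (pvso_z2_cases x).resolve_right h

theorem pvso_del_add (c c' : D → ZMod 2) (x : D) : pvsoDel T (fun y => c y + c' y) x = pvsoDel T c x + pvsoDel T c' x := by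
  unfold pvsoDel; ring

theorem pvso_del_nxt (c : D → ZMod 2) (x : D) : pvsoDel T c (T.nxt x) = pvsoDel T c x := by
  unfold pvsoDel; rw [T.nxt3]; ring

theorem pvso_del_sf (c : D → ZMod 2) {x y : D} (h : T.SF x y) : pvsoDel T c y = pvsoDel T c x := by
  rcases h with rfl | rfl | rfl
  · rfl
  · exact pvso_del_nxt T c x
  · rw [pvso_del_nxt, pvso_del_nxt]

theorem pvso_del_congr {c c' : D → ZMod 2} {x : D} (h : ∀ y, T.SF x y → c y = c' y) : pvsoDel T c x = pvsoDel T c' x := by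
  unfold pvsoDel
  rw [h x (T.sf_refl x), h _ (T.sf_nxt x), h _ (T.sf_nxt2 x)]

theorem pvso_del_I (a x : D) : pvsoDel T (pvsoI a) x = pvsoFc T a x := by
  unfold pvsoDel pvsoI pvsoFc
  by_cases h1 : x = a
  · subst h1
    rw [if_pos rfl, if_neg (T.nxt_ne_self x), if_neg (T.nxt2_ne_self x), if_pos (T.sf_refl x)]; simp
  · by_cases h2 : T.nxt x = a
    · subst h2
      have h3 : T.nxt (T.nxt x) ≠ T.nxt x := T.nxt_ne_self _
      rw [if_neg h1, if_pos rfl, if_neg h3, if_pos (T.sf_symm (T.sf_nxt x))]; simp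
    · by_cases h3 : T.nxt (T.nxt x) = a
      · subst h3
        rw [if_neg h1, if_neg h2, if_pos rfl, if_pos (T.sf_symm (T.sf_nxt2 x))]; simp
      · have h4 : ¬ T.SF a x := by
          intro h
          rcases T.sf_symm h with h | h | h
          · exact h1 h.symm
          · exact h2 h.symm
          · exact h3 h.symm
        rw [if_neg h1, if_neg h2, if_neg h3, if_neg h4]; simp

theorem pvso_fc_sf {a b : D} (h : T.SF a b) (x : D) : pvsoFc T b x = pvsoFc T a x := by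
  unfold pvsoFc
  by_cases h1 : T.SF a x
  · rw [if_pos h1, if_pos (T.sf_trans (T.sf_symm h) h1)]
  · rw [if_neg h1, if_neg (fun h2 => h1 (T.sf_trans h h2))]

theorem pvso_sym_add {c c' : D → ZMod 2} (h : T.Sym c) (h' : T.Sym c') : T.Sym (fun y => c y + c' y) := fun x => by
  show c (T.opp x) + c' (T.opp x) = c x + c' x
  rw [h x, h' x]

/-- the edge of `a` as a symmetric cochain -/
theorem pvso_sym_edge (a : D) : T.Sym (fun y => pvsoI a y + pvsoI (T.opp a) y) := fun x => by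
  show pvsoI a (T.opp x) + pvsoI (T.opp a) (T.opp x) = pvsoI a x + pvsoI (T.opp a) x
  unfold pvsoI
  have e1 : (T.opp x = a) ↔ (x = T.opp a) := ⟨fun h => by rw [← h, T.opp_opp], fun h => by rw [h, T.opp_opp]⟩
  have e2 : (T.opp x = T.opp a) ↔ (x = a) := ⟨fun h => T.opp_injective h, fun h => by rw [h]⟩
  simp only [e1, e2]
  ring

/-! ## 1. parity -/

variable [Fintype D]

theorem pvso_nxt_bij : Function.Bijective T.nxt := ⟨T.nxt_injective, fun x => ⟨T.nxt (T.nxt x), T.nxt3 x⟩⟩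

theorem pvso_sum_nxt {M : Type} [AddCommMonoid M] (F : D → M) : ∑ x, F (T.nxt x) = ∑ x, F x :=
  (pvso_nxt_bij T).sum_comp F

/-- handshake -/
theorem pvso_sum_sym {h : D → ZMod 2} (hs : T.Sym h) : ∑ x, h x = 0 := by
  refine Finset.sum_involution (fun x _ => T.opp x) ?_ ?_ ?_ ?_
  · intro x _
    rw [hs x]
    exact CharTwo.add_self_eq_zero _
  · intro x _ _
    exact T.opp_ne_self x
  · intro x _
    exact Finset.mem_univ _
  · intro x _
    exact T.opp_opp x

theorem pvso_sum_del (h : D → ZMod 2) : ∑ x, pvsoDel T h x = ∑ x, h x := by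
  unfold pvsoDel
  rw [Finset.sum_add_distrib, Finset.sum_add_distrib, pvso_sum_nxt T (fun x => h (T.nxt x)), pvso_sum_nxt T h]
  have : ∑ x, h x + ∑ x, h x = 0 := CharTwo.add_self_eq_zero _
  rw [this, zero_add]

/-- **parity**: a symmetric cochain cannot have the face degrees of a cochain of odd total mass -/
theorem pvso_parity {h k : D → ZMod 2} (hs : T.Sym h) (hk : ∀ x, pvsoDel T h x = pvsoDel T k x) : ∑ x, k x = 0 := by
  rw [← pvso_sum_del T k, ← Finset.sum_congr rfl (fun x _ => hk x), pvso_sum_del, pvso_sum_sym T hs]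

theorem pvso_sum_I (a : D) : ∑ x, pvsoI a x = 1 := by
  unfold pvsoI
  rw [Finset.sum_ite_eq' Finset.univ a]
  simp

end pvso

/-! ## 2. wall classes of a cochain -/

section pvso2

variable {V D : Type} (T : PvMap V D)

/-- `d'` lies in a face of the wall of the cochain `c` through the face of `d` -/
def pvsoW (c : D → ZMod 2) (d d' : D) : Prop := ReflTransGen (fun a b => T.SF a b ∨ (c a = 1 ∧ b = T.opp a)) d d'

/-- restriction of a cochain to a set of darts -/
noncomputable def pvsoR (c : D → ZMod 2) (K : Set D) (x : D) : ZMod 2 := if x ∈ K then c x else 0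

/-- one step beside the face set `K`: cross the dual edge, or turn inside a face off `K` -/
def pvsoC (K : Set D) (a b : D) : Prop := b = T.opp a ∨ (T.SF a b ∧ a ∉ K)

/-- toggle cochain: joins the spokes `d`, `d'` of `K` beside `K` -/
def PvsoTog (K : Set D) (d d' : D) (g : D → ZMod 2) : Prop :=
  T.Sym g ∧ (∀ x ∈ K, g x = pvsoI d x + pvsoI d' x) ∧ ∀ x, x ∉ K → pvsoDel T g x = 0

theorem pvso2_eqns_cite : True := by
  have := @pvsoW.eq_1; have := @pvsoR.eq_1; have := @pvsoC.eq_1; have := @PvsoTog.eq_1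
  trivial

theorem pvso_W_refl (c : D → ZMod 2) (d : D) : pvsoW T c d d := ReflTransGen.refl

theorem pvso_W_sf {c : D → ZMod 2} {d x y : D} (h : pvsoW T c d x) (hxy : T.SF x y) : pvsoW T c d y :=
  ReflTransGen.tail h (Or.inl hxy)

theorem pvso_W_opp {c : D → ZMod 2} {d x : D} (h : pvsoW T c d x) (hx : c x = 1) : pvsoW T c d (T.opp x) :=
  ReflTransGen.tail h (Or.inr ⟨hx, rfl⟩)

theorem pvso_W_face (c : D → ZMod 2) (d : D) : T.FaceSet {x | pvsoW T c d x} := fun x =>
  ⟨fun h => pvso_W_sf T h (T.sf_symm (T.sf_nxt x)), fun h => pvso_W_sf T h (T.sf_nxt x)⟩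

/-- a closed set contains the class -/
theorem pvso_W_sub {c : D → ZMod 2} {d : D} {Z : Set D} (hd : d ∈ Z) (hZ : T.FaceSet Z) (hc : ∀ a ∈ Z, c a = 1 → T.opp a ∈ Z)
    {x : D} (h : pvsoW T c d x) : x ∈ Z := by
  induction h with
  | refl => exact hd
  | tail _ hbc ih =>
    rcases hbc with h1 | ⟨h1, rfl⟩
    · exact (hZ.sf T h1).2 ih
    · exact hc _ ih h1

theorem pvso_W_mono {c c' : D → ZMod 2} (h : ∀ x, c x = 1 → c' x = 1) {d x : D} (hx : pvsoW T c d x) : pvsoW T c' d x := by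
  refine ReflTransGen.mono (fun a b hab => ?_) d x hx
  rcases hab with h1 | ⟨h1, h2⟩
  · exact Or.inl h1
  · exact Or.inr ⟨h a h1, h2⟩

/-- **locality**: the class depends only on the cochain on the class -/
theorem pvso_W_congr {c c' : D → ZMod 2} {d : D} (h : ∀ x, pvsoW T c d x → c' x = c x) (x : D) : pvsoW T c' d x ↔ pvsoW T c d x := by
  constructor
  · intro hx
    induction hx with
    | refl => exact ReflTransGen.refl
    | tail _ hbc ih =>
      rcases hbc with h1 | ⟨h1, rfl⟩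
      · exact pvso_W_sf T ih h1
      · exact pvso_W_opp T ih (by rw [← h _ ih]; exact h1)
  · intro hx
    induction hx with
    | refl => exact ReflTransGen.refl
    | tail hab hbc ih =>
      rcases hbc with h1 | ⟨h1, rfl⟩
      · exact pvso_W_sf T ih h1
      · exact pvso_W_opp T ih (by rw [h _ hab]; exact h1)

theorem pvso_R_sym {c : D → ZMod 2} (hc : T.Sym c) {K : Set D} (hK : ∀ a ∈ K, c a = 1 → T.opp a ∈ K) : T.Sym (pvsoR c K) := fun x => by
  unfold pvsoR
  rcases pvso_z2_cases (c x) with h0 | h1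
  · have h0' : c (T.opp x) = 0 := by rw [hc x]; exact h0
    rw [h0, h0']; simp
  · have h1' : c (T.opp x) = 1 := by rw [hc x]; exact h1
    have e : T.opp x ∈ K ↔ x ∈ K := ⟨fun h => by have := hK _ h h1'; rwa [T.opp_opp] at this, fun h => hK _ h h1⟩
    simp only [e, hc x]

theorem pvso_R_del (c : D → ZMod 2) {K : Set D} (hK : T.FaceSet K) (x : D) : pvsoDel T (pvsoR c K) x = if x ∈ K then pvsoDel T c x else 0 := by
  unfold pvsoDel pvsoR
  by_cases h : x ∈ K
  · rw [if_pos h, if_pos ((hK x).2 h), if_pos ((hK.nxt2 T x).2 h), if_pos h]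
  · rw [if_neg h, if_neg (fun h' => h ((hK x).1 h')), if_neg (fun h' => h ((hK.nxt2 T x).1 h')), if_neg h]; simp

theorem pvso_fc_out {K : Set D} (hK : T.FaceSet K) {a x : D} (ha : a ∈ K) (hx : x ∉ K) : pvsoFc T a x = 0 := by
  unfold pvsoFc
  rw [if_neg (fun h => hx ((hK.sf T h).2 ha))]

/-! ## 3. toggles and components -/

theorem pvso_tog_aux {K : Set D} (hK : T.FaceSet K) {d e : D} (hd : d ∈ K) (h : ReflTransGen (pvsoC T K) d e) :
    ∃ g : D → ZMod 2, T.Sym g ∧ (∀ x ∈ K, g x = pvsoI d x + pvsoI e x) ∧ ∀ x, x ∉ K → pvsoDel T g x = pvsoFc T e x := by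
  have z3 : ∀ a b c : ZMod 2, a + b + (b + c) = a + c := by decide
  induction h with
  | refl =>
    refine ⟨fun _ => 0, fun _ => rfl, fun x _ => (CharTwo.add_self_eq_zero _).symm, fun x hx => ?_⟩
    rw [pvso_fc_out T hK hd hx]
    simp [pvsoDel]
  | @tail b c _ hbc ih =>
    obtain ⟨g, g1, g2, g3⟩ := ih
    rcases hbc with rfl | ⟨hsf, hb⟩
    · refine ⟨fun y => g y + (pvsoI b y + pvsoI (T.opp b) y), pvso_sym_add T g1 (pvso_sym_edge T b), ?_, ?_⟩
      · intro x hx
        show g x + (pvsoI b x + pvsoI (T.opp b) x) = _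
        rw [g2 x hx, z3]
      · intro x hx
        rw [pvso_del_add, g3 x hx, pvso_del_add, pvso_del_I, pvso_del_I, ← add_assoc, CharTwo.add_self_eq_zero, zero_add]
    · have hc : c ∉ K := fun h => hb ((hK.sf T hsf).1 h)
      refine ⟨g, g1, ?_, ?_⟩
      · intro x hx
        rw [g2 x hx]
        have e1 : pvsoI b x = 0 := by unfold pvsoI; rw [if_neg (fun h : x = b => hb (h ▸ hx))]
        have e2 : pvsoI c x = 0 := by unfold pvsoI; rw [if_neg (fun h : x = c => hc (h ▸ hx))]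
        rw [e1, e2]
      · intro x hx
        rw [g3 x hx, pvso_fc_sf T hsf]

/-- a component beside `K` gives a toggle -/
theorem pvso_tog_of_comp {K : Set D} (hK : T.FaceSet K) {d d' : D} (hd : d ∈ K) (hd' : d' ∈ K) (h : ReflTransGen (pvsoC T K) d d') :
    ∃ g, PvsoTog T K d d' g := by
  obtain ⟨g, g1, g2, g3⟩ := pvso_tog_aux T hK hd h
  exact ⟨g, g1, g2, fun x hx => by rw [g3 x hx, pvso_fc_out T hK hd' hx]⟩

/-- a toggle gives a component (handshake) -/
theorem pvso_comp_of_tog [Fintype D] {K : Set D} (hK : T.FaceSet K) {d d' : D} (hd : d ∈ K) (hne : d ≠ d') {g : D → ZMod 2}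
    (hg : PvsoTog T K d d' g) : ReflTransGen (pvsoC T K) d d' := by
  by_contra hn
  obtain ⟨g1, g2, g3⟩ := hg
  obtain ⟨C, hC⟩ : ∃ C : Set D, C = {e | ReflTransGen (pvsoC T K) d e} := ⟨_, rfl⟩
  have hCo : ∀ x, x ∈ C → T.opp x ∈ C := by
    intro x hx
    rw [hC] at hx ⊢
    exact ReflTransGen.tail hx (Or.inl rfl)
  have hCf : ∀ x y, x ∉ K → T.SF x y → x ∈ C → y ∈ C := by
    intro x y hx hxy hxC
    rw [hC] at hxC ⊢
    exact ReflTransGen.tail hxC (Or.inr ⟨hxy, hx⟩)
  have hdC : d ∈ C := by rw [hC]; exact ReflTransGen.refl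
  have hd'C : d' ∉ C := by rw [hC]; exact hn
  have hs : T.Sym (pvsoR g C) := by
    intro x
    unfold pvsoR
    have e : T.opp x ∈ C ↔ x ∈ C := ⟨fun h => by have := hCo _ h; rwa [T.opp_opp] at this, hCo x⟩
    simp only [e, g1 x]
  have hk : ∀ x, pvsoDel T (pvsoR g C) x = pvsoDel T (pvsoI d) x := by
    intro x
    by_cases hx : x ∈ K
    · refine pvso_del_congr T fun y hy => ?_
      have hyK : y ∈ K := (hK.sf T hy).2 hx
      unfold pvsoR
      by_cases h1 : y = d
      · rw [h1, if_pos hdC, g2 d hd]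
        have : pvsoI d' d = 0 := by unfold pvsoI; rw [if_neg hne]
        rw [this, add_zero]
      · by_cases h2 : y = d'
        · rw [h2, if_neg hd'C]
          unfold pvsoI; rw [if_neg (Ne.symm hne)]
        · have e1 : pvsoI d y = 0 := by unfold pvsoI; rw [if_neg h1]
          have e2 : pvsoI d' y = 0 := by unfold pvsoI; rw [if_neg h2]
          rw [g2 y hyK, e1, e2]; simp
    · rw [pvso_del_I, pvso_fc_out T hK hd hx]
      by_cases hxC : x ∈ C
      · have e : pvsoDel T (pvsoR g C) x = pvsoDel T g x := by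
          refine pvso_del_congr T fun y hy => ?_
          unfold pvsoR
          rw [if_pos (hCf x y hx hy hxC)]
        rw [e, g3 x hx]
      · have e : pvsoDel T (pvsoR g C) x = pvsoDel T (fun _ => 0) x := by
          refine pvso_del_congr T fun y hy => ?_
          unfold pvsoR
          rw [if_neg (fun h => hxC (hCf y x (fun h' => hx ((hK.sf T hy).1 h')) (T.sf_symm hy) h))]
        rw [e]; simp [pvsoDel]
  have := pvso_parity T hs hk
  rw [pvso_sum_I] at this
  exact one_ne_zero this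

end pvso2

/-! ## 4. labels on cochains; the map `S ↦ S + toggle` and its image -/

section pvso4

variable {V D : Type} (T : PvMap V D)

/-- remove the two spokes -/
noncomputable def pvsoCut (r : D → ZMod 2) (d d' : D) (x : D) : ZMod 2 :=
  if x = d ∨ x = T.opp d ∨ x = d' ∨ x = T.opp d' then 0 else r x

/-- the wall class through `d` of `r` without the two spokes -/
def pvsoK (r : D → ZMod 2) (d d' : D) : Set D := {x | pvsoW T (pvsoCut T r d d') d x}

/-- `SameLab` on cochains -/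
structure PvsoLab (S : D → ZMod 2) (d d' : D) : Prop where
  sym : T.Sym S
  coc : ∀ x, pvsoDel T S x = 0
  t0 : S d = 0
  t1 : S (T.nxt d) = 1
  u0 : S d' = 0
  u1 : S (T.nxt d') = 1
  mem : pvsoW T S d d'
  comp : ReflTransGen (pvsoC T {x | pvsoW T S d x}) d d'

/-- the image of `S ↦ S + toggle` -/
structure PvsoIm (d d' : D) (r : D → ZMod 2) : Prop where
  sym : T.Sym r
  one : ∀ x, T.SF d x ∨ T.SF d' x → r x = 1
  ev : ∀ x, ¬ T.SF d x → ¬ T.SF d' x → pvsoDel T r x = 0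
  mem : d' ∈ pvsoK T r d d'
  tog : ∃ g, PvsoTog T (pvsoK T r d d') d d' g

theorem pvso4_eqns_cite : True := by
  have := @pvsoCut.eq_1; have := @pvsoK.eq_1
  trivial

variable {T}

theorem PvsoLab.t2 {S : D → ZMod 2} {d d' : D} (h : PvsoLab T S d d') : S (T.nxt (T.nxt d)) = 1 := by
  have := h.coc d
  unfold pvsoDel at this
  rw [h.t0, h.t1] at this
  have z : ∀ a : ZMod 2, 0 + 1 + a = 0 → a = 1 := by decide
  exact z _ this

theorem PvsoLab.u2 {S : D → ZMod 2} {d d' : D} (h : PvsoLab T S d d') : S (T.nxt (T.nxt d')) = 1 := by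
  have := h.coc d'
  unfold pvsoDel at this
  rw [h.u0, h.u1] at this
  have z : ∀ a : ZMod 2, 0 + 1 + a = 0 → a = 1 := by decide
  exact z _ this

theorem pvso_I_self (a : D) : pvsoI a a = 1 := by unfold pvsoI; rw [if_pos rfl]

theorem pvso_I_ne {a x : D} (h : x ≠ a) : pvsoI a x = 0 := by unfold pvsoI; rw [if_neg h]

section tog

variable {K : Set D} {d d' : D} {g : D → ZMod 2}

theorem PvsoTog.at_d (hg : PvsoTog T K d d' g) (hd : d ∈ K) (hne : d ≠ d') : g d = 1 := by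
  rw [hg.2.1 d hd, pvso_I_self, pvso_I_ne hne, add_zero]

theorem PvsoTog.at_d' (hg : PvsoTog T K d d' g) (hd' : d' ∈ K) (hne : d ≠ d') : g d' = 1 := by
  rw [hg.2.1 d' hd', pvso_I_self, pvso_I_ne (Ne.symm hne), zero_add]

theorem PvsoTog.off (hg : PvsoTog T K d d' g) {x : D} (hx : x ∈ K) (h1 : x ≠ d) (h2 : x ≠ d') : g x = 0 := by
  rw [hg.2.1 x hx, pvso_I_ne h1, pvso_I_ne h2, add_zero]

theorem PvsoTog.del (hg : PvsoTog T K d d' g) (hK : T.FaceSet K) (hd : d ∈ K) (hd' : d' ∈ K) (x : D) :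
    pvsoDel T g x = pvsoFc T d x + pvsoFc T d' x := by
  by_cases hx : x ∈ K
  · have e : pvsoDel T g x = pvsoDel T (fun y => pvsoI d y + pvsoI d' y) x :=
      pvso_del_congr T fun y hy => hg.2.1 y ((hK.sf T hy).2 hx)
    rw [e, pvso_del_add, pvso_del_I, pvso_del_I]
  · rw [hg.2.2 x hx, pvso_fc_out T hK hd hx, pvso_fc_out T hK hd' hx, add_zero]

theorem PvsoTog.opp_d (hg : PvsoTog T K d d' g) (hd : d ∈ K) (hne : d ≠ d') (h : T.opp d ∈ K) : T.opp d = d' := by
  by_contra hn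
  have h1 := hg.off h (T.opp_ne_self d) hn
  rw [hg.1 d, hg.at_d hd hne] at h1
  exact one_ne_zero h1

theorem PvsoTog.opp_d' (hg : PvsoTog T K d d' g) (hd' : d' ∈ K) (hne : d ≠ d') (h : T.opp d' ∈ K) : T.opp d' = d := by
  by_contra hn
  have h1 := hg.off h hn (T.opp_ne_self d')
  rw [hg.1 d', hg.at_d' hd' hne] at h1
  exact one_ne_zero h1

end tog

theorem pvso_fc_self (a : D) : pvsoFc T a a = 1 := by unfold pvsoFc; rw [if_pos (T.sf_refl a)]

theorem pvso_fc_pos {a x : D} (h : T.SF a x) : pvsoFc T a x = 1 := by unfold pvsoFc; rw [if_pos h]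

theorem pvso_fc_neg {a x : D} (h : ¬ T.SF a x) : pvsoFc T a x = 0 := by unfold pvsoFc; rw [if_neg h]

/-- **forward** -/
theorem pvso_fwd {S g : D → ZMod 2} {d d' : D} (hdd : ¬ T.SF d d') (h : PvsoLab T S d d') (hg : PvsoTog T {x | pvsoW T S d x} d d' g) :
    PvsoIm T d d' (fun x => S x + g x) ∧ pvsoK T (fun x => S x + g x) d d' = {x | pvsoW T S d x} := by
  have hK := pvso_W_face T S d
  have hd : d ∈ {x | pvsoW T S d x} := pvso_W_refl T S d
  have hd' : d' ∈ {x | pvsoW T S d x} := h.mem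
  have hne : d ≠ d' := fun e => hdd (e ▸ T.sf_refl d)
  have hKe : pvsoK T (fun x => S x + g x) d d' = {x | pvsoW T S d x} := by
    refine Set.ext fun x => pvso_W_congr T (fun x hx => ?_) x
    unfold pvsoCut
    by_cases h1 : x = d
    · rw [if_pos (Or.inl h1), h1, h.t0]
    · by_cases h2 : x = T.opp d
      · rw [if_pos (Or.inr (Or.inl h2)), h2, h.sym d, h.t0]
      · by_cases h3 : x = d'
        · rw [if_pos (Or.inr (Or.inr (Or.inl h3))), h3, h.u0]
        · by_cases h4 : x = T.opp d'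
          · rw [if_pos (Or.inr (Or.inr (Or.inr h4))), h4, h.sym d', h.u0]
          · rw [if_neg (by tauto)]
            show S x + g x = S x
            rw [hg.off hx h1 h3, add_zero]
  refine ⟨⟨pvso_sym_add T h.sym hg.1, ?_, ?_, ?_, ?_⟩, hKe⟩
  · intro x hx
    show S x + g x = 1
    rcases hx with hx | hx
    · have hxK : x ∈ {x | pvsoW T S d x} := (hK.sf T hx).2 hd
      have hxd' : x ≠ d' := fun e => hdd (e ▸ hx)
      rcases hx with rfl | rfl | rfl
      · rw [h.t0, hg.at_d hd hne, zero_add]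
      · rw [h.t1, hg.off hxK (T.nxt_ne_self d) hxd', add_zero]
      · rw [h.t2, hg.off hxK (T.nxt2_ne_self d) hxd', add_zero]
    · have hxK : x ∈ {x | pvsoW T S d x} := (hK.sf T hx).2 hd'
      have hxd : x ≠ d := fun e => hdd (T.sf_symm (e ▸ hx))
      rcases hx with rfl | rfl | rfl
      · rw [h.u0, hg.at_d' hd' hne, zero_add]
      · rw [h.u1, hg.off hxK hxd (T.nxt_ne_self d'), add_zero]
      · rw [h.u2, hg.off hxK hxd (T.nxt2_ne_self d'), add_zero]
  · intro x h1 h2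
    rw [pvso_del_add, h.coc x, hg.del hK hd hd', pvso_fc_neg h1, pvso_fc_neg h2]; simp
  · rw [hKe]; exact hd'
  · rw [hKe]; exact ⟨g, hg⟩

/-- **backward** -/
theorem pvso_bwd [Fintype D] {r g : D → ZMod 2} {d d' : D} (hdd : ¬ T.SF d d') (h : PvsoIm T d d' r) (hg : PvsoTog T (pvsoK T r d d') d d' g) :
    PvsoLab T (fun x => r x + g x) d d' ∧ {x | pvsoW T (fun x => r x + g x) d x} = pvsoK T r d d' := by
  have hK : T.FaceSet (pvsoK T r d d') := pvso_W_face T _ d
  have hd : d ∈ pvsoK T r d d' := pvso_W_refl T _ d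
  have hd' : d' ∈ pvsoK T r d d' := h.mem
  have hne : d ≠ d' := fun e => hdd (e ▸ T.sf_refl d)
  have z1 : (1 : ZMod 2) + 1 = 0 := by decide
  have hKe : {x | pvsoW T (fun x => r x + g x) d x} = pvsoK T r d d' := by
    refine Set.ext fun x => pvso_W_congr T (fun x hx => ?_) x
    have hx' : x ∈ pvsoK T r d d' := hx
    show r x + g x = pvsoCut T r d d' x
    unfold pvsoCut
    by_cases h1 : x = d
    · rw [if_pos (Or.inl h1), h1, h.one d (Or.inl (T.sf_refl d)), hg.at_d hd hne, z1]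
    · by_cases h3 : x = d'
      · rw [if_pos (Or.inr (Or.inr (Or.inl h3))), h3, h.one d' (Or.inr (T.sf_refl d')), hg.at_d' hd' hne, z1]
      · have h2 : x ≠ T.opp d := fun e => h3 (by rw [e]; exact hg.opp_d hd hne (e ▸ hx'))
        have h4 : x ≠ T.opp d' := fun e => h1 (by rw [e]; exact hg.opp_d' hd' hne (e ▸ hx'))
        rw [if_neg (by tauto), hg.off hx' h1 h3, add_zero]
  refine ⟨⟨pvso_sym_add T h.sym hg.1, ?_, ?_, ?_, ?_, ?_, ?_, ?_⟩, hKe⟩
  · intro x
    rw [pvso_del_add, hg.del hK hd hd']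
    by_cases h1 : T.SF d x
    · have h2 : ¬ T.SF d' x := fun h2 => hdd (T.sf_trans h1 (T.sf_symm h2))
      have e : pvsoDel T r x = 1 := by
        unfold pvsoDel
        rw [h.one x (Or.inl h1), h.one _ (Or.inl (T.sf_trans h1 (T.sf_nxt x))), h.one _ (Or.inl (T.sf_trans h1 (T.sf_nxt2 x)))]
        decide
      rw [e, pvso_fc_pos h1, pvso_fc_neg h2]; decide
    · by_cases h2 : T.SF d' x
      · have e : pvsoDel T r x = 1 := by
          unfold pvsoDel
          rw [h.one x (Or.inr h2), h.one _ (Or.inr (T.sf_trans h2 (T.sf_nxt x))), h.one _ (Or.inr (T.sf_trans h2 (T.sf_nxt2 x)))]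
          decide
        rw [e, pvso_fc_neg h1, pvso_fc_pos h2]; decide
      · rw [h.ev x h1 h2, pvso_fc_neg h1, pvso_fc_neg h2]; decide
  · show r d + g d = 0
    rw [h.one d (Or.inl (T.sf_refl d)), hg.at_d hd hne, z1]
  · show r (T.nxt d) + g (T.nxt d) = 1
    rw [h.one _ (Or.inl (T.sf_nxt d)), hg.off ((hK d).2 hd) (T.nxt_ne_self d) (fun e => hdd (e ▸ T.sf_nxt d)), add_zero]
  · show r d' + g d' = 0
    rw [h.one d' (Or.inr (T.sf_refl d')), hg.at_d' hd' hne, z1]
  · show r (T.nxt d') + g (T.nxt d') = 1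
    rw [h.one _ (Or.inr (T.sf_nxt d')), hg.off ((hK d').2 hd') (fun e => hdd (T.sf_symm (e ▸ T.sf_nxt d'))) (T.nxt_ne_self d'), add_zero]
  · have : d' ∈ {x | pvsoW T (fun x => r x + g x) d x} := by rw [hKe]; exact hd'
    exact this
  · rw [hKe]
    exact pvso_comp_of_tog T hK hd hne hg

end pvso4

/-! ## 5. arcs, the Sperner count, reversal of the cyclic order -/

section pvso5

variable {V D : Type} {T : PvMap V D}

/-- a walk inside the wall, mod 2 -/
theorem pvso_arc_aux {S : D → ZMod 2} (hS : T.Sym S) {d e : D} (h : pvsoW T S d e) :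
    ∃ A : D → ZMod 2, T.Sym A ∧ (∀ x, A x = 1 → S x = 1 ∧ pvsoW T S d x) ∧ ∀ x, pvsoDel T A x = pvsoFc T d x + pvsoFc T e x := by
  have z3 : ∀ a b c : ZMod 2, a + b + (b + c) = a + c := by decide
  induction h with
  | refl =>
    refine ⟨fun _ => 0, fun _ => rfl, fun x hx => absurd hx (by simp), fun x => ?_⟩
    rw [CharTwo.add_self_eq_zero]; simp [pvsoDel]
  | @tail b c hab hbc ih =>
    obtain ⟨A, A1, A2, A3⟩ := ih
    rcases hbc with hsf | ⟨hb, rfl⟩
    · exact ⟨A, A1, A2, fun x => by rw [A3 x, pvso_fc_sf T hsf]⟩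
    · refine ⟨fun y => A y + (pvsoI b y + pvsoI (T.opp b) y), pvso_sym_add T A1 (pvso_sym_edge T b), ?_, ?_⟩
      · intro x hx
        by_cases h1 : x = b
        · rw [h1]; exact ⟨hb, hab⟩
        · by_cases h2 : x = T.opp b
          · rw [h2]; exact ⟨by rw [hS b]; exact hb, pvso_W_opp T hab hb⟩
          · have hx' : A x + (pvsoI b x + pvsoI (T.opp b) x) = 1 := hx
            rw [pvso_I_ne h1, pvso_I_ne h2, add_zero, add_zero] at hx'
            exact A2 x hx'
      · intro x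
        rw [pvso_del_add, A3 x, pvso_del_add, pvso_del_I, pvso_del_I, z3]

/-- the two arcs of the wall between the faces of `d` and `d'` -/
theorem pvso_arcs {S : D → ZMod 2} {d d' : D} (hdd : ¬ T.SF d d') (h : PvsoLab T S d d') :
    ∃ A1 A2 : D → ZMod 2, T.Sym A1 ∧ T.Sym A2 ∧ (∀ x, A1 x = 1 → S x = 1 ∧ pvsoW T S d x) ∧ (∀ x, A2 x = 1 → S x = 1 ∧ pvsoW T S d x) ∧
      (∀ x, A2 x = 1 → A1 x = 0) ∧ (∀ x, pvsoDel T A1 x = pvsoFc T d x + pvsoFc T d' x) ∧ (∀ x, pvsoDel T A2 x = pvsoFc T d x + pvsoFc T d' x) ∧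
      A2 (T.nxt d) = 1 ∧ A1 (T.nxt (T.nxt d)) = 1 := by
  obtain ⟨A, As, Asup, Adel⟩ := pvso_arc_aux h.sym h.mem
  have hK := pvso_W_face T S d
  have hd : d ∈ {x | pvsoW T S d x} := pvso_W_refl T S d
  obtain ⟨L, hL⟩ : ∃ L, L = pvsoR S {x | pvsoW T S d x} := ⟨_, rfl⟩
  have Ls : T.Sym L := by rw [hL]; exact pvso_R_sym T h.sym (fun a ha h1 => pvso_W_opp T ha h1)
  have Ldel : ∀ x, pvsoDel T L x = 0 := by
    intro x
    rw [hL, pvso_R_del T S hK]
    split_ifs
    · exact h.coc x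
    · rfl
  have Lone : ∀ x, L x = 1 ↔ (S x = 1 ∧ pvsoW T S d x) := by
    intro x
    rw [hL]; unfold pvsoR
    by_cases hx : x ∈ {x | pvsoW T S d x}
    · rw [if_pos hx]; exact ⟨fun h1 => ⟨h1, hx⟩, fun h1 => h1.1⟩
    · rw [if_neg hx]; exact ⟨fun h1 => absurd h1 (by simp), fun h1 => absurd h1.2 hx⟩
  obtain ⟨B, hB⟩ : ∃ B : D → ZMod 2, B = fun x => L x + A x := ⟨_, rfl⟩
  have Bs : T.Sym B := by rw [hB]; exact pvso_sym_add T Ls As
  have AL : ∀ x, A x = 1 → L x = 1 := fun x hx => (Lone x).2 (Asup x hx)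
  have zB : ∀ l a : ZMod 2, (a = 1 → l = 1) → l + a = 1 → l = 1 ∧ a = 0 := by decide
  have Bone : ∀ x, B x = 1 → L x = 1 ∧ A x = 0 := by
    intro x hx
    rw [hB] at hx
    exact zB _ _ (AL x) hx
  have Bdel : ∀ x, pvsoDel T B x = pvsoFc T d x + pvsoFc T d' x := by
    intro x
    rw [hB, pvso_del_add, Ldel, zero_add, Adel]
  have Ad : A d = 0 := by
    by_contra hn
    have := (Asup d (pvso_z2_ne_zero hn)).1
    rw [h.t0] at this
    exact zero_ne_one this
  have hsum : A (T.nxt d) + A (T.nxt (T.nxt d)) = 1 := by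
    have := Adel d
    unfold pvsoDel at this
    rw [Ad, pvso_fc_self, pvso_fc_neg (fun hh => hdd (T.sf_symm hh)), zero_add, add_zero] at this
    exact this
  have L1 : L (T.nxt d) = 1 := (Lone _).2 ⟨h.t1, (hK d).2 hd⟩
  have L2 : L (T.nxt (T.nxt d)) = 1 := (Lone _).2 ⟨h.t2, (hK.nxt2 T d).2 hd⟩
  rcases pvso_z2_cases (A (T.nxt d)) with h0 | h1
  · rw [h0, zero_add] at hsum
    refine ⟨A, B, As, Bs, Asup, fun x hx => (Lone x).1 (Bone x hx).1, fun x hx => (Bone x hx).2, Adel, Bdel, ?_, hsum⟩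
    rw [hB]; show L (T.nxt d) + A (T.nxt d) = 1
    rw [L1, h0, add_zero]
  · rw [h1] at hsum
    have h2 : A (T.nxt (T.nxt d)) = 0 := by
      have z : ∀ a : ZMod 2, 1 + a = 1 → a = 0 := by decide
      exact z _ hsum
    refine ⟨B, A, Bs, As, fun x hx => (Lone x).1 (Bone x hx).1, Asup, ?_, Bdel, Adel, h1, ?_⟩
    · intro x hx
      by_contra hn
      have := (Bone x (pvso_z2_ne_zero hn)).2
      rw [hx] at this
      exact one_ne_zero this
    · rw [hB]; show L (T.nxt (T.nxt d)) + A (T.nxt (T.nxt d)) = 1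
      rw [L2, h2, add_zero]

theorem pvso_F_anti (α β a b : ZMod 2 × ZMod 2) : pvsoF α β a b = - pvsoF α β b a := by
  unfold pvsoF
  simp only [and_comm]
  ring

theorem pvso_M_deg (α β : ZMod 2 × ZMod 2) {p q w : ZMod 2 × ZMod 2} (h : p = q ∨ q = w ∨ w = p) : pvsoM α β p q w = 0 := by
  unfold pvsoM
  rcases h with rfl | rfl | rfl
  · have h1 := pvso_F_anti α β p p
    have h2 := pvso_F_anti α β p w
    linarith
  · have h1 := pvso_F_anti α β q q
    have h2 := pvso_F_anti α β p q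
    linarith
  · have h1 := pvso_F_anti α β w w
    have h2 := pvso_F_anti α β w q
    linarith

theorem pvso_M_rot (α β p q w : ZMod 2 × ZMod 2) : pvsoM α β q w p = pvsoM α β p q w := by
  unfold pvsoM; ring

theorem pvso_ind3 (a x : D) : ((if x = a then 1 else 0) + (if T.nxt x = a then 1 else 0) + (if T.nxt (T.nxt x) = a then 1 else 0) : ℤ)
    = if T.SF a x then 1 else 0 := by
  by_cases h1 : x = a
  · subst h1
    rw [if_pos rfl, if_neg (T.nxt_ne_self x), if_neg (T.nxt2_ne_self x), if_pos (T.sf_refl x)]; simp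
  · by_cases h2 : T.nxt x = a
    · subst h2
      have h3 : T.nxt (T.nxt x) ≠ T.nxt x := T.nxt_ne_self _
      rw [if_neg h1, if_pos rfl, if_neg h3, if_pos (T.sf_symm (T.sf_nxt x))]; simp
    · by_cases h3 : T.nxt (T.nxt x) = a
      · subst h3
        rw [if_neg h1, if_neg h2, if_pos rfl, if_pos (T.sf_symm (T.sf_nxt2 x))]; simp
      · have h4 : ¬ T.SF a x := by
          intro h
          rcases T.sf_symm h with h | h | h
          · exact h1 h.symm
          · exact h2 h.symm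
          · exact h3 h.symm
        rw [if_neg h1, if_neg h2, if_neg h3, if_neg h4]; simp

variable [Fintype D]

theorem pvso_sum_face (a : D) : ∑ x, (if T.SF a x then 1 else 0 : ℤ) = 3 := by
  have e : ∀ x, (if T.SF a x then 1 else 0 : ℤ)
      = (if x = a then 1 else 0) + (if T.nxt x = a then 1 else 0) + (if T.nxt (T.nxt x) = a then 1 else 0) := fun x => (pvso_ind3 a x).symm
  rw [Finset.sum_congr rfl (fun x _ => e x), Finset.sum_add_distrib, Finset.sum_add_distrib,
    pvso_sum_nxt T (fun x => (if T.nxt x = a then 1 else 0 : ℤ)), pvso_sum_nxt T (fun x => (if x = a then 1 else 0 : ℤ)),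
    Finset.sum_ite_eq' Finset.univ a]
  simp

/-- a function of the faces which vanishes off two faces -/
theorem pvso_sum_two {d d' : D} (hdd : ¬ T.SF d d') (F : D → ℤ) (hF : ∀ x, F (T.nxt x) = F x) (h0 : ∀ x, ¬ T.SF d x → ¬ T.SF d' x → F x = 0) :
    ∑ x, F x = 3 * F d + 3 * F d' := by
  have hsf : ∀ a x, T.SF a x → F x = F a := by
    intro a x h
    rcases h with rfl | rfl | rfl
    · rfl
    · exact hF a
    · rw [hF, hF]
  have e : ∀ x, F x = F d * (if T.SF d x then 1 else 0) + F d' * (if T.SF d' x then 1 else 0) := by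
    intro x
    by_cases h1 : T.SF d x
    · have h2 : ¬ T.SF d' x := fun h2 => hdd (T.sf_trans h1 (T.sf_symm h2))
      rw [if_pos h1, if_neg h2, hsf d x h1]; ring
    · by_cases h2 : T.SF d' x
      · rw [if_neg h1, if_pos h2, hsf d' x h2]; ring
      · rw [if_neg h1, if_neg h2, h0 x h1 h2]; ring
  rw [Finset.sum_congr rfl (fun x _ => e x), Finset.sum_add_distrib, ← Finset.mul_sum, ← Finset.mul_sum, pvso_sum_face, pvso_sum_face]
  ring

/-- **Sperner count**: if only the faces of `d`, `d'` can carry three labels, their label triangles cancel -/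
theorem pvso_sperner (lam : V → ZMod 2 × ZMod 2) {d d' : D} (hdd : ¬ T.SF d d')
    (hdeg : ∀ x, ¬ T.SF d x → ¬ T.SF d' x → lam (T.src x) = lam (T.tgt x) ∨ lam (T.tgt x) = lam (T.apex x) ∨ lam (T.apex x) = lam (T.src x))
    (α β : ZMod 2 × ZMod 2) :
    pvsoM α β (lam (T.src d)) (lam (T.tgt d)) (lam (T.apex d)) + pvsoM α β (lam (T.src d')) (lam (T.tgt d')) (lam (T.apex d')) = 0 := by
  obtain ⟨N, hN⟩ : ∃ N : D → ℤ, N = fun x => pvsoF α β (lam (T.src x)) (lam (T.tgt x)) := ⟨_, rfl⟩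
  obtain ⟨M, hM⟩ : ∃ M : D → ℤ, M = fun x => pvsoM α β (lam (T.src x)) (lam (T.tgt x)) (lam (T.apex x)) := ⟨_, rfl⟩
  have hN0 : ∑ x, N x = 0 := by
    refine Finset.sum_involution (fun x _ => T.opp x) ?_ ?_ ?_ ?_
    · intro x _
      rw [hN]
      show pvsoF α β (lam (T.src x)) (lam (T.tgt x)) + pvsoF α β (lam (T.src (T.opp x))) (lam (T.tgt (T.opp x))) = 0
      rw [T.src_opp', T.tgt_opp, pvso_F_anti α β (lam (T.tgt x))]; ring
    · intro x _ _
      exact T.opp_ne_self x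
    · intro x _
      exact Finset.mem_univ _
    · intro x _
      exact T.opp_opp x
  have hMN : ∀ x, M x = N x + N (T.nxt x) + N (T.nxt (T.nxt x)) := by
    intro x
    rw [hM, hN]
    show pvsoM α β _ _ _ = pvsoF α β _ _ + pvsoF α β (lam (T.src (T.nxt x))) (lam (T.tgt (T.nxt x)))
      + pvsoF α β (lam (T.src (T.nxt (T.nxt x)))) (lam (T.tgt (T.nxt (T.nxt x))))
    rw [T.src_nxt, T.tgt_nxt, T.src_nxt2, T.tgt_nxt2]
    rfl
  have hM0 : ∑ x, M x = 0 := by
    rw [Finset.sum_congr rfl (fun x _ => hMN x), Finset.sum_add_distrib, Finset.sum_add_distrib,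
      pvso_sum_nxt T (fun x => N (T.nxt x)), pvso_sum_nxt T N, hN0]
    simp
  have hMr : ∀ x, M (T.nxt x) = M x := by
    intro x
    rw [hM]
    show pvsoM α β (lam (T.src (T.nxt x))) (lam (T.tgt (T.nxt x))) (lam (T.apex (T.nxt x))) = _
    rw [T.src_nxt, T.tgt_nxt, T.apex_nxt, pvso_M_rot]
  have hMz : ∀ x, ¬ T.SF d x → ¬ T.SF d' x → M x = 0 := by
    intro x h1 h2
    rw [hM]
    exact pvso_M_deg α β (hdeg x h1 h2)
  have h := pvso_sum_two hdd M hMr hMz
  rw [hM0] at h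
  have h' : M d + M d' = 0 := by linarith
  rw [hM] at h'
  exact h'

end pvso5

section pvso6

variable {V D : Type} {T : PvMap V D} [Fintype D]

/-- **three disjoint strands between two faces reverse the cyclic order** (`h1` only) -/
theorem pvso_theta (hT : T.IsSph) {d d' : D} (hdd : ¬ T.SF d d') {X0 X1 X2 : D → ZMod 2}
    (s0 : T.Sym X0) (s1 : T.Sym X1) (s2 : T.Sym X2)
    (d01 : ∀ x, X0 x = 1 → X1 x = 0) (d02 : ∀ x, X0 x = 1 → X2 x = 0) (d12 : ∀ x, X1 x = 1 → X2 x = 0)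
    (e0 : ∀ x, pvsoDel T X0 x = pvsoFc T d x + pvsoFc T d' x) (e1 : ∀ x, pvsoDel T X1 x = pvsoFc T d x + pvsoFc T d' x)
    (e2 : ∀ x, pvsoDel T X2 x = pvsoFc T d x + pvsoFc T d' x)
    (a0 : X0 d = 1) (a1 : X1 (T.nxt d) = 1) (b0 : X0 d' = 1) :
    X1 (T.nxt (T.nxt d')) = 1 ∧ X2 (T.nxt d') = 1 := by
  have zz : ∀ a : ZMod 2, a + a = 0 := by decide
  have hd'd : ¬ T.SF d' d := fun h => hdd (T.sf_symm h)
  -- potentials
  obtain ⟨p1, hp1⟩ := hT.h1 (fun x => X0 x + X1 x) (pvso_sym_add T s0 s1) (fun x => by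
    have := pvso_del_add T X0 X1 x
    unfold pvsoDel at this
    rw [this]
    have h0 := e0 x; have h1 := e1 x
    unfold pvsoDel at h0 h1
    rw [h0, h1, zz])
  obtain ⟨p2, hp2⟩ := hT.h1 (fun x => X1 x + X2 x) (pvso_sym_add T s1 s2) (fun x => by
    have := pvso_del_add T X1 X2 x
    unfold pvsoDel at this
    rw [this]
    have h0 := e1 x; have h1 := e2 x
    unfold pvsoDel at h0 h1
    rw [h0, h1, zz])
  obtain ⟨lam, hlam⟩ : ∃ lam : V → ZMod 2 × ZMod 2, lam = fun v => (p1 v, p2 v) := ⟨_, rfl⟩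
  have zinc : ∀ c a b : ZMod 2, c = a + b → b = a + c := by decide
  have hinc : ∀ x, lam (T.tgt x) = lam (T.src x) + (X0 x + X1 x, X1 x + X2 x) := by
    intro x
    rw [hlam]
    exact Prod.ext (zinc _ _ _ (hp1 x)) (zinc _ _ _ (hp2 x))
  have hinc0 : ∀ x, X0 x = 0 → X1 x = 0 → X2 x = 0 → lam (T.src x) = lam (T.tgt x) := by
    intro x h0 h1 h2
    rw [hinc x, h0, h1, h2]
    simp
  have hdeg : ∀ x, ¬ T.SF d x → ¬ T.SF d' x →
      lam (T.src x) = lam (T.tgt x) ∨ lam (T.tgt x) = lam (T.apex x) ∨ lam (T.apex x) = lam (T.src x) := by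
    intro x h1 h2
    have f0 := e0 x; have f1 := e1 x; have f2 := e2 x
    rw [pvso_fc_neg h1, pvso_fc_neg h2, add_zero] at f0 f1 f2
    unfold pvsoDel at f0 f1 f2
    rcases pvso_dec_face _ _ _ _ _ _ _ _ _ (d01 x) (d01 _) (d01 _) (d02 x) (d02 _) (d02 _) (d12 x) (d12 _) (d12 _) f0 f1 f2 with h | h | h
    · exact Or.inl (hinc0 x h.1 h.2.1 h.2.2)
    · have := hinc0 (T.nxt x) h.1 h.2.1 h.2.2
      rw [T.src_nxt, T.tgt_nxt] at this
      exact Or.inr (Or.inl this)
    · have := hinc0 (T.nxt (T.nxt x)) h.1 h.2.1 h.2.2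
      rw [T.src_nxt2, T.tgt_nxt2] at this
      exact Or.inr (Or.inr this)
  have hsp := pvso_sperner lam hdd hdeg
  -- the face of `d`
  have t1 : lam (T.tgt d) = lam (T.src d) + (1, 0) := by
    rw [hinc d, a0, d01 d a0, d02 d a0]; rfl
  have a1' : X0 (T.nxt d) = 0 := by
    by_contra hn
    have := d01 _ (pvso_z2_ne_zero hn)
    rw [a1] at this
    exact one_ne_zero this
  have t2 : lam (T.apex d) = lam (T.src d) + (1, 0) + (1, 1) := by
    have := hinc (T.nxt d)
    rw [T.src_nxt, T.tgt_nxt, a1, a1', d12 _ a1, t1] at this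
    rw [this]; rfl
  -- the face of `d'`
  have g0 := e0 d'; have g1 := e1 d'; have g2 := e2 d'
  rw [pvso_fc_neg hdd, pvso_fc_self, zero_add] at g0 g1 g2
  unfold pvsoDel at g0 g1 g2
  rcases pvso_dec_u _ _ _ _ _ _ _ _ _ (d01 d') (d01 _) (d01 _) (d02 d') (d02 _) (d02 _) (d12 d') (d12 _) (d12 _) g0 g1 g2 b0 with h | h
  · exfalso
    obtain ⟨h1, h2, h3, h4, h5⟩ := h
    have u1 : lam (T.tgt d') = lam (T.src d') + (1, 0) := by
      rw [hinc d', b0, h2, h3]; rfl
    have u2 : lam (T.apex d') = lam (T.src d') + (1, 0) + (1, 1) := by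
      have := hinc (T.nxt d')
      rw [T.src_nxt, T.tgt_nxt, h1, h4, h5, u1] at this
      rw [this]; rfl
    rw [t1, t2, u1, u2] at hsp
    exact pvso_dec_orient _ _ hsp
  · exact h

end pvso6

section pvso7

variable {V D : Type} {T : PvMap V D} [Fintype D]

theorem pvso_sf_nxt_iff (d x : D) : T.SF (T.nxt d) x ↔ T.SF d x :=
  ⟨fun h => T.sf_trans (T.sf_nxt d) h, fun h => T.sf_trans (T.sf_symm (T.sf_nxt d)) h⟩

theorem pvso_sf_nxt2_iff (d x : D) : T.SF (T.nxt (T.nxt d)) x ↔ T.SF d x :=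
  ⟨fun h => T.sf_trans (T.sf_nxt2 d) h, fun h => T.sf_trans (T.sf_symm (T.sf_nxt2 d)) h⟩

/-- **THETA**: the image of the pair `(d, d')` lies in the image of the pair `(nxt d, nxt⁻¹ d')` -/
theorem pvso_theta_im (hT : T.IsSph) {d d' : D} (hdd : ¬ T.SF d d') {r : D → ZMod 2} (h : PvsoIm T d d' r) :
    PvsoIm T (T.nxt d) (T.nxt (T.nxt d')) r := by
  obtain ⟨g, hg0⟩ := h.tog
  obtain ⟨hL, hKe⟩ := pvso_bwd hdd h hg0
  obtain ⟨S, hS⟩ : ∃ S : D → ZMod 2, S = fun x => r x + g x := ⟨_, rfl⟩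
  rw [← hS] at hL hKe
  have hg : PvsoTog T {x | pvsoW T S d x} d d' g := by rw [hKe]; exact hg0
  have hK := pvso_W_face T S d
  have hd : d ∈ {x | pvsoW T S d x} := pvso_W_refl T S d
  have hd' : d' ∈ {x | pvsoW T S d x} := hL.mem
  have hne : d ≠ d' := fun e => hdd (e ▸ T.sf_refl d)
  have hd'd : ¬ T.SF d' d := fun hh => hdd (T.sf_symm hh)
  obtain ⟨A1, A2, s1, s2, sup1, sup2, dis, del1, del2, a2, a1⟩ := pvso_arcs hdd hL
  -- `g` is disjoint from the arcs
  have gdis : ∀ (A : D → ZMod 2), (∀ x, A x = 1 → S x = 1 ∧ pvsoW T S d x) → ∀ x, g x = 1 → A x = 0 := by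
    intro A sup x hx
    by_contra hn
    obtain ⟨h1, h2⟩ := sup x (pvso_z2_ne_zero hn)
    by_cases e1 : x = d
    · rw [e1, hL.t0] at h1; exact zero_ne_one h1
    · by_cases e2 : x = d'
      · rw [e2, hL.u0] at h1; exact zero_ne_one h1
      · rw [hg.off h2 e1 e2] at hx; exact zero_ne_one hx
  obtain ⟨b2, b1⟩ := pvso_theta hT hdd hg.1 s2 s1 (gdis A2 sup2) (gdis A1 sup1) dis (hg.del hK hd hd') del2 del1
    (hg.at_d hd hne) a2 (hg.at_d' hd' hne)
  have dis' : ∀ x, A1 x = 1 → A2 x = 0 := by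
    intro x hx
    by_contra hn
    have := dis x (pvso_z2_ne_zero hn)
    rw [hx] at this
    exact one_ne_zero this
  have zS : ∀ (A : D → ZMod 2), (∀ x, A x = 1 → S x = 1 ∧ pvsoW T S d x) → ∀ x, S x = 0 → A x = 0 := by
    intro A sup x hx
    by_contra hn
    have := (sup x (pvso_z2_ne_zero hn)).1
    rw [hx] at this
    exact zero_ne_one this
  -- values of `A2` on the two faces
  have v0 : A2 d = 0 := zS A2 sup2 d hL.t0
  have v2 : A2 (T.nxt (T.nxt d)) = 0 := dis' _ a1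
  have w0 : A2 d' = 0 := zS A2 sup2 d' hL.u0
  have w1 : A2 (T.nxt d') = 0 := dis' _ b1
  have rS : ∀ x, pvsoW T S d x → x ≠ d → x ≠ d' → r x = S x := by
    intro x hx h1 h2
    rw [hS]; show r x = r x + g x
    rw [hg.off hx h1 h2, add_zero]
  obtain ⟨e, he⟩ : ∃ e, e = T.nxt d := ⟨_, rfl⟩
  obtain ⟨e', he'⟩ : ∃ e', e' = T.nxt (T.nxt d') := ⟨_, rfl⟩
  rw [← he, ← he']
  have cut1 : ∀ x, pvsoCut T r e e' x = 1 → x ≠ e ∧ x ≠ e' ∧ r x = 1 := by
    intro x hx
    unfold pvsoCut at hx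
    by_cases hc : x = e ∨ x = T.opp e ∨ x = e' ∨ x = T.opp e'
    · rw [if_pos hc] at hx; exact absurd hx (by simp)
    · rw [if_neg hc] at hx
      exact ⟨fun h1 => hc (Or.inl h1), fun h1 => hc (Or.inr (Or.inr (Or.inl h1))), hx⟩
  have hK' : T.FaceSet (pvsoK T r e e') := pvso_W_face T _ e
  have heK' : e ∈ pvsoK T r e e' := pvso_W_refl T _ e
  have hdK' : d ∈ pvsoK T r e e' := (hK' d).1 (he ▸ heK')
  -- the class stays off the interior of the arc `A2`
  obtain ⟨Z, hZ⟩ : ∃ Z : Set D, Z = {x | T.SF d x ∨ T.SF d' x ∨ (A2 x = 0 ∧ A2 (T.nxt x) = 0 ∧ A2 (T.nxt (T.nxt x)) = 0)} := ⟨_, rfl⟩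
  have hZf : T.FaceSet Z := by
    intro x
    rw [hZ]
    show (T.SF d (T.nxt x) ∨ T.SF d' (T.nxt x) ∨ (A2 (T.nxt x) = 0 ∧ A2 (T.nxt (T.nxt x)) = 0 ∧ A2 (T.nxt (T.nxt (T.nxt x))) = 0))
      ↔ (T.SF d x ∨ T.SF d' x ∨ (A2 x = 0 ∧ A2 (T.nxt x) = 0 ∧ A2 (T.nxt (T.nxt x)) = 0))
    have e1 : ∀ a, T.SF a (T.nxt x) ↔ T.SF a x := fun a =>
      ⟨fun hh => T.sf_trans hh (T.sf_symm (T.sf_nxt x)), fun hh => T.sf_trans hh (T.sf_nxt x)⟩
    rw [e1, e1, T.nxt3]
    tauto
  have hZc : ∀ a ∈ Z, pvsoCut T r e e' a = 1 → T.opp a ∈ Z := by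
    intro a ha hc
    obtain ⟨c1, c2, c3⟩ := cut1 a hc
    by_contra hn
    rw [hZ] at hn
    have hn' : ¬ (T.SF d (T.opp a) ∨ T.SF d' (T.opp a) ∨ (A2 (T.opp a) = 0 ∧ A2 (T.nxt (T.opp a)) = 0 ∧ A2 (T.nxt (T.nxt (T.opp a))) = 0)) := hn
    have n1 : ¬ T.SF d (T.opp a) := fun hh => hn' (Or.inl hh)
    have n2 : ¬ T.SF d' (T.opp a) := fun hh => hn' (Or.inr (Or.inl hh))
    have n3' : ¬ (A2 (T.opp a) = 0 ∧ A2 (T.nxt (T.opp a)) = 0 ∧ A2 (T.nxt (T.nxt (T.opp a))) = 0) := fun hh => hn' (Or.inr (Or.inr hh))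
    -- the face of `opp a` lies in the wall
    have hyK : pvsoW T S d (T.opp a) := by
      by_contra hout
      apply n3'
      refine ⟨?_, ?_, ?_⟩
      · by_contra h1
        exact hout (sup2 _ (pvso_z2_ne_zero h1)).2
      · by_contra h1
        exact hout ((hK _).1 (sup2 _ (pvso_z2_ne_zero h1)).2)
      · by_contra h1
        exact hout ((hK.nxt2 T _).1 (sup2 _ (pvso_z2_ne_zero h1)).2)
    have hy1 : T.opp a ≠ d := fun hh => n1 (hh ▸ T.sf_refl d)
    have hy2 : T.opp a ≠ d' := fun hh => n2 (hh ▸ T.sf_refl d')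
    have hSy : S (T.opp a) = 1 := by rw [← rS _ hyK hy1 hy2, h.sym a]; exact c3
    have f2 := del2 (T.opp a)
    rw [pvso_fc_neg n1, pvso_fc_neg n2, add_zero] at f2
    have fS := hL.coc (T.opp a)
    unfold pvsoDel at f2 fS
    have hA : A2 (T.opp a) = 1 := pvso_dec_loc _ _ _ _ _ _ (fun hh => (sup2 _ hh).1) (fun hh => (sup2 _ hh).1) (fun hh => (sup2 _ hh).1) f2 fS n3' hSy
    rw [s2 a] at hA
    rw [hZ] at ha
    rcases ha with ha | ha | ha
    · rcases ha with rfl | rfl | rfl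
      · rw [v0] at hA; exact zero_ne_one hA
      · exact c1 he.symm
      · rw [v2] at hA; exact zero_ne_one hA
    · rcases ha with rfl | rfl | rfl
      · rw [w0] at hA; exact zero_ne_one hA
      · rw [w1] at hA; exact zero_ne_one hA
      · exact c2 he'.symm
    · rw [ha.1] at hA; exact zero_ne_one hA
  have hKZ : ∀ x, x ∈ pvsoK T r e e' → x ∈ Z := fun x hx =>
    pvso_W_sub T (by rw [hZ, he]; exact Or.inl (T.sf_nxt d)) hZf hZc hx
  -- the other arc reaches the face of `d'`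
  have hA1c : ∀ x, A1 x = 1 → pvsoCut T r e e' x = 1 := by
    intro x hx
    obtain ⟨h1, h2⟩ := sup1 x hx
    have n1 : x ≠ e := fun hh => by rw [hh, he, dis _ a2] at hx; exact zero_ne_one hx
    have n2 : x ≠ T.opp e := fun hh => by rw [hh, s1 e, he, dis _ a2] at hx; exact zero_ne_one hx
    have n3 : x ≠ e' := fun hh => by rw [hh, he', dis _ b2] at hx; exact zero_ne_one hx
    have n4 : x ≠ T.opp e' := fun hh => by rw [hh, s1 e', he', dis _ b2] at hx; exact zero_ne_one hx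
    unfold pvsoCut
    rw [if_neg (by tauto), rS x h2 (fun hh => by rw [hh, hL.t0] at h1; exact zero_ne_one h1) (fun hh => by rw [hh, hL.u0] at h1; exact zero_ne_one h1)]
    exact h1
  have hd'K1 : pvsoW T A1 e d' := by
    by_contra hn
    have hK1 := pvso_W_face T A1 e
    have hdK1 : d ∈ {x | pvsoW T A1 e x} := by
      have : T.nxt d ∈ {x | pvsoW T A1 e x} := by rw [← he]; exact pvso_W_refl T A1 e
      exact (hK1 d).1 this
    have hs : T.Sym (pvsoR A1 {x | pvsoW T A1 e x}) := pvso_R_sym T s1 (fun a ha h1 => pvso_W_opp T ha h1)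
    have hk : ∀ x, pvsoDel T (pvsoR A1 {x | pvsoW T A1 e x}) x = pvsoDel T (pvsoI d) x := by
      intro x
      rw [pvso_R_del T A1 hK1, pvso_del_I]
      by_cases hx : x ∈ {x | pvsoW T A1 e x}
      · rw [if_pos hx, del1, pvso_fc_neg (fun hh => hn ((hK1.sf T hh).1 hx)), add_zero]
      · rw [if_neg hx, pvso_fc_out T hK1 hdK1 hx]
    have := pvso_parity T hs hk
    rw [pvso_sum_I] at this
    exact one_ne_zero this
  have hd'K' : d' ∈ pvsoK T r e e' := pvso_W_mono T hA1c hd'K1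
  refine ⟨h.sym, ?_, ?_, ?_, ⟨A2, s2, ?_, ?_⟩⟩
  · intro x hx
    rw [he, he', pvso_sf_nxt_iff, pvso_sf_nxt2_iff] at hx
    exact h.one x hx
  · intro x h1 h2
    rw [he, pvso_sf_nxt_iff] at h1
    rw [he', pvso_sf_nxt2_iff] at h2
    exact h.ev x h1 h2
  · have := (hK'.nxt2 T d').2 hd'K'
    rw [← he'] at this
    exact this
  · intro x hx
    have hxZ := hKZ x hx
    rw [hZ] at hxZ
    have ne1 : ∀ y, T.SF d y → y ≠ e' := fun y hy hh => hdd (by
      rw [hh, he'] at hy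
      exact T.sf_trans hy (T.sf_symm (T.sf_nxt2 d')))
    have ne2 : ∀ y, T.SF d' y → y ≠ e := fun y hy hh => hd'd (by
      rw [hh, he] at hy
      exact T.sf_trans hy (T.sf_symm (T.sf_nxt d)))
    rcases hxZ with hx1 | hx1 | hx1
    · have n := ne1 x hx1
      rcases hx1 with rfl | rfl | rfl
      · rw [v0, pvso_I_ne n, pvso_I_ne (by rw [he]; exact (T.nxt_ne_self x).symm), add_zero]
      · rw [a2, pvso_I_ne n, he, pvso_I_self, add_zero]
      · rw [v2, pvso_I_ne n, pvso_I_ne (by rw [he]; exact T.nxt_ne_self _), add_zero]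
    · have n := ne2 x hx1
      rcases hx1 with rfl | rfl | rfl
      · rw [w0, pvso_I_ne n, pvso_I_ne (by rw [he']; exact (T.nxt2_ne_self x).symm), add_zero]
      · rw [w1, pvso_I_ne n, pvso_I_ne (by rw [he']; exact (T.nxt_ne_self _).symm), add_zero]
      · rw [b2, pvso_I_ne n, he', pvso_I_self, zero_add]
    · have n1 : x ≠ e := fun hh => by
        have := hx1.1
        rw [hh, he, a2] at this
        exact one_ne_zero this
      have n2 : x ≠ e' := fun hh => by
        have := hx1.1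
        rw [hh, he', b2] at this
        exact one_ne_zero this
      rw [hx1.1, pvso_I_ne n1, pvso_I_ne n2, add_zero]
  · intro x hx
    rw [del2, pvso_fc_out T hK' hdK' hx, pvso_fc_out T hK' hd'K' hx, add_zero]

end pvso7

/-! ## 6. colourings; the bijection -/

section pvso8

variable {V D : Type} (T : PvMap V D)

/-- coboundary of a colouring -/
def pvsoCo (s : V → Bool) (x : D) : ZMod 2 := if s (T.src x) = s (T.tgt x) then 0 else 1

/-- shift of a colouring by a potential -/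
def pvsoSh (s : V → Bool) (u : V → ZMod 2) (v : V) : Bool := xor (s v) (pvsoB (u v))

/-- a chosen toggle -/
noncomputable def pvsoG (K : Set D) (d d' : D) : D → ZMod 2 := if h : ∃ g, PvsoTog T K d d' g then h.choose else 0

/-- a chosen potential -/
noncomputable def pvsoPot (m : D → ZMod 2) : V → ZMod 2 :=
  if h : ∃ u : V → ZMod 2, ∀ x, m x = u (T.src x) + u (T.tgt x) then h.choose else 0

/-- colouring `↦` cochain which is odd at the two faces -/
noncomputable def pvsoRr (d d' : D) (s : V → Bool) (x : D) : ZMod 2 := pvsoCo T s x + pvsoG T {y | pvsoW T (pvsoCo T s) d y} d d' x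

/-- the bijection -/
noncomputable def pvsoPsi (d d' e e' : D) (s : V → Bool) : V → Bool :=
  pvsoSh s (pvsoPot T fun x => pvsoG T {y | pvsoW T (pvsoCo T s) d y} d d' x + pvsoG T (pvsoK T (pvsoRr T d d' s) e e') e e' x)

theorem pvso8_eqns_cite : True := by
  have := @pvsoCo.eq_1; have := @pvsoSh.eq_1; have := @pvsoG.eq_1; have := @pvsoPot.eq_1; have := @pvsoRr.eq_1; have := @pvsoPsi.eq_1
  trivial

variable {T}

theorem pvso_G_spec {K : Set D} {d d' : D} (h : ∃ g, PvsoTog T K d d' g) : PvsoTog T K d d' (pvsoG T K d d') := by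
  unfold pvsoG
  rw [dif_pos h]
  exact h.choose_spec

theorem pvso_pot_spec {m : D → ZMod 2} (h : ∃ u : V → ZMod 2, ∀ x, m x = u (T.src x) + u (T.tgt x)) (x : D) :
    m x = pvsoPot T m (T.src x) + pvsoPot T m (T.tgt x) := by
  unfold pvsoPot
  rw [dif_pos h]
  exact h.choose_spec x

theorem pvso_co_sym (s : V → Bool) : T.Sym (pvsoCo T s) := fun x => by
  unfold pvsoCo
  rw [T.src_opp', T.tgt_opp]
  simp only [eq_comm]

theorem pvso_co_coc (s : V → Bool) (x : D) : pvsoDel T (pvsoCo T s) x = 0 := by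
  unfold pvsoDel pvsoCo
  rw [T.src_nxt, T.tgt_nxt, T.src_nxt2, T.tgt_nxt2]
  exact pvso_dec_bool _ _ _

theorem pvso_co_one (s : V → Bool) (x : D) : pvsoCo T s x = 1 ↔ T.Occ s x := by
  unfold pvsoCo PvMap.Occ
  by_cases h : s (T.src x) = s (T.tgt x)
  · rw [if_pos h]; exact ⟨fun h1 => absurd h1 (by simp), fun h1 => absurd h h1⟩
  · rw [if_neg h]; exact ⟨fun _ => h, fun _ => rfl⟩

theorem pvso_co_zero (s : V → Bool) (x : D) : pvsoCo T s x = 0 ↔ s (T.src x) = s (T.tgt x) := by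
  unfold pvsoCo
  by_cases h : s (T.src x) = s (T.tgt x)
  · rw [if_pos h]; exact ⟨fun _ => h, fun _ => rfl⟩
  · rw [if_neg h]; exact ⟨fun h1 => absurd h1 (by simp), fun h1 => absurd h1 h⟩

theorem pvso_wall_iff (s : V → Bool) (d x : D) : T.Wall s d x ↔ pvsoW T (pvsoCo T s) d x := by
  unfold PvMap.Wall pvsoW
  have e : (fun a b => T.SF a b ∨ (T.Occ s a ∧ b = T.opp a)) = (fun a b => T.SF a b ∨ (pvsoCo T s a = 1 ∧ b = T.opp a)) := by
    funext a b
    rw [pvso_co_one]
  rw [e]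

theorem pvso_incomp_iff (s : V → Bool) (d x : D) : T.InComp s d x ↔ ReflTransGen (pvsoC T {y | pvsoW T (pvsoCo T s) d y}) d x := by
  unfold PvMap.InComp
  have e : T.CStep s d = pvsoC T {y | pvsoW T (pvsoCo T s) d y} := by
    funext a b
    unfold PvMap.CStep pvsoC
    rw [pvso_wall_iff]
    rfl
  rw [e]

theorem pvso_tag_iff (s : V → Bool) (d : D) : T.Tag s d ↔ pvsoCo T s d = 0 ∧ pvsoCo T s (T.nxt d) = 1 := by
  rw [pvso_co_zero, pvso_co_one]
  unfold PvMap.Tag PvMap.Occ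
  rw [T.src_nxt, T.tgt_nxt]
  constructor
  · rintro ⟨h1, h2⟩
    exact ⟨h1, fun h3 => h2 (by rw [← h3, h1])⟩
  · rintro ⟨h1, h2⟩
    exact ⟨h1, fun h3 => h2 (by rw [h3, h1])⟩

theorem pvso_lab_iff (s : V → Bool) (d d' : D) : T.SameLab s d d' ↔ PvsoLab T (pvsoCo T s) d d' := by
  unfold PvMap.SameLab
  rw [pvso_tag_iff, pvso_tag_iff, pvso_wall_iff, pvso_incomp_iff]
  constructor
  · rintro ⟨⟨h1, h2⟩, ⟨h3, h4⟩, h5, h6⟩
    exact ⟨pvso_co_sym s, pvso_co_coc s, h1, h2, h3, h4, h5, h6⟩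
  · intro h
    exact ⟨⟨h.t0, h.t1⟩, ⟨h.u0, h.u1⟩, h.mem, h.comp⟩

theorem pvso_co_sh (s : V → Bool) (u : V → ZMod 2) (x : D) : pvsoCo T (pvsoSh s u) x = pvsoCo T s x + (u (T.src x) + u (T.tgt x)) := by
  unfold pvsoCo pvsoSh
  exact pvso_dec_sh _ _ _ _

theorem pvso_sh_sh (s : V → Bool) (u : V → ZMod 2) : pvsoSh (pvsoSh s u) u = s := by
  funext v
  unfold pvsoSh
  exact pvso_dec_xor _ _

variable [Fintype D]

theorem pvso_psi (hT : T.IsSph) {d d' e e' : D} (hdd : ¬ T.SF d d') (hee : ¬ T.SF e e')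
    (H : ∀ r, PvsoIm T d d' r → PvsoIm T e e' r) {s : V → Bool} (hs : T.SameLab s d d') :
    T.SameLab (pvsoPsi T d d' e e' s) e e' ∧ pvsoPsi T e e' d d' (pvsoPsi T d d' e e' s) = s := by
  have zz : ∀ a : ZMod 2, a + a = 0 := by decide
  have hL := (pvso_lab_iff s d d').1 hs
  have hK := pvso_W_face T (pvsoCo T s) d
  obtain ⟨g, hgd⟩ : ∃ g, g = pvsoG T {y | pvsoW T (pvsoCo T s) d y} d d' := ⟨_, rfl⟩
  have hg : PvsoTog T {y | pvsoW T (pvsoCo T s) d y} d d' g := by
    rw [hgd]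
    exact pvso_G_spec (pvso_tog_of_comp T hK (pvso_W_refl T _ d) hL.mem hL.comp)
  obtain ⟨hIm, hKe⟩ := pvso_fwd hdd hL hg
  obtain ⟨r, hr⟩ : ∃ r, r = pvsoRr T d d' s := ⟨_, rfl⟩
  have hr' : (fun x => pvsoCo T s x + g x) = r := by rw [hr, hgd]; rfl
  rw [hr'] at hIm hKe
  have hIm' := H r hIm
  obtain ⟨g2, hg2d⟩ : ∃ g2, g2 = pvsoG T (pvsoK T r e e') e e' := ⟨_, rfl⟩
  have hg2 : PvsoTog T (pvsoK T r e e') e e' g2 := by rw [hg2d]; exact pvso_G_spec hIm'.tog
  obtain ⟨hL2, hKe2⟩ := pvso_bwd hee hIm' hg2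
  have hrx : ∀ x, r x = pvsoCo T s x + g x := fun x => by rw [← hr']
  -- the potential
  have hm : ∃ u : V → ZMod 2, ∀ x, (fun x => g x + g2 x) x = u (T.src x) + u (T.tgt x) := by
    refine hT.h1 _ (pvso_sym_add T hg.1 hg2.1) (fun x => ?_)
    have e1 : pvsoDel T (fun x => g x + g2 x) x = pvsoDel T (pvsoCo T s) x + pvsoDel T (fun x => r x + g2 x) x := by
      rw [← pvso_del_add]
      refine pvso_del_congr T fun y _ => ?_
      show g y + g2 y = pvsoCo T s y + (r y + g2 y)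
      rw [hrx y, ← add_assoc, ← add_assoc, zz, zero_add]
    rw [pvso_co_coc, hL2.coc, add_zero] at e1
    exact e1
  obtain ⟨s', hs'⟩ : ∃ s', s' = pvsoPsi T d d' e e' s := ⟨_, rfl⟩
  have hs'2 : s' = pvsoSh s (pvsoPot T fun x => g x + g2 x) := by
    rw [hs', hgd, hg2d, hr]; rfl
  have hco : pvsoCo T s' = fun x => r x + g2 x := by
    funext x
    rw [hs'2, pvso_co_sh, ← pvso_pot_spec hm x, hrx x, add_assoc]
  rw [← hs']
  refine ⟨?_, ?_⟩
  · rw [pvso_lab_iff, hco]; exact hL2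
  · have f2 : {y | pvsoW T (pvsoCo T s') e y} = pvsoK T r e e' := by rw [hco]; exact hKe2
    have f1 : pvsoRr T e e' s' = r := by
      funext x
      unfold pvsoRr
      rw [f2, ← hg2d, hco]
      show r x + g2 x + g2 x = r x
      rw [add_assoc, zz, add_zero]
    unfold pvsoPsi
    rw [f2, f1, hKe, ← hg2d, ← hgd]
    have e3 : (fun x => g2 x + g x) = fun x => g x + g2 x := by funext x; exact add_comm _ _
    rw [e3, hs'2, pvso_sh_sh]

theorem pvso_not_sf {d d' : D} (hdd : ¬ T.SF d d') : ¬ T.SF (T.nxt d) (T.nxt (T.nxt d')) := fun h =>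
  hdd (T.sf_trans ((pvso_sf_nxt_iff d _).1 h) (T.sf_symm (T.sf_nxt2 d')))

theorem pvso_im_iff (hT : T.IsSph) {d d' : D} (hdd : ¬ T.SF d d') (r : D → ZMod 2) :
    PvsoIm T d d' r ↔ PvsoIm T (T.nxt d) (T.nxt (T.nxt d')) r := by
  refine ⟨pvso_theta_im hT hdd, fun h => ?_⟩
  have h1 := pvso_not_sf hdd
  have h2 := pvso_theta_im hT h1 h
  have h3 := pvso_theta_im hT (pvso_not_sf h1) h2
  rw [T.nxt3, T.nxt3 (T.nxt d'), T.nxt3] at h3
  exact h3

end pvso8

/-- **Prop 1.2 (finite orthogonality), count form**: the number of colourings for which `d`, `d'` are tags of one label does not change under `(d, d') ↦ (nxt d, nxt⁻¹ d')` -/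
theorem pvso_orth_count {V D : Type} {T : PvMap V D} [Fintype V] [Finite D] (hT : T.IsSph) {d d' : D} (hdd : ¬ T.SF d d') :
    (Finset.univ.filter fun s : V → Bool => T.SameLab s d d').card
      = (Finset.univ.filter fun s : V → Bool => T.SameLab s (T.nxt d) (T.nxt (T.nxt d'))).card := by
  have := Fintype.ofFinite D
  have h1 := pvso_not_sf hdd
  refine Finset.card_nbij' (pvsoPsi T d d' (T.nxt d) (T.nxt (T.nxt d'))) (pvsoPsi T (T.nxt d) (T.nxt (T.nxt d')) d d') ?_ ?_ ?_ ?_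
  · intro s hs
    simp only [Finset.coe_filter, Finset.mem_univ, true_and, Set.mem_ofPred_eq] at hs ⊢
    exact (pvso_psi hT hdd h1 (fun r => (pvso_im_iff hT hdd r).1) hs).1
  · intro s hs
    simp only [Finset.coe_filter, Finset.mem_univ, true_and, Set.mem_ofPred_eq] at hs ⊢
    exact (pvso_psi hT h1 hdd (fun r => (pvso_im_iff hT hdd r).2) hs).1
  · intro s hs
    simp only [Finset.coe_filter, Finset.mem_univ, true_and, Set.mem_ofPred_eq] at hs
    exact (pvso_psi hT hdd h1 (fun r => (pvso_im_iff hT hdd r).1) hs).2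
  · intro s hs
    simp only [Finset.coe_filter, Finset.mem_univ, true_and, Set.mem_ofPred_eq] at hs
    exact (pvso_psi hT h1 hdd (fun r => (pvso_im_iff hT hdd r).2) hs).2

end Claimed.Agent.R289
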