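-- KEEP
import Claimed.Agent.R289.S1.Orth
import Claimed.Agent.R289.S1.Meas

/-!
# Row 289 (S0537, Cardy for Poisson-Voronoi), box S1, file S1/Bessel : the BESSEL IDENTITIES `fields:energy`, `fields:V-energy`      (helper185; prefix `pvfo_`, records `Fo..`, `fo..`)

INPUT (hypotheses here, supplied by `S1/Orth.lean` (helper53), `S1/OrthInf.lean` (helper227), `S1/Meas.lean` (helper268)):
  `FoCnt`  = `orth_count` (finite sphere),   `FoInv` = `orth_inf` (colLaw form),   `FoMeas` = measurability of the events `{s | SameLab s d d'}`.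
OUTPUT
  `pvfo_ker_sum`     the algebra: an anti-circulant kernel is diagonal on covariant coefficients `x (nxt d) = zeta x d`, `|zeta| = 1`, `zeta ≠ 1`;
  `pvfo_tag_prob`    `colLaw {Tag s d} = 1/4`;
  `pvfo_bessel_int`  `E sum_d sum_d' 1{SameLab} x d conj (x d') = 1/4 sum_d |x d|^2`  (`Z` = any finite `nxt`-closed set of darts; `1/4 sum_darts = 3/4 sum_faces`);
  `foLabs`, `foE`    the labels met by `Z` as finsets of darts, `foE x Z s = sum_lambda |sum_{d in lambda} x d|^2`;  `pvfo_E_eq`, `pvfo_bessel` (real form), `pvfo_bessel_sub` (sub-families of labels);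
  `pvfo_bessel_U`, `pvfo_bessel_Q`, `pvfo_bessel_V`  the fields `U`, `Q`, `V` with a colour independent mask `g`;
  `pvfo_bessel_fin`  the finite sphere, count form (statement `bessel` of the draft of helper227).
-/

set_option autoImplicit false

namespace Claimed.Agent.R289

open MeasureTheory

/-! ## 0. fair colours -/

instance pvfo_colLaw_prob (V : Type) : IsProbabilityMeasure (colLaw V) := by
  unfold colLaw; infer_instance

theorem pvfo_coin (b : Bool) : (PMF.uniformOfFintype Bool).toMeasure {b} = 1 / 2 := by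
  rw [PMF.toMeasure_apply_singleton _ _ (measurableSet_singleton b), PMF.uniformOfFintype_apply]
  simp

open Classical in
/-- cylinder probabilities -/
theorem pvfo_cyl {V : Type} (I : Finset V) (σ : V → Bool) : colLaw V {s | ∀ i ∈ I, s i = σ i} = (1 / 2) ^ I.card := by
  have h : {s : V → Bool | ∀ i ∈ I, s i = σ i} = Set.pi (I : Set V) (fun i => {σ i}) := by
    ext s
    simp [Set.mem_pi]
  rw [h]
  unfold colLaw
  rw [Measure.infinitePi_pi _ (fun i _ => measurableSet_singleton _), Finset.prod_congr rfl fun i _ => pvfo_coin (σ i), Finset.prod_const]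

theorem pvfo_cyl_meas {V : Type} (I : Finset V) (σ : V → Bool) : MeasurableSet {s : V → Bool | ∀ i ∈ I, s i = σ i} := by
  have h : {s : V → Bool | ∀ i ∈ I, s i = σ i} = Set.pi (I : Set V) (fun i => {σ i}) := by
    ext s
    simp [Set.mem_pi]
  rw [h]
  exact MeasurableSet.pi I.countable_toSet fun i _ => measurableSet_singleton _

namespace PvMap

variable {V D : Type} (T : PvMap V D)

open Classical in
theorem pvfo_tag_set (d : D) : {s : V → Bool | T.Tag s d}
    = {s | ∀ i ∈ ({T.src d, T.tgt d, T.apex d} : Finset V), s i = (fun v => if v = T.apex d then false else true) i}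
      ∪ {s | ∀ i ∈ ({T.src d, T.tgt d, T.apex d} : Finset V), s i = (fun v => if v = T.apex d then true else false) i} := by
  have h1 := T.apex_ne_src d
  have h2 := T.apex_ne_tgt d
  ext s
  simp only [Tag, Set.mem_ofPred_eq, Set.mem_union, Finset.mem_insert, Finset.mem_singleton, forall_eq_or_imp, forall_eq,
    if_neg h1.symm, if_neg h2.symm, if_true]
  cases s (T.src d) <;> cases s (T.tgt d) <;> cases s (T.apex d) <;> simp

theorem pvfo_tag_meas (d : D) : MeasurableSet {s : V → Bool | T.Tag s d} := by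
  classical
  rw [pvfo_tag_set]
  exact (pvfo_cyl_meas _ _).union (pvfo_cyl_meas _ _)

/-- a face is used by a wall with a given missing spoke with probability `1/4` -/
theorem pvfo_tag_prob (d : D) : colLaw V {s | T.Tag s d} = 1 / 4 := by
  classical
  have h1 := T.apex_ne_src d
  have h2 := T.apex_ne_tgt d
  have h3 := T.tgt_ne_src d
  have hcard : ({T.src d, T.tgt d, T.apex d} : Finset V).card = 3 := by
    rw [Finset.card_insert_of_notMem, Finset.card_insert_of_notMem, Finset.card_singleton]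
    · simp only [Finset.mem_singleton]; exact h2.symm
    · simp only [Finset.mem_insert, Finset.mem_singleton, not_or]; exact ⟨h3.symm, h1.symm⟩
  rw [pvfo_tag_set, measure_union _ (pvfo_cyl_meas _ _), pvfo_cyl, pvfo_cyl, hcard]
  · rw [← two_mul, show ((1 : ENNReal) / 2) ^ 3 = (1 / 2) * ((1 / 2) * (1 / 2)) by ring, ← mul_assoc,
      ENNReal.mul_div_cancel (by norm_num) (by norm_num), one_mul]
    rw [one_div, one_div, ← ENNReal.mul_inv (by norm_num) (by norm_num)]
    norm_num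
  · rw [Set.disjoint_left]
    intro s hs hs'
    have a1 := hs (T.apex d) (by simp)
    have a2 := hs' (T.apex d) (by simp)
    simp only [if_true] at a1 a2
    rw [a1] at a2
    exact absurd a2 (by decide)

end PvMap

namespace PvMap

variable {V D : Type} (T : PvMap V D)

/-! ## 1. the algebra: an anti-circulant kernel is diagonal on covariant coefficients -/

/-- kernel hypotheses: `M d d'` = number / probability of the colourings for which `d`, `d'` are tags of one label -/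
structure FoKer (M : D → D → ℝ) (m₀ : ℝ) : Prop where
  off : ∀ d d', ¬ T.SF d d' → M d d' = M (T.nxt d) (T.nxt (T.nxt d'))
  face : ∀ d d', T.SF d d' → d' ≠ d → M d d' = 0
  diag : ∀ d, M d d = m₀

theorem pvfo_sf_shift (d d' : D) : T.SF (T.nxt d) (T.nxt (T.nxt d')) ↔ T.SF d d' := by
  constructor
  · intro h
    exact T.sf_trans (T.sf_nxt d) (T.sf_trans h (T.sf_symm (T.sf_nxt2 d')))
  · intro h
    exact T.sf_trans (T.sf_symm (T.sf_nxt d)) (T.sf_trans h (T.sf_nxt2 d'))

open Classical in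
theorem pvfo_ker_off {M : D → D → ℝ} {m₀ : ℝ} (hM : T.FoKer M m₀) (Z : Finset D) (hZ : ∀ d ∈ Z, T.nxt d ∈ Z)
    {ζ : ℂ} (hζ : ζ * (starRingEnd ℂ) ζ = 1) (hζ1 : ζ ≠ 1) (x : D → ℂ) (hx : ∀ d, x (T.nxt d) = ζ * x d) :
    ∑ p ∈ Z ×ˢ Z, (if T.SF p.1 p.2 then 0 else (M p.1 p.2 : ℂ) * (x p.1 * (starRingEnd ℂ) (x p.2))) = 0 := by
  set G : D × D → ℂ := fun p => if T.SF p.1 p.2 then 0 else (M p.1 p.2 : ℂ) * (x p.1 * (starRingEnd ℂ) (x p.2)) with hG
  have h1 : ∑ p ∈ Z ×ˢ Z, G (T.nxt p.1, T.nxt (T.nxt p.2)) = ∑ p ∈ Z ×ˢ Z, G p := by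
    refine Finset.sum_nbij' (fun p => (T.nxt p.1, T.nxt (T.nxt p.2))) (fun p => (T.nxt (T.nxt p.1), T.nxt p.2)) ?_ ?_ ?_ ?_ ?_
    · intro p hp
      rw [Finset.mem_product] at hp ⊢
      exact ⟨hZ _ hp.1, hZ _ (hZ _ hp.2)⟩
    · intro p hp
      rw [Finset.mem_product] at hp ⊢
      exact ⟨hZ _ (hZ _ hp.1), hZ _ hp.2⟩
    · intro p _
      simp [T.nxt3]
    · intro p _
      simp [T.nxt3]
    · intro p _
      rfl
  have h2 : ∀ p : D × D, G (T.nxt p.1, T.nxt (T.nxt p.2)) = (starRingEnd ℂ) ζ * G p := by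
    intro p
    simp only [hG]
    by_cases hp : T.SF p.1 p.2
    · rw [if_pos hp, if_pos ((T.pvfo_sf_shift _ _).2 hp), mul_zero]
    · rw [if_neg hp, if_neg (fun h => hp ((T.pvfo_sf_shift _ _).1 h)), ← hM.off _ _ hp, hx, hx, hx, map_mul, map_mul]
      linear_combination ((M p.1 p.2 : ℂ) * x p.1 * (starRingEnd ℂ) (x p.2) * (starRingEnd ℂ) ζ) * hζ
  rw [Finset.sum_congr rfl fun p _ => h2 p, ← Finset.mul_sum] at h1
  have h3 : ((starRingEnd ℂ) ζ - 1) * ∑ p ∈ Z ×ˢ Z, G p = 0 := by linear_combination h1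
  rcases mul_eq_zero.1 h3 with h | h
  · exfalso
    apply hζ1
    have h4 : (starRingEnd ℂ) ζ = 1 := by linear_combination h
    have := congrArg (starRingEnd ℂ) h4
    simpa using this
  · exact h

open Classical in
/-- **the algebra of the Bessel identity** -/
theorem pvfo_ker_sum {M : D → D → ℝ} {m₀ : ℝ} (hM : T.FoKer M m₀) (Z : Finset D) (hZ : ∀ d ∈ Z, T.nxt d ∈ Z)
    {ζ : ℂ} (hζ : ζ * (starRingEnd ℂ) ζ = 1) (hζ1 : ζ ≠ 1) (x : D → ℂ) (hx : ∀ d, x (T.nxt d) = ζ * x d) :
    ∑ d ∈ Z, ∑ d' ∈ Z, (M d d' : ℂ) * (x d * (starRingEnd ℂ) (x d')) = ((m₀ * ∑ d ∈ Z, ‖x d‖ ^ 2 : ℝ) : ℂ) := by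
  have hoff := T.pvfo_ker_off hM Z hZ hζ hζ1 x hx
  rw [Finset.sum_product] at hoff
  have hsplit : ∀ d d', (M d d' : ℂ) * (x d * (starRingEnd ℂ) (x d'))
      = (if T.SF d d' then 0 else (M d d' : ℂ) * (x d * (starRingEnd ℂ) (x d')))
        + (if T.SF d d' then (M d d' : ℂ) * (x d * (starRingEnd ℂ) (x d')) else 0) := by
    intro d d'
    by_cases h : T.SF d d'
    · rw [if_pos h, if_pos h, zero_add]
    · rw [if_neg h, if_neg h, add_zero]
  rw [Finset.sum_congr rfl fun d _ => Finset.sum_congr rfl fun d' _ => hsplit d d']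
  simp only [Finset.sum_add_distrib]
  simp only at hoff
  rw [hoff, zero_add]
  push_cast
  rw [Finset.mul_sum]
  refine Finset.sum_congr rfl fun d hd => ?_
  rw [Finset.sum_eq_single d]
  · rw [if_pos (T.sf_refl d), hM.diag, Complex.mul_conj, Complex.normSq_eq_norm_sq]
    push_cast
    ring
  · intro d' _ hne
    by_cases h : T.SF d d'
    · rw [if_pos h, hM.face d d' h hne]
      simp
    · rw [if_neg h]
  · intro h
    exact absurd hd h

/-! ## 2. the probability kernel, the Bessel identity in expectation -/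

/-- supplied by `orth_inf` -/
def FoInv : Prop := ∀ d d', ¬ T.SF d d' →
  colLaw V {s | T.SameLab s d d'} = colLaw V {s | T.SameLab s (T.nxt d) (T.nxt (T.nxt d'))}

/-- supplied by `S1/Meas.lean` -/
def FoMeas : Prop := ∀ d d', MeasurableSet {s : V → Bool | T.SameLab s d d'}

theorem pvfo_ker_prob (h : T.FoInv) : T.FoKer (fun d d' => (colLaw V).real {s | T.SameLab s d d'}) (1 / 4) where
  off d d' hdd := by
    simp only [measureReal_def]
    rw [h d d' hdd]
  face d d' hsf hne := by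
    have : {s : V → Bool | T.SameLab s d d'} = ∅ := by
      ext s
      simp only [Set.mem_ofPred_eq, Set.mem_empty_iff_false, iff_false]
      intro hs
      exact hne (T.tag_unique s hs.1 hs.2.1 hsf)
    simp only [this, measureReal_empty]
  diag d := by
    have : {s : V → Bool | T.SameLab s d d} = {s | T.Tag s d} := by
      ext s
      exact ⟨fun hs => hs.1, fun hs => T.sameLab_refl s hs⟩
    simp only [this, measureReal_def, T.pvfo_tag_prob d]
    norm_num

open Classical in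
/-- `sum_lambda |sum_{d in lambda} x d|^2` as a double sum over darts -/
noncomputable def foEn (x : D → ℂ) (Z : Finset D) (s : V → Bool) : ℂ :=
  ∑ d ∈ Z, ∑ d' ∈ Z, if T.SameLab s d d' then x d * (starRingEnd ℂ) (x d') else 0

theorem pvfo_term_int (hm : T.FoMeas) (d d' : D) (c : ℂ) : by
    classical
    exact Integrable (fun s : V → Bool => if T.SameLab s d d' then c else 0) (colLaw V) ∧
      ∫ s, (if T.SameLab s d d' then c else 0) ∂(colLaw V) = ((colLaw V).real {s | T.SameLab s d d'} : ℂ) * c := by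
  classical
  have e : (fun s : V → Bool => if T.SameLab s d d' then c else 0) = Set.indicator {s | T.SameLab s d d'} (fun _ => c) := by
    funext s
    by_cases hs : T.SameLab s d d'
    · rw [if_pos hs, Set.indicator_of_mem (by exact hs)]
    · rw [if_neg hs, Set.indicator_of_notMem (by exact hs)]
  constructor
  · rw [e]
    exact (integrable_const c).indicator (hm d d')
  · rw [e, integral_indicator_const c (hm d d')]
    simp

theorem pvfo_En_integrable (hm : T.FoMeas) (x : D → ℂ) (Z : Finset D) : Integrable (T.foEn x Z) (colLaw V) := by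
  classical
  unfold foEn
  exact integrable_finsetSum _ fun d _ => integrable_finsetSum _ fun d' _ => (T.pvfo_term_int hm d d' _).1

/-- **Bessel identity** `fields:energy` (complex double sum form) -/
theorem pvfo_bessel_int (h : T.FoInv) (hm : T.FoMeas) (Z : Finset D) (hZ : ∀ d ∈ Z, T.nxt d ∈ Z)
    {ζ : ℂ} (hζ : ζ * (starRingEnd ℂ) ζ = 1) (hζ1 : ζ ≠ 1) (x : D → ℂ) (hx : ∀ d, x (T.nxt d) = ζ * x d) :
    ∫ s, T.foEn x Z s ∂(colLaw V) = ((1 / 4 * ∑ d ∈ Z, ‖x d‖ ^ 2 : ℝ) : ℂ) := by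
  classical
  unfold foEn
  rw [integral_finsetSum _ fun d _ => integrable_finsetSum _ fun d' _ => (T.pvfo_term_int hm d d' _).1]
  rw [Finset.sum_congr rfl fun d _ => integral_finsetSum _ fun d' _ => (T.pvfo_term_int hm d d' _).1]
  rw [Finset.sum_congr rfl fun d _ => Finset.sum_congr rfl fun d' _ => (T.pvfo_term_int hm d d' _).2]
  exact T.pvfo_ker_sum (T.pvfo_ker_prob h) Z hZ hζ hζ1 x hx

/-! ## 3. labels as finsets of darts -/

open Classical in
/-- the part in `Z` of the label of the tag `d` -/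
noncomputable def foCls (Z : Finset D) (s : V → Bool) (d : D) : Finset D := Z.filter (T.SameLab s d)

open Classical in
/-- the labels met by `Z` -/
noncomputable def foLabs (Z : Finset D) (s : V → Bool) : Finset (Finset D) := (Z.filter (T.Tag s)).image (T.foCls Z s)

/-- `sum_lambda |sum_{d in lambda} x d|^2` -/
noncomputable def foE (x : D → ℂ) (Z : Finset D) (s : V → Bool) : ℝ := ∑ L ∈ T.foLabs Z s, ‖∑ d ∈ L, x d‖ ^ 2

theorem pvfo_eqns_cite : True := by
  have := @FoInv.eq_1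
  have := @FoMeas.eq_1
  have := @foEn.eq_1
  have := @foCls.eq_1
  have := @foLabs.eq_1
  have := @foE.eq_1
  trivial

theorem pvfo_cls_congr (Z : Finset D) (s : V → Bool) {d d' : D} (h : T.SameLab s d d') : T.foCls Z s d' = T.foCls Z s d := by
  classical
  unfold foCls
  refine Finset.filter_congr fun e _ => ?_
  exact ⟨fun h' => T.sameLab_trans s h h', fun h' => T.sameLab_trans s (T.sameLab_symm s h) h'⟩

theorem pvfo_E_eq (x : D → ℂ) (Z : Finset D) (s : V → Bool) : ((T.foE x Z s : ℝ) : ℂ) = T.foEn x Z s := by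
  classical
  unfold foE foEn
  -- only tags contribute
  have h1 : ∀ d ∈ Z, (∑ d' ∈ Z, if T.SameLab s d d' then x d * (starRingEnd ℂ) (x d') else 0)
      = if T.Tag s d then x d * (starRingEnd ℂ) (∑ d' ∈ T.foCls Z s d, x d') else 0 := by
    intro d _
    by_cases hd : T.Tag s d
    · rw [if_pos hd, map_sum, Finset.mul_sum]
      unfold foCls
      rw [Finset.sum_filter]
    · rw [if_neg hd]
      exact Finset.sum_eq_zero fun d' _ => if_neg fun h => hd h.1
  rw [Finset.sum_congr rfl h1, ← Finset.sum_filter]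
  rw [← Finset.sum_fiberwise_of_maps_to (s := Z.filter (T.Tag s)) (t := T.foLabs Z s) (g := T.foCls Z s)
    (fun d hd => Finset.mem_image_of_mem _ hd)]
  push_cast
  refine Finset.sum_congr rfl fun L hL => ?_
  unfold foLabs at hL
  obtain ⟨d₀, hd₀, rfl⟩ := Finset.mem_image.1 hL
  have hfib : (Z.filter (T.Tag s)).filter (fun d => T.foCls Z s d = T.foCls Z s d₀) = T.foCls Z s d₀ := by
    ext d
    simp only [Finset.mem_filter]
    constructor
    · rintro ⟨⟨hdZ, hdT⟩, hcl⟩
      rw [← hcl]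
      unfold foCls
      exact Finset.mem_filter.2 ⟨hdZ, T.sameLab_refl s hdT⟩
    · intro hd
      unfold foCls at hd
      obtain ⟨hdZ, hl⟩ := Finset.mem_filter.1 hd
      exact ⟨⟨hdZ, hl.2.1⟩, T.pvfo_cls_congr Z s hl⟩
  rw [hfib]
  have h2 : ∀ d ∈ T.foCls Z s d₀, x d * (starRingEnd ℂ) (∑ d' ∈ T.foCls Z s d, x d')
      = x d * (starRingEnd ℂ) (∑ d' ∈ T.foCls Z s d₀, x d') := by
    intro d hd
    unfold foCls at hd
    rw [T.pvfo_cls_congr Z s (Finset.mem_filter.1 hd).2]
  rw [Finset.sum_congr rfl h2, ← Finset.sum_mul, Complex.mul_conj, Complex.normSq_eq_norm_sq]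
  push_cast
  rfl

theorem pvfo_E_nonneg (x : D → ℂ) (Z : Finset D) (s : V → Bool) : 0 ≤ T.foE x Z s := by
  unfold foE
  exact Finset.sum_nonneg fun _ _ => by positivity

theorem pvfo_E_eq_re (x : D → ℂ) (Z : Finset D) : T.foE x Z = fun s => (T.foEn x Z s).re := by
  funext s
  rw [← T.pvfo_E_eq x Z s, Complex.ofReal_re]

theorem pvfo_E_integrable (hm : T.FoMeas) (x : D → ℂ) (Z : Finset D) : Integrable (T.foE x Z) (colLaw V) := by
  rw [pvfo_E_eq_re]
  exact (T.pvfo_En_integrable hm x Z).re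

/-- **Bessel identity** `fields:energy`, real form: `E sum_lambda |sum_{d in lambda} x d|^2 = 1/4 sum_d |x d|^2` -/
theorem pvfo_bessel (h : T.FoInv) (hm : T.FoMeas) (Z : Finset D) (hZ : ∀ d ∈ Z, T.nxt d ∈ Z)
    {ζ : ℂ} (hζ : ζ * (starRingEnd ℂ) ζ = 1) (hζ1 : ζ ≠ 1) (x : D → ℂ) (hx : ∀ d, x (T.nxt d) = ζ * x d) :
    ∫ s, T.foE x Z s ∂(colLaw V) = 1 / 4 * ∑ d ∈ Z, ‖x d‖ ^ 2 := by
  have h1 := T.pvfo_bessel_int h hm Z hZ hζ hζ1 x hx
  rw [← integral_congr_ae (Filter.Eventually.of_forall fun s => T.pvfo_E_eq x Z s)] at h1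
  have h2 : ∫ s, ((T.foE x Z s : ℝ) : ℂ) ∂(colLaw V) = ((∫ s, T.foE x Z s ∂(colLaw V) : ℝ) : ℂ) := integral_ofReal
  rw [h2] at h1
  exact_mod_cast h1

open Classical in
/-- sub-families of labels (rims in a box, of large diameter, ...): pointwise bound -/
theorem pvfo_E_sub (x : D → ℂ) (Z : Finset D) (s : V → Bool) (Φ : Finset D → Prop) :
    ∑ L ∈ (T.foLabs Z s).filter Φ, ‖∑ d ∈ L, x d‖ ^ 2 ≤ T.foE x Z s := by
  unfold foE
  exact Finset.sum_le_sum_of_subset_of_nonneg (Finset.filter_subset _ _) fun _ _ _ => by positivity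

/-! ## 4. the fields `U`, `Q`, `V` with a colour independent mask -/

theorem pvfo_om_ne_one : pvOm ≠ 1 := by
  intro h
  have := congrArg Complex.re h
  rw [pvOm_re] at this
  norm_num at this

theorem pvfo_om_conj_ne_one : (starRingEnd ℂ) pvOm ≠ 1 := by
  intro h
  have := congrArg Complex.re h
  rw [Complex.conj_re, pvOm_re] at this
  norm_num at this

theorem pvfo_om_conj_mul : (starRingEnd ℂ) pvOm * (starRingEnd ℂ) ((starRingEnd ℂ) pvOm) = 1 := by
  rw [Complex.conj_conj, mul_comm]; exact pvOm_mul_conj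

/-- `E sum_lambda |U_lambda(g)|^2 = 1/4 sum_darts |g p_t|^2 = 3/4 sum_t |g(z_t) p_t|^2` -/
theorem pvfo_bessel_U (h : T.FoInv) (hm : T.FoMeas) (Z : Finset D) (hZ : ∀ d ∈ Z, T.nxt d ∈ Z) (pos : V → ℂ)
    (g : D → ℂ) (hg : ∀ d, g (T.nxt d) = g d) :
    ∫ s, T.foE (fun d => g d * T.upart pos d) Z s ∂(colLaw V) = 1 / 4 * ∑ d ∈ Z, ‖g d * T.upart pos d‖ ^ 2 :=
  T.pvfo_bessel h hm Z hZ pvOm_mul_conj pvfo_om_ne_one _ fun d => by
    simp only [hg, T.upart_nxt]; ring

/-- `E sum_lambda |Q_lambda(g)|^2 = 1/4 sum_darts |g q_t|^2 = 3/4 sum_t |g(z_t) q_t|^2` -/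
theorem pvfo_bessel_Q (h : T.FoInv) (hm : T.FoMeas) (Z : Finset D) (hZ : ∀ d ∈ Z, T.nxt d ∈ Z) (pos : V → ℂ)
    (g : D → ℂ) (hg : ∀ d, g (T.nxt d) = g d) :
    ∫ s, T.foE (fun d => g d * T.qpart pos d) Z s ∂(colLaw V) = 1 / 4 * ∑ d ∈ Z, ‖g d * T.qpart pos d‖ ^ 2 :=
  T.pvfo_bessel h hm Z hZ pvfo_om_conj_mul pvfo_om_conj_ne_one _ fun d => by
    simp only [hg, T.qpart_nxt]; ring

theorem pvfo_norm_add_sq (a b : ℂ) : ‖a + b‖ ^ 2 ≤ 2 * ‖a‖ ^ 2 + 2 * ‖b‖ ^ 2 := by
  have h1 := norm_add_le a b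
  have h2 : ‖a + b‖ ^ 2 ≤ (‖a‖ + ‖b‖) ^ 2 := pow_le_pow_left₀ (norm_nonneg _) h1 2
  nlinarith [sq_nonneg (‖a‖ - ‖b‖)]

theorem pvfo_E_add (x y : D → ℂ) (Z : Finset D) (s : V → Bool) :
    T.foE (fun d => x d + y d) Z s ≤ 2 * T.foE x Z s + 2 * T.foE y Z s := by
  unfold foE
  rw [Finset.mul_sum, Finset.mul_sum, ← Finset.sum_add_distrib]
  refine Finset.sum_le_sum fun L _ => ?_
  rw [Finset.sum_add_distrib]
  exact pvfo_norm_add_sq _ _

/-- `fields:V-energy`: `E sum_lambda |V_lambda(g)|^2 <= 1/2 sum_darts |g|^2 (|p_t|^2 + |q_t|^2) = 3/2 sum_t ...`; `V`-summand = `g` times the clockwise side vector -/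
theorem pvfo_bessel_V (h : T.FoInv) (hm : T.FoMeas) (Z : Finset D) (hZ : ∀ d ∈ Z, T.nxt d ∈ Z) (pos : V → ℂ)
    (g : D → ℂ) (hg : ∀ d, g (T.nxt d) = g d) :
    ∫ s, T.foE (fun d => g d * T.side pos d) Z s ∂(colLaw V)
      ≤ 1 / 2 * ∑ d ∈ Z, (‖g d * T.upart pos d‖ ^ 2 + ‖g d * T.qpart pos d‖ ^ 2) := by
  have e : (fun d => g d * T.side pos d) = fun d => g d * T.upart pos d + g d * T.qpart pos d := by
    funext d
    rw [← T.upart_add_qpart pos d]; ring
  rw [e]
  calc ∫ s, T.foE (fun d => g d * T.upart pos d + g d * T.qpart pos d) Z s ∂(colLaw V)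
      ≤ ∫ s, (2 * T.foE (fun d => g d * T.upart pos d) Z s + 2 * T.foE (fun d => g d * T.qpart pos d) Z s) ∂(colLaw V) := by
        refine integral_mono (T.pvfo_E_integrable hm _ Z) ?_ fun s => T.pvfo_E_add _ _ Z s
        exact ((T.pvfo_E_integrable hm _ Z).const_mul 2).add ((T.pvfo_E_integrable hm _ Z).const_mul 2)
    _ = 1 / 2 * ∑ d ∈ Z, (‖g d * T.upart pos d‖ ^ 2 + ‖g d * T.qpart pos d‖ ^ 2) := by
        rw [integral_add ((T.pvfo_E_integrable hm _ Z).const_mul 2) ((T.pvfo_E_integrable hm _ Z).const_mul 2),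
          integral_const_mul, integral_const_mul, T.pvfo_bessel_U h hm Z hZ pos g hg, T.pvfo_bessel_Q h hm Z hZ pos g hg,
          Finset.sum_add_distrib]
        ring

/-! ## 5. the finite sphere -/

theorem pvfo_colLaw_fin [Fintype V] (A : Finset (V → Bool)) : colLaw V (A : Set (V → Bool)) = (A.card : ENNReal) * (1 / 2) ^ Fintype.card V := by
  classical
  rw [← sum_measure_singleton]
  have h : ∀ a ∈ A, colLaw V {a} = (1 / 2) ^ Fintype.card V := by
    intro a _
    have := pvfo_cyl (Finset.univ : Finset V) a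
    rw [Finset.card_univ] at this
    rw [← this]
    congr 1
    ext s
    simp only [Set.mem_singleton_iff, Set.mem_ofPred_eq, Finset.mem_univ, forall_true_left]
    exact ⟨fun h i => by rw [h], fun h => funext h⟩
  rw [Finset.sum_congr rfl h, Finset.sum_const, nsmul_eq_mul]

open Classical in
/-- supplied by `orth_count` -/
def FoCnt [Fintype V] : Prop := ∀ d d', ¬ T.SF d d' →
  (Finset.univ.filter fun s : V → Bool => T.SameLab s d d').card
    = (Finset.univ.filter fun s : V → Bool => T.SameLab s (T.nxt d) (T.nxt (T.nxt d'))).card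

theorem pvfo_cnt_eqns_cite : True := by
  have := @FoCnt.eq_1
  trivial

theorem pvfo_meas_fin [Finite V] : T.FoMeas := fun _ _ => (Set.toFinite _).measurableSet

theorem pvfo_inv_of_cnt [Fintype V] (h : T.FoCnt) : T.FoInv := by
  classical
  intro d d' hdd
  have e : ∀ a b : D, {s : V → Bool | T.SameLab s a b} = ((Finset.univ.filter fun s : V → Bool => T.SameLab s a b : Finset (V → Bool)) : Set (V → Bool)) := by
    intro a b
    ext s
    simp
  rw [e, e, pvfo_colLaw_fin, pvfo_colLaw_fin, h d d' hdd]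

open Classical in
theorem pvfo_integral_fin [Fintype V] (f : (V → Bool) → ℂ) : ∫ s, f s ∂(colLaw V) = (1 / 2 : ℂ) ^ Fintype.card V * ∑ s, f s := by
  rw [integral_fintype (Integrable.of_finite), Finset.mul_sum]
  refine Finset.sum_congr rfl fun s _ => ?_
  have h := pvfo_colLaw_fin ({s} : Finset (V → Bool))
  rw [Finset.coe_singleton, Finset.card_singleton, Nat.cast_one, one_mul] at h
  rw [measureReal_def, h]
  simp [ENNReal.toReal_pow]

open Classical in
/-- **Bessel identity on a finite sphere**, count form (statement `bessel` of the draft) -/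
theorem pvfo_bessel_fin [Fintype V] [Fintype D] (h : T.FoCnt) (x : D → ℂ) (hx : ∀ d, x (T.nxt d) = pvOm * x d) :
    ∑ s : V → Bool, ∑ d, ∑ d', (if T.SameLab s d d' then x d * (starRingEnd ℂ) (x d') else 0)
      = (2 : ℂ) ^ Fintype.card V * (1 / 4) * ∑ d, ((‖x d‖ ^ 2 : ℝ) : ℂ) := by
  have h1 := T.pvfo_bessel_int (T.pvfo_inv_of_cnt h) T.pvfo_meas_fin Finset.univ (fun _ _ => Finset.mem_univ _)
    pvOm_mul_conj pvfo_om_ne_one x hx
  rw [pvfo_integral_fin] at h1
  unfold foEn at h1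
  have h2 : (2 : ℂ) ^ Fintype.card V * (1 / 2 : ℂ) ^ Fintype.card V = 1 := by
    rw [← mul_pow]; norm_num
  have h3 := congrArg (fun z => (2 : ℂ) ^ Fintype.card V * z) h1
  simp only [← mul_assoc, h2, one_mul] at h3
  rw [h3]
  push_cast
  ring


/-! ## 6. the inputs which are on main -/

/-- `FoCnt` = `pvso_orth_count` (helper53) -/
theorem pvfo_cnt [Fintype V] [Finite D] (hT : T.IsSph) : T.FoCnt := fun _ _ hdd => pvso_orth_count hT hdd

/-- `FoMeas` = `pvf_meas_sameLab` (helper268) -/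
theorem pvfo_meas [Countable D] : T.FoMeas := fun d d' => pvf_meas_sameLab T d d'

open Classical in
/-- TEX[fields:energy] **Bessel identity on a finite sphere** (statement `bessel` of record) -/
theorem bessel [Fintype V] [Fintype D] (hT : T.IsSph) (x : D → ℂ) (hx : ∀ d, x (T.nxt d) = pvOm * x d) :
    ∑ s : V → Bool, ∑ d, ∑ d', (if T.SameLab s d d' then x d * (starRingEnd ℂ) (x d') else 0)
      = (2 : ℂ) ^ Fintype.card V * (1 / 4) * ∑ d, ((‖x d‖ ^ 2 : ℝ) : ℂ) :=
  T.pvfo_bessel_fin (T.pvfo_cnt hT) x hx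

/-- finite sphere, expectation form, any covariance factor -/
theorem pvfo_bessel_sph [Fintype V] [Finite D] (hT : T.IsSph) (Z : Finset D) (hZ : ∀ d ∈ Z, T.nxt d ∈ Z)
    {ζ : ℂ} (hζ : ζ * (starRingEnd ℂ) ζ = 1) (hζ1 : ζ ≠ 1) (x : D → ℂ) (hx : ∀ d, x (T.nxt d) = ζ * x d) :
    ∫ s, T.foE x Z s ∂(colLaw V) = 1 / 4 * ∑ d ∈ Z, ‖x d‖ ^ 2 :=
  T.pvfo_bessel (T.pvfo_inv_of_cnt (T.pvfo_cnt hT)) T.pvfo_meas_fin Z hZ hζ hζ1 x hx

end PvMap

end Claimed.Agent.R289
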