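-- KEEP
import Claimed.Agent.R289.S1.Orth
import Claimed.Agent.R289.S1.Meas

/-!
# Row 289 (S0537, Cardy for Poisson-Voronoi), box S1, file S1/OrthG      (helper53; prefix `pvsg`, `Pvsg`)

**The deterministic core of the orthogonality for ARBITRARY `V`, `D`** (no `Fintype`; finite or infinite volume), fully proved.
Same proof as `S1/Orth.lean`; the sums run over finitely supported functions (`finsum`), finiteness enters as hypotheses.

* sec. A: `pvsg_fs_inv` (handshake), `pvsg_parity`, `pvsg_fs_two`, `pvsg_sperner`;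
* sec. B: toggles of finite support `pvsg_tog_of_comp`, `pvsg_comp_of_tog`; `PvsgIm` (image of `S -> S + toggle` with finite class), `pvsg_fwd`, `pvsg_bwd`;
* sec. C: `pvsg_theta`, `pvsg_theta_im`, `pvsg_im_iff`;
* sec. D: the map `pvsgPsi`; `pvsg_psi`: if all walls of `s` are finite and `SameLab s d d'` then `SameLab (Psi s) e e'`, `Psi' (Psi s) = s`, the wall of `Psi s` is finite;
* sec. E: EXIT `pvsg_core` (COVER + INJ): a piecewise flip `s -> pvfFlip (A i) s`, `i = (wall of s, wall of the image)`, which maps `{SameLab s d d'}` (finite walls)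
  injectively into `{SameLab s (nxt d) (nxt (nxt d'))}`.  Consumer: the measure wrap on `pvf_piecewise_flip_le`.
-/

set_option autoImplicit false
set_option linter.unusedSectionVars false

namespace Claimed.Agent.R289

open Relation

open Classical

/-! ## A. sums of finitely supported functions of the darts -/

section pvsgA

variable {V D : Type} (T : PvMap V D)

/-- `nxt` as a permutation -/
def pvsgNx : D ≃ D where
  toFun := T.nxt
  invFun := fun x => T.nxt (T.nxt x)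
  left_inv := fun x => T.nxt3 x
  right_inv := fun x => T.nxt3 x

theorem pvsgA_eqns_cite : True := by
  have := @pvsgNx.eq_1
  trivial

theorem pvsg_fs_nxt {M : Type} [AddCommMonoid M] (F : D → M) : ∑ᶠ x, F (T.nxt x) = ∑ᶠ x, F x :=
  finsum_comp_equiv (pvsgNx T) (f := F)

theorem pvsg_fin_nxt {M : Type} [AddCommMonoid M] {F : D → M} (h : (Function.support F).Finite) : (Function.support fun x => F (T.nxt x)).Finite :=
  h.preimage (T.nxt_injective.injOn)

/-- handshake -/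
theorem pvsg_fs_inv {M : Type} [AddCommMonoid M] {N : D → M} (hfin : (Function.support N).Finite) (h : ∀ x, N x + N (T.opp x) = 0) :
    ∑ᶠ x, N x = 0 := by
  rw [finsum_eq_sum_of_support_subset N (s := hfin.toFinset) (by simp)]
  refine Finset.sum_involution (fun x _ => T.opp x) ?_ ?_ ?_ ?_
  · intro x _; exact h x
  · intro x _ _; exact T.opp_ne_self x
  · intro x hx
    rw [Set.Finite.mem_toFinset, Function.mem_support] at hx ⊢
    intro h0
    have := h x
    rw [h0, add_zero] at this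
    exact hx this
  · intro x _; exact T.opp_opp x

theorem pvsg_fs_three {M : Type} [AddCommMonoid M] {F : D → M} (h : (Function.support F).Finite) :
    ∑ᶠ x, (F x + F (T.nxt x) + F (T.nxt (T.nxt x))) = ∑ᶠ x, F x + ∑ᶠ x, F x + ∑ᶠ x, F x := by
  have h1 := pvsg_fin_nxt T h
  have h2 := pvsg_fin_nxt T h1
  rw [finsum_add_distrib (Set.Finite.subset (h.union h1) (Function.support_add _ _)) h2, finsum_add_distrib h h1,
    pvsg_fs_nxt T (fun x => F (T.nxt x)), pvsg_fs_nxt T F]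

theorem pvsg_supp {h : D → ZMod 2} (hfin : {x | h x ≠ 0}.Finite) : (Function.support h).Finite := hfin

theorem pvsg_fs_del {h : D → ZMod 2} (hfin : {x | h x ≠ 0}.Finite) : ∑ᶠ x, pvsoDel T h x = ∑ᶠ x, h x := by
  unfold pvsoDel
  rw [pvsg_fs_three T (pvsg_supp hfin), CharTwo.add_self_eq_zero, zero_add]

theorem pvsg_fin_I (a : D) : {x | pvsoI a x ≠ 0}.Finite := by
  refine (Set.finite_singleton a).subset fun x hx => ?_
  by_contra hn
  exact hx (pvso_I_ne hn)

theorem pvsg_fs_I (a : D) : ∑ᶠ x, pvsoI a x = 1 := by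
  rw [finsum_eq_single _ a (fun x hx => pvso_I_ne hx), pvso_I_self]

/-- **parity**: a finitely supported symmetric cochain cannot be odd at exactly one face -/
theorem pvsg_parity {h : D → ZMod 2} (hfin : {x | h x ≠ 0}.Finite) (hs : T.Sym h) (d : D) (hk : ∀ x, pvsoDel T h x = pvsoDel T (pvsoI d) x) : False := by
  have e1 : ∑ᶠ x, h x = 0 := pvsg_fs_inv T (pvsg_supp hfin) (fun x => by rw [hs x]; exact CharTwo.add_self_eq_zero _)
  have e2 : ∑ᶠ x, pvsoDel T h x = ∑ᶠ x, pvsoDel T (pvsoI d) x := finsum_congr hk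
  rw [pvsg_fs_del T hfin, pvsg_fs_del T (pvsg_fin_I d), e1, pvsg_fs_I] at e2
  exact zero_ne_one e2

theorem pvsg_fs_face (a : D) : ∑ᶠ x, (if T.SF a x then 1 else 0 : ℤ) = 3 := by
  have e : ∀ x, (if T.SF a x then 1 else 0 : ℤ)
      = (if x = a then 1 else 0) + (if T.nxt x = a then 1 else 0) + (if T.nxt (T.nxt x) = a then 1 else 0) := fun x => (pvso_ind3 a x).symm
  have hf : (Function.support fun x : D => (if x = a then 1 else 0 : ℤ)).Finite := by
    refine (Set.finite_singleton a).subset fun x hx => ?_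
    by_contra hn
    exact hx (if_neg hn)
  rw [finsum_congr e, pvsg_fs_three T hf, finsum_eq_single _ a (fun x hx => if_neg hx), if_pos rfl]
  norm_num

theorem pvsg_fin_face (a : D) : (Function.support fun x : D => (if T.SF a x then 1 else 0 : ℤ)).Finite := by
  refine (Set.toFinite ({a, T.nxt a, T.nxt (T.nxt a)} : Set D)).subset fun x hx => ?_
  by_contra hn
  refine hx (if_neg fun h => hn ?_)
  rcases h with rfl | rfl | rfl <;> simp

/-- a function of the faces which vanishes off two faces -/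
theorem pvsg_fs_two {d d' : D} (hdd : ¬ T.SF d d') (F : D → ℤ) (hF : ∀ x, F (T.nxt x) = F x) (h0 : ∀ x, ¬ T.SF d x → ¬ T.SF d' x → F x = 0) :
    ∑ᶠ x, F x = 3 * F d + 3 * F d' := by
  have hsf : ∀ a x, T.SF a x → F x = F a := by
    intro a x h
    rcases h with rfl | rfl | rfl
    · rfl
    · exact hF a
    · rw [hF, hF]
  have e : ∀ x, F x = F d * (if T.SF d x then 1 else 0) + F d' * (if T.SF d' x then 1 else 0) := by
    intro x
    by_cases h1 : T.SF d x
    · have h2 : ¬ T.SF d' x := fun h2 => hdd (T.sf_trans h1 (T.sf_symm h2))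
      rw [if_pos h1, if_neg h2, hsf d x h1]; ring
    · by_cases h2 : T.SF d' x
      · rw [if_neg h1, if_pos h2, hsf d' x h2]; ring
      · rw [if_neg h1, if_neg h2, h0 x h1 h2]; ring
  have f1 : ∀ (c : ℤ) (a : D), (Function.support fun x : D => c * (if T.SF a x then 1 else 0 : ℤ)).Finite := fun c a =>
    (pvsg_fin_face T a).subset fun x hx h => hx (by show c * _ = 0; rw [show (if T.SF a x then 1 else 0 : ℤ) = 0 from h, mul_zero])
  rw [finsum_congr e, finsum_add_distrib (f1 _ _) (f1 _ _), ← mul_finsum, ← mul_finsum,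
    pvsg_fs_face, pvsg_fs_face]
  ring

/-- **Sperner count**, finitely many bichromatic edges -/
theorem pvsg_sperner (lam : V → ZMod 2 × ZMod 2) (hfin : {x | lam (T.src x) ≠ lam (T.tgt x)}.Finite) {d d' : D} (hdd : ¬ T.SF d d')
    (hdeg : ∀ x, ¬ T.SF d x → ¬ T.SF d' x → lam (T.src x) = lam (T.tgt x) ∨ lam (T.tgt x) = lam (T.apex x) ∨ lam (T.apex x) = lam (T.src x))
    (α β : ZMod 2 × ZMod 2) :
    pvsoM α β (lam (T.src d)) (lam (T.tgt d)) (lam (T.apex d)) + pvsoM α β (lam (T.src d')) (lam (T.tgt d')) (lam (T.apex d')) = 0 := by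
  obtain ⟨N, hN⟩ : ∃ N : D → ℤ, N = fun x => pvsoF α β (lam (T.src x)) (lam (T.tgt x)) := ⟨_, rfl⟩
  obtain ⟨M, hM⟩ : ∃ M : D → ℤ, M = fun x => pvsoM α β (lam (T.src x)) (lam (T.tgt x)) (lam (T.apex x)) := ⟨_, rfl⟩
  have hNf : (Function.support N).Finite := by
    refine hfin.subset fun x hx h => hx ?_
    rw [hN]
    show pvsoF α β (lam (T.src x)) (lam (T.tgt x)) = 0
    rw [h]
    have := pvso_F_anti α β (lam (T.tgt x)) (lam (T.tgt x))
    linarith
  have hN0 : ∑ᶠ x, N x = 0 := by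
    refine pvsg_fs_inv T hNf fun x => ?_
    rw [hN]
    show pvsoF α β (lam (T.src x)) (lam (T.tgt x)) + pvsoF α β (lam (T.src (T.opp x))) (lam (T.tgt (T.opp x))) = 0
    rw [T.src_opp', T.tgt_opp, pvso_F_anti α β (lam (T.tgt x))]; ring
  have hMN : ∀ x, M x = N x + N (T.nxt x) + N (T.nxt (T.nxt x)) := by
    intro x
    rw [hM, hN]
    show pvsoM α β _ _ _ = pvsoF α β _ _ + pvsoF α β (lam (T.src (T.nxt x))) (lam (T.tgt (T.nxt x)))
      + pvsoF α β (lam (T.src (T.nxt (T.nxt x)))) (lam (T.tgt (T.nxt (T.nxt x))))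
    rw [T.src_nxt, T.tgt_nxt, T.src_nxt2, T.tgt_nxt2]
    rfl
  have hM0 : ∑ᶠ x, M x = 0 := by
    rw [finsum_congr hMN, pvsg_fs_three T hNf, hN0]
    simp
  have hMr : ∀ x, M (T.nxt x) = M x := by
    intro x
    rw [hM]
    show pvsoM α β (lam (T.src (T.nxt x))) (lam (T.tgt (T.nxt x))) (lam (T.apex (T.nxt x))) = _
    rw [T.src_nxt, T.tgt_nxt, T.apex_nxt, pvso_M_rot]
  have hMz : ∀ x, ¬ T.SF d x → ¬ T.SF d' x → M x = 0 := by
    intro x h1 h2
    rw [hM]
    exact pvso_M_deg α β (hdeg x h1 h2)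
  have h := pvsg_fs_two T hdd M hMr hMz
  rw [hM0] at h
  have h' : M d + M d' = 0 := by linarith
  rw [hM] at h'
  exact h'

end pvsgA
/-! ## B. toggles of finite support -/

section pvsgB

variable {V D : Type} (T : PvMap V D)

theorem pvsg_fin_add {c c' : D → ZMod 2} (h : {x | c x ≠ 0}.Finite) (h' : {x | c' x ≠ 0}.Finite) : {x | c x + c' x ≠ 0}.Finite := by
  refine (h.union h').subset fun x hx => ?_
  by_contra hn
  have h1 : c x = 0 := by
    by_contra h1
    exact hn (Or.inl h1)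
  have h2 : c' x = 0 := by
    by_contra h2
    exact hn (Or.inr h2)
  exact hx (by rw [h1, h2, add_zero])

theorem pvsg_fin_R {c : D → ZMod 2} (h : {x | c x ≠ 0}.Finite) (K : Set D) : {x | pvsoR c K x ≠ 0}.Finite := by
  refine h.subset fun x hx h0 => hx ?_
  unfold pvsoR
  rw [h0]; simp

theorem pvsg_fin_zero : {x : D | (fun _ : D => (0 : ZMod 2)) x ≠ 0}.Finite := by simp

theorem pvsg_fin_of_one {c : D → ZMod 2} {K : Set D} (hK : K.Finite) (h : ∀ x, c x = 1 → x ∈ K) : {x | c x ≠ 0}.Finite :=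
  hK.subset fun x hx => h x (pvso_z2_ne_zero hx)

theorem pvsg_tog_aux {K : Set D} (hK : T.FaceSet K) {d e : D} (hd : d ∈ K) (h : ReflTransGen (pvsoC T K) d e) :
    ∃ g : D → ZMod 2, T.Sym g ∧ (∀ x ∈ K, g x = pvsoI d x + pvsoI e x) ∧ (∀ x, x ∉ K → pvsoDel T g x = pvsoFc T e x) ∧ {x | g x ≠ 0}.Finite := by
  have z3 : ∀ a b c : ZMod 2, a + b + (b + c) = a + c := by decide
  induction h with
  | refl =>
    refine ⟨fun _ => 0, fun _ => rfl, fun x _ => (CharTwo.add_self_eq_zero _).symm, fun x hx => ?_, pvsg_fin_zero⟩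
    rw [pvso_fc_out T hK hd hx]
    simp [pvsoDel]
  | @tail b c _ hbc ih =>
    obtain ⟨g, g1, g2, g3, g4⟩ := ih
    rcases hbc with rfl | ⟨hsf, hb⟩
    · refine ⟨fun y => g y + (pvsoI b y + pvsoI (T.opp b) y), pvso_sym_add T g1 (pvso_sym_edge T b), ?_, ?_, pvsg_fin_add g4 (pvsg_fin_add (pvsg_fin_I b) (pvsg_fin_I (T.opp b)))⟩
      · intro x hx
        show g x + (pvsoI b x + pvsoI (T.opp b) x) = _
        rw [g2 x hx, z3]
      · intro x hx
        rw [pvso_del_add, g3 x hx, pvso_del_add, pvso_del_I, pvso_del_I, ← add_assoc, CharTwo.add_self_eq_zero, zero_add]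
    · have hc : c ∉ K := fun h => hb ((hK.sf T hsf).1 h)
      refine ⟨g, g1, ?_, ?_, g4⟩
      · intro x hx
        rw [g2 x hx]
        have e1 : pvsoI b x = 0 := by unfold pvsoI; rw [if_neg (fun h : x = b => hb (h ▸ hx))]
        have e2 : pvsoI c x = 0 := by unfold pvsoI; rw [if_neg (fun h : x = c => hc (h ▸ hx))]
        rw [e1, e2]
      · intro x hx
        rw [g3 x hx, pvso_fc_sf T hsf]

/-- a component beside `K` gives a toggle of finite support -/
theorem pvsg_tog_of_comp {K : Set D} (hK : T.FaceSet K) {d d' : D} (hd : d ∈ K) (hd' : d' ∈ K) (h : ReflTransGen (pvsoC T K) d d') :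
    ∃ g, PvsoTog T K d d' g ∧ {x | g x ≠ 0}.Finite := by
  obtain ⟨g, g1, g2, g3, g4⟩ := pvsg_tog_aux T hK hd h
  exact ⟨g, ⟨g1, g2, fun x hx => by rw [g3 x hx, pvso_fc_out T hK hd' hx]⟩, g4⟩

/-- a toggle gives a component (handshake) -/
theorem pvsg_comp_of_tog {K : Set D} (hK : T.FaceSet K) {d d' : D} (hd : d ∈ K) (hne : d ≠ d') {g : D → ZMod 2}
    (hg : PvsoTog T K d d' g) (hgf : {x | g x ≠ 0}.Finite) : ReflTransGen (pvsoC T K) d d' := by
  by_contra hn
  obtain ⟨g1, g2, g3⟩ := hg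
  obtain ⟨C, hC⟩ : ∃ C : Set D, C = {e | ReflTransGen (pvsoC T K) d e} := ⟨_, rfl⟩
  have hCo : ∀ x, x ∈ C → T.opp x ∈ C := by
    intro x hx
    rw [hC] at hx ⊢
    exact ReflTransGen.tail hx (Or.inl rfl)
  have hCf : ∀ x y, x ∉ K → T.SF x y → x ∈ C → y ∈ C := by
    intro x y hx hxy hxC
    rw [hC] at hxC ⊢
    exact ReflTransGen.tail hxC (Or.inr ⟨hxy, hx⟩)
  have hdC : d ∈ C := by rw [hC]; exact ReflTransGen.refl
  have hd'C : d' ∉ C := by rw [hC]; exact hn
  have hs : T.Sym (pvsoR g C) := by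
    intro x
    unfold pvsoR
    have e : T.opp x ∈ C ↔ x ∈ C := ⟨fun h => by have := hCo _ h; rwa [T.opp_opp] at this, hCo x⟩
    simp only [e, g1 x]
  have hk : ∀ x, pvsoDel T (pvsoR g C) x = pvsoDel T (pvsoI d) x := by
    intro x
    by_cases hx : x ∈ K
    · refine pvso_del_congr T fun y hy => ?_
      have hyK : y ∈ K := (hK.sf T hy).2 hx
      unfold pvsoR
      by_cases h1 : y = d
      · rw [h1, if_pos hdC, g2 d hd]
        have : pvsoI d' d = 0 := by unfold pvsoI; rw [if_neg hne]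
        rw [this, add_zero]
      · by_cases h2 : y = d'
        · rw [h2, if_neg hd'C]
          unfold pvsoI; rw [if_neg (Ne.symm hne)]
        · have e1 : pvsoI d y = 0 := by unfold pvsoI; rw [if_neg h1]
          have e2 : pvsoI d' y = 0 := by unfold pvsoI; rw [if_neg h2]
          rw [g2 y hyK, e1, e2]; simp
    · rw [pvso_del_I, pvso_fc_out T hK hd hx]
      by_cases hxC : x ∈ C
      · have e : pvsoDel T (pvsoR g C) x = pvsoDel T g x := by
          refine pvso_del_congr T fun y hy => ?_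
          unfold pvsoR
          rw [if_pos (hCf x y hx hy hxC)]
        rw [e, g3 x hx]
      · have e : pvsoDel T (pvsoR g C) x = pvsoDel T (fun _ => 0) x := by
          refine pvso_del_congr T fun y hy => ?_
          unfold pvsoR
          rw [if_neg (fun h => hxC (hCf y x (fun h' => hx ((hK.sf T hy).1 h')) (T.sf_symm hy) h))]
        rw [e]; simp [pvsoDel]
  exact pvsg_parity T (pvsg_fin_R hgf C) hs d hk

/-- the image of `S ↦ S + toggle`, with the finiteness which the handshakes need -/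
structure PvsgIm (d d' : D) (r : D → ZMod 2) : Prop where
  im : PvsoIm T d d' r
  fin : {x | pvsoW T r d x}.Finite
  tog : ∃ g, PvsoTog T (pvsoK T r d d') d d' g ∧ {x | g x ≠ 0}.Finite

variable {T}

theorem pvsg_cut_le (r : D → ZMod 2) (d d' x : D) (h : pvsoCut T r d d' x = 1) : r x = 1 := by
  unfold pvsoCut at h
  by_cases hc : x = d ∨ x = T.opp d ∨ x = d' ∨ x = T.opp d'
  · rw [if_pos hc] at h; exact absurd h (by simp)
  · rw [if_neg hc] at h; exact h

theorem pvsg_K_fin {r : D → ZMod 2} {d : D} (h : {x | pvsoW T r d x}.Finite) (d' : D) : (pvsoK T r d d').Finite :=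
  h.subset fun _ hx => pvso_W_mono T (pvsg_cut_le r d d') hx

/-- **forward** -/
theorem pvsg_fwd {S g : D → ZMod 2} {d d' : D} (hdd : ¬ T.SF d d') (h : PvsoLab T S d d') (hg : PvsoTog T {x | pvsoW T S d x} d d' g)
    (hgf : {x | g x ≠ 0}.Finite) (hw : ∀ e, {x | pvsoW T S e x}.Finite) :
    PvsgIm T d d' (fun x => S x + g x) ∧ pvsoK T (fun x => S x + g x) d d' = {x | pvsoW T S d x} := by
  obtain ⟨h1, h2⟩ := pvso_fwd hdd h hg
  refine ⟨⟨h1, ?_, by rw [h2]; exact ⟨g, hg, hgf⟩⟩, h2⟩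
  obtain ⟨Z, hZ⟩ : ∃ Z : Set D, Z = {x | pvsoW T S d x} ∪ ⋃ y ∈ {y | g y ≠ 0}, {x | pvsoW T S y x} := ⟨_, rfl⟩
  have hZfin : Z.Finite := by rw [hZ]; exact (hw d).union (hgf.biUnion fun y _ => hw y)
  have hZm : ∀ x, x ∈ Z ↔ (pvsoW T S d x ∨ ∃ y, g y ≠ 0 ∧ pvsoW T S y x) := by
    intro x
    rw [hZ]
    simp only [Set.mem_union, Set.mem_iUnion, Set.mem_ofPred_eq, exists_prop]
  refine hZfin.subset fun x hx => pvso_W_sub T ((hZm d).2 (Or.inl (pvso_W_refl T S d))) ?_ ?_ hx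
  · intro x
    rw [hZm, hZm]
    have e : ∀ y, pvsoW T S y (T.nxt x) ↔ pvsoW T S y x := fun y => pvso_W_face T S y x
    simp only [e]
  · intro a ha hc
    have hc' : S a + g a = 1 := hc
    rw [hZm] at ha ⊢
    by_cases hga : g a = 0
    · rw [hga, add_zero] at hc'
      rcases ha with ha | ⟨y, hy, ha⟩
      · exact Or.inl (pvso_W_opp T ha hc')
      · exact Or.inr ⟨y, hy, pvso_W_opp T ha hc'⟩
    · exact Or.inr ⟨T.opp a, by rw [hg.1 a]; exact hga, pvso_W_refl T S _⟩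

/-- **backward** -/
theorem pvsg_bwd {r g : D → ZMod 2} {d d' : D} (hdd : ¬ T.SF d d') (h : PvsoIm T d d' r) (hg : PvsoTog T (pvsoK T r d d') d d' g)
    (hgf : {x | g x ≠ 0}.Finite) :
    PvsoLab T (fun x => r x + g x) d d' ∧ {x | pvsoW T (fun x => r x + g x) d x} = pvsoK T r d d' := by
  have hK : T.FaceSet (pvsoK T r d d') := pvso_W_face T _ d
  have hd : d ∈ pvsoK T r d d' := pvso_W_refl T _ d
  have hd' : d' ∈ pvsoK T r d d' := h.mem
  have hne : d ≠ d' := fun e => hdd (e ▸ T.sf_refl d)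
  have z1 : (1 : ZMod 2) + 1 = 0 := by decide
  have hKe : {x | pvsoW T (fun x => r x + g x) d x} = pvsoK T r d d' := by
    refine Set.ext fun x => pvso_W_congr T (fun x hx => ?_) x
    have hx' : x ∈ pvsoK T r d d' := hx
    show r x + g x = pvsoCut T r d d' x
    unfold pvsoCut
    by_cases h1 : x = d
    · rw [if_pos (Or.inl h1), h1, h.one d (Or.inl (T.sf_refl d)), hg.at_d hd hne, z1]
    · by_cases h3 : x = d'
      · rw [if_pos (Or.inr (Or.inr (Or.inl h3))), h3, h.one d' (Or.inr (T.sf_refl d')), hg.at_d' hd' hne, z1]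
      · have h2 : x ≠ T.opp d := fun e => h3 (by rw [e]; exact hg.opp_d hd hne (e ▸ hx'))
        have h4 : x ≠ T.opp d' := fun e => h1 (by rw [e]; exact hg.opp_d' hd' hne (e ▸ hx'))
        rw [if_neg (by tauto), hg.off hx' h1 h3, add_zero]
  refine ⟨⟨pvso_sym_add T h.sym hg.1, ?_, ?_, ?_, ?_, ?_, ?_, ?_⟩, hKe⟩
  · intro x
    rw [pvso_del_add, hg.del hK hd hd']
    by_cases h1 : T.SF d x
    · have h2 : ¬ T.SF d' x := fun h2 => hdd (T.sf_trans h1 (T.sf_symm h2))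
      have e : pvsoDel T r x = 1 := by
        unfold pvsoDel
        rw [h.one x (Or.inl h1), h.one _ (Or.inl (T.sf_trans h1 (T.sf_nxt x))), h.one _ (Or.inl (T.sf_trans h1 (T.sf_nxt2 x)))]
        decide
      rw [e, pvso_fc_pos h1, pvso_fc_neg h2]; decide
    · by_cases h2 : T.SF d' x
      · have e : pvsoDel T r x = 1 := by
          unfold pvsoDel
          rw [h.one x (Or.inr h2), h.one _ (Or.inr (T.sf_trans h2 (T.sf_nxt x))), h.one _ (Or.inr (T.sf_trans h2 (T.sf_nxt2 x)))]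
          decide
        rw [e, pvso_fc_neg h1, pvso_fc_pos h2]; decide
      · rw [h.ev x h1 h2, pvso_fc_neg h1, pvso_fc_neg h2]; decide
  · show r d + g d = 0
    rw [h.one d (Or.inl (T.sf_refl d)), hg.at_d hd hne, z1]
  · show r (T.nxt d) + g (T.nxt d) = 1
    rw [h.one _ (Or.inl (T.sf_nxt d)), hg.off ((hK d).2 hd) (T.nxt_ne_self d) (fun e => hdd (e ▸ T.sf_nxt d)), add_zero]
  · show r d' + g d' = 0
    rw [h.one d' (Or.inr (T.sf_refl d')), hg.at_d' hd' hne, z1]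
  · show r (T.nxt d') + g (T.nxt d') = 1
    rw [h.one _ (Or.inr (T.sf_nxt d')), hg.off ((hK d').2 hd') (fun e => hdd (T.sf_symm (e ▸ T.sf_nxt d'))) (T.nxt_ne_self d'), add_zero]
  · have : d' ∈ {x | pvsoW T (fun x => r x + g x) d x} := by rw [hKe]; exact hd'
    exact this
  · rw [hKe]
    exact pvsg_comp_of_tog T hK hd hne hg hgf

end pvsgB
/-! ## C. reversal of the cyclic order, finite supports -/

section pvsgC

variable {V D : Type} {T : PvMap V D}

theorem pvsg_sf_nxt_iff (d x : D) : T.SF (T.nxt d) x ↔ T.SF d x :=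
  ⟨fun h => T.sf_trans (T.sf_nxt d) h, fun h => T.sf_trans (T.sf_symm (T.sf_nxt d)) h⟩

theorem pvsg_sf_nxt2_iff (d x : D) : T.SF (T.nxt (T.nxt d)) x ↔ T.SF d x :=
  ⟨fun h => T.sf_trans (T.sf_nxt2 d) h, fun h => T.sf_trans (T.sf_symm (T.sf_nxt2 d)) h⟩

/-- **three disjoint strands between two faces reverse the cyclic order** (`h1` only) -/
theorem pvsg_theta (hT : T.IsSph) {d d' : D} (hdd : ¬ T.SF d d') {X0 X1 X2 : D → ZMod 2}
    (s0 : T.Sym X0) (s1 : T.Sym X1) (s2 : T.Sym X2)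
    (f0 : {x | X0 x ≠ 0}.Finite) (f1 : {x | X1 x ≠ 0}.Finite) (f2 : {x | X2 x ≠ 0}.Finite)
    (d01 : ∀ x, X0 x = 1 → X1 x = 0) (d02 : ∀ x, X0 x = 1 → X2 x = 0) (d12 : ∀ x, X1 x = 1 → X2 x = 0)
    (e0 : ∀ x, pvsoDel T X0 x = pvsoFc T d x + pvsoFc T d' x) (e1 : ∀ x, pvsoDel T X1 x = pvsoFc T d x + pvsoFc T d' x)
    (e2 : ∀ x, pvsoDel T X2 x = pvsoFc T d x + pvsoFc T d' x)
    (a0 : X0 d = 1) (a1 : X1 (T.nxt d) = 1) (b0 : X0 d' = 1) :
    X1 (T.nxt (T.nxt d')) = 1 ∧ X2 (T.nxt d') = 1 := by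
  have zz : ∀ a : ZMod 2, a + a = 0 := by decide
  have hd'd : ¬ T.SF d' d := fun h => hdd (T.sf_symm h)
  -- potentials
  obtain ⟨p1, hp1⟩ := hT.h1 (fun x => X0 x + X1 x) (pvso_sym_add T s0 s1) (fun x => by
    have := pvso_del_add T X0 X1 x
    unfold pvsoDel at this
    rw [this]
    have h0 := e0 x; have h1 := e1 x
    unfold pvsoDel at h0 h1
    rw [h0, h1, zz])
  obtain ⟨p2, hp2⟩ := hT.h1 (fun x => X1 x + X2 x) (pvso_sym_add T s1 s2) (fun x => by
    have := pvso_del_add T X1 X2 x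
    unfold pvsoDel at this
    rw [this]
    have h0 := e1 x; have h1 := e2 x
    unfold pvsoDel at h0 h1
    rw [h0, h1, zz])
  obtain ⟨lam, hlam⟩ : ∃ lam : V → ZMod 2 × ZMod 2, lam = fun v => (p1 v, p2 v) := ⟨_, rfl⟩
  have zinc : ∀ c a b : ZMod 2, c = a + b → b = a + c := by decide
  have hinc : ∀ x, lam (T.tgt x) = lam (T.src x) + (X0 x + X1 x, X1 x + X2 x) := by
    intro x
    rw [hlam]
    exact Prod.ext (zinc _ _ _ (hp1 x)) (zinc _ _ _ (hp2 x))
  have hinc0 : ∀ x, X0 x = 0 → X1 x = 0 → X2 x = 0 → lam (T.src x) = lam (T.tgt x) := by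
    intro x h0 h1 h2
    rw [hinc x, h0, h1, h2]
    simp
  have hdeg : ∀ x, ¬ T.SF d x → ¬ T.SF d' x →
      lam (T.src x) = lam (T.tgt x) ∨ lam (T.tgt x) = lam (T.apex x) ∨ lam (T.apex x) = lam (T.src x) := by
    intro x h1 h2
    have f0 := e0 x; have f1 := e1 x; have f2 := e2 x
    rw [pvso_fc_neg h1, pvso_fc_neg h2, add_zero] at f0 f1 f2
    unfold pvsoDel at f0 f1 f2
    rcases pvso_dec_face _ _ _ _ _ _ _ _ _ (d01 x) (d01 _) (d01 _) (d02 x) (d02 _) (d02 _) (d12 x) (d12 _) (d12 _) f0 f1 f2 with h | h | h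
    · exact Or.inl (hinc0 x h.1 h.2.1 h.2.2)
    · have := hinc0 (T.nxt x) h.1 h.2.1 h.2.2
      rw [T.src_nxt, T.tgt_nxt] at this
      exact Or.inr (Or.inl this)
    · have := hinc0 (T.nxt (T.nxt x)) h.1 h.2.1 h.2.2
      rw [T.src_nxt2, T.tgt_nxt2] at this
      exact Or.inr (Or.inr this)
  have hlf : {x | lam (T.src x) ≠ lam (T.tgt x)}.Finite := by
    refine ((f0.union f1).union f2).subset fun x hx => ?_
    by_contra hn
    have h0 : X0 x = 0 := by
      by_contra h0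
      exact hn (Or.inl (Or.inl h0))
    have h1 : X1 x = 0 := by
      by_contra h1
      exact hn (Or.inl (Or.inr h1))
    have h2 : X2 x = 0 := by
      by_contra h2
      exact hn (Or.inr h2)
    exact hx (hinc0 x h0 h1 h2)
  have hsp := pvsg_sperner T lam hlf hdd hdeg
  -- the face of `d`
  have t1 : lam (T.tgt d) = lam (T.src d) + (1, 0) := by
    rw [hinc d, a0, d01 d a0, d02 d a0]; rfl
  have a1' : X0 (T.nxt d) = 0 := by
    by_contra hn
    have := d01 _ (pvso_z2_ne_zero hn)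
    rw [a1] at this
    exact one_ne_zero this
  have t2 : lam (T.apex d) = lam (T.src d) + (1, 0) + (1, 1) := by
    have := hinc (T.nxt d)
    rw [T.src_nxt, T.tgt_nxt, a1, a1', d12 _ a1, t1] at this
    rw [this]; rfl
  -- the face of `d'`
  have g0 := e0 d'; have g1 := e1 d'; have g2 := e2 d'
  rw [pvso_fc_neg hdd, pvso_fc_self, zero_add] at g0 g1 g2
  unfold pvsoDel at g0 g1 g2
  rcases pvso_dec_u _ _ _ _ _ _ _ _ _ (d01 d') (d01 _) (d01 _) (d02 d') (d02 _) (d02 _) (d12 d') (d12 _) (d12 _) g0 g1 g2 b0 with h | h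
  · exfalso
    obtain ⟨h1, h2, h3, h4, h5⟩ := h
    have u1 : lam (T.tgt d') = lam (T.src d') + (1, 0) := by
      rw [hinc d', b0, h2, h3]; rfl
    have u2 : lam (T.apex d') = lam (T.src d') + (1, 0) + (1, 1) := by
      have := hinc (T.nxt d')
      rw [T.src_nxt, T.tgt_nxt, h1, h4, h5, u1] at this
      rw [this]; rfl
    rw [t1, t2, u1, u2] at hsp
    exact pvso_dec_orient _ _ hsp
  · exact h
/-- **THETA**: the image of the pair `(d, d')` lies in the image of the pair `(nxt d, nxt⁻¹ d')` -/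
theorem pvsg_theta_im (hT : T.IsSph) {d d' : D} (hdd : ¬ T.SF d d') {r : D → ZMod 2} (hh : PvsgIm T d d' r) :
    PvsgIm T (T.nxt d) (T.nxt (T.nxt d')) r := by
  have h := hh.im
  obtain ⟨g, hg0, hgf⟩ := hh.tog
  obtain ⟨hL, hKe⟩ := pvsg_bwd hdd h hg0 hgf
  obtain ⟨S, hS⟩ : ∃ S : D → ZMod 2, S = fun x => r x + g x := ⟨_, rfl⟩
  rw [← hS] at hL hKe
  have hg : PvsoTog T {x | pvsoW T S d x} d d' g := by rw [hKe]; exact hg0
  have hK := pvso_W_face T S d
  have hd : d ∈ {x | pvsoW T S d x} := pvso_W_refl T S d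
  have hd' : d' ∈ {x | pvsoW T S d x} := hL.mem
  have hne : d ≠ d' := fun e => hdd (e ▸ T.sf_refl d)
  have hd'd : ¬ T.SF d' d := fun hh => hdd (T.sf_symm hh)
  obtain ⟨A1, A2, s1, s2, sup1, sup2, dis, del1, del2, a2, a1⟩ := pvso_arcs hdd hL
  -- `g` is disjoint from the arcs
  have gdis : ∀ (A : D → ZMod 2), (∀ x, A x = 1 → S x = 1 ∧ pvsoW T S d x) → ∀ x, g x = 1 → A x = 0 := by
    intro A sup x hx
    by_contra hn
    obtain ⟨h1, h2⟩ := sup x (pvso_z2_ne_zero hn)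
    by_cases e1 : x = d
    · rw [e1, hL.t0] at h1; exact zero_ne_one h1
    · by_cases e2 : x = d'
      · rw [e2, hL.u0] at h1; exact zero_ne_one h1
      · rw [hg.off h2 e1 e2] at hx; exact zero_ne_one hx
  have hKfin : {x | pvsoW T S d x}.Finite := by rw [hKe]; exact pvsg_K_fin hh.fin d'
  have fA1 : {x | A1 x ≠ 0}.Finite := pvsg_fin_of_one hKfin fun x hx => (sup1 x hx).2
  have fA2 : {x | A2 x ≠ 0}.Finite := pvsg_fin_of_one hKfin fun x hx => (sup2 x hx).2
  obtain ⟨b2, b1⟩ := pvsg_theta hT hdd hg.1 s2 s1 hgf fA2 fA1 (gdis A2 sup2) (gdis A1 sup1) dis (hg.del hK hd hd') del2 del1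
    (hg.at_d hd hne) a2 (hg.at_d' hd' hne)
  have dis' : ∀ x, A1 x = 1 → A2 x = 0 := by
    intro x hx
    by_contra hn
    have := dis x (pvso_z2_ne_zero hn)
    rw [hx] at this
    exact one_ne_zero this
  have zS : ∀ (A : D → ZMod 2), (∀ x, A x = 1 → S x = 1 ∧ pvsoW T S d x) → ∀ x, S x = 0 → A x = 0 := by
    intro A sup x hx
    by_contra hn
    have := (sup x (pvso_z2_ne_zero hn)).1
    rw [hx] at this
    exact zero_ne_one this
  -- values of `A2` on the two faces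
  have v0 : A2 d = 0 := zS A2 sup2 d hL.t0
  have v2 : A2 (T.nxt (T.nxt d)) = 0 := dis' _ a1
  have w0 : A2 d' = 0 := zS A2 sup2 d' hL.u0
  have w1 : A2 (T.nxt d') = 0 := dis' _ b1
  have rS : ∀ x, pvsoW T S d x → x ≠ d → x ≠ d' → r x = S x := by
    intro x hx h1 h2
    rw [hS]; show r x = r x + g x
    rw [hg.off hx h1 h2, add_zero]
  obtain ⟨e, he⟩ : ∃ e, e = T.nxt d := ⟨_, rfl⟩
  obtain ⟨e', he'⟩ : ∃ e', e' = T.nxt (T.nxt d') := ⟨_, rfl⟩
  rw [← he, ← he']
  have cut1 : ∀ x, pvsoCut T r e e' x = 1 → x ≠ e ∧ x ≠ e' ∧ r x = 1 := by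
    intro x hx
    unfold pvsoCut at hx
    by_cases hc : x = e ∨ x = T.opp e ∨ x = e' ∨ x = T.opp e'
    · rw [if_pos hc] at hx; exact absurd hx (by simp)
    · rw [if_neg hc] at hx
      exact ⟨fun h1 => hc (Or.inl h1), fun h1 => hc (Or.inr (Or.inr (Or.inl h1))), hx⟩
  have hK' : T.FaceSet (pvsoK T r e e') := pvso_W_face T _ e
  have heK' : e ∈ pvsoK T r e e' := pvso_W_refl T _ e
  have hdK' : d ∈ pvsoK T r e e' := (hK' d).1 (he ▸ heK')
  -- the class stays off the interior of the arc `A2`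
  obtain ⟨Z, hZ⟩ : ∃ Z : Set D, Z = {x | T.SF d x ∨ T.SF d' x ∨ (A2 x = 0 ∧ A2 (T.nxt x) = 0 ∧ A2 (T.nxt (T.nxt x)) = 0)} := ⟨_, rfl⟩
  have hZf : T.FaceSet Z := by
    intro x
    rw [hZ]
    show (T.SF d (T.nxt x) ∨ T.SF d' (T.nxt x) ∨ (A2 (T.nxt x) = 0 ∧ A2 (T.nxt (T.nxt x)) = 0 ∧ A2 (T.nxt (T.nxt (T.nxt x))) = 0))
      ↔ (T.SF d x ∨ T.SF d' x ∨ (A2 x = 0 ∧ A2 (T.nxt x) = 0 ∧ A2 (T.nxt (T.nxt x)) = 0))
    have e1 : ∀ a, T.SF a (T.nxt x) ↔ T.SF a x := fun a =>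
      ⟨fun hh => T.sf_trans hh (T.sf_symm (T.sf_nxt x)), fun hh => T.sf_trans hh (T.sf_nxt x)⟩
    rw [e1, e1, T.nxt3]
    tauto
  have hZc : ∀ a ∈ Z, pvsoCut T r e e' a = 1 → T.opp a ∈ Z := by
    intro a ha hc
    obtain ⟨c1, c2, c3⟩ := cut1 a hc
    by_contra hn
    rw [hZ] at hn
    have hn' : ¬ (T.SF d (T.opp a) ∨ T.SF d' (T.opp a) ∨ (A2 (T.opp a) = 0 ∧ A2 (T.nxt (T.opp a)) = 0 ∧ A2 (T.nxt (T.nxt (T.opp a))) = 0)) := hn
    have n1 : ¬ T.SF d (T.opp a) := fun hh => hn' (Or.inl hh)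
    have n2 : ¬ T.SF d' (T.opp a) := fun hh => hn' (Or.inr (Or.inl hh))
    have n3' : ¬ (A2 (T.opp a) = 0 ∧ A2 (T.nxt (T.opp a)) = 0 ∧ A2 (T.nxt (T.nxt (T.opp a))) = 0) := fun hh => hn' (Or.inr (Or.inr hh))
    -- the face of `opp a` lies in the wall
    have hyK : pvsoW T S d (T.opp a) := by
      by_contra hout
      apply n3'
      refine ⟨?_, ?_, ?_⟩
      · by_contra h1
        exact hout (sup2 _ (pvso_z2_ne_zero h1)).2
      · by_contra h1
        exact hout ((hK _).1 (sup2 _ (pvso_z2_ne_zero h1)).2)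
      · by_contra h1
        exact hout ((hK.nxt2 T _).1 (sup2 _ (pvso_z2_ne_zero h1)).2)
    have hy1 : T.opp a ≠ d := fun hh => n1 (hh ▸ T.sf_refl d)
    have hy2 : T.opp a ≠ d' := fun hh => n2 (hh ▸ T.sf_refl d')
    have hSy : S (T.opp a) = 1 := by rw [← rS _ hyK hy1 hy2, h.sym a]; exact c3
    have f2 := del2 (T.opp a)
    rw [pvso_fc_neg n1, pvso_fc_neg n2, add_zero] at f2
    have fS := hL.coc (T.opp a)
    unfold pvsoDel at f2 fS
    have hA : A2 (T.opp a) = 1 := pvso_dec_loc _ _ _ _ _ _ (fun hh => (sup2 _ hh).1) (fun hh => (sup2 _ hh).1) (fun hh => (sup2 _ hh).1) f2 fS n3' hSy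
    rw [s2 a] at hA
    rw [hZ] at ha
    rcases ha with ha | ha | ha
    · rcases ha with rfl | rfl | rfl
      · rw [v0] at hA; exact zero_ne_one hA
      · exact c1 he.symm
      · rw [v2] at hA; exact zero_ne_one hA
    · rcases ha with rfl | rfl | rfl
      · rw [w0] at hA; exact zero_ne_one hA
      · rw [w1] at hA; exact zero_ne_one hA
      · exact c2 he'.symm
    · rw [ha.1] at hA; exact zero_ne_one hA
  have hKZ : ∀ x, x ∈ pvsoK T r e e' → x ∈ Z := fun x hx =>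
    pvso_W_sub T (by rw [hZ, he]; exact Or.inl (T.sf_nxt d)) hZf hZc hx
  -- the other arc reaches the face of `d'`
  have hA1c : ∀ x, A1 x = 1 → pvsoCut T r e e' x = 1 := by
    intro x hx
    obtain ⟨h1, h2⟩ := sup1 x hx
    have n1 : x ≠ e := fun hh => by rw [hh, he, dis _ a2] at hx; exact zero_ne_one hx
    have n2 : x ≠ T.opp e := fun hh => by rw [hh, s1 e, he, dis _ a2] at hx; exact zero_ne_one hx
    have n3 : x ≠ e' := fun hh => by rw [hh, he', dis _ b2] at hx; exact zero_ne_one hx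
    have n4 : x ≠ T.opp e' := fun hh => by rw [hh, s1 e', he', dis _ b2] at hx; exact zero_ne_one hx
    unfold pvsoCut
    rw [if_neg (by tauto), rS x h2 (fun hh => by rw [hh, hL.t0] at h1; exact zero_ne_one h1) (fun hh => by rw [hh, hL.u0] at h1; exact zero_ne_one h1)]
    exact h1
  have hd'K1 : pvsoW T A1 e d' := by
    by_contra hn
    have hK1 := pvso_W_face T A1 e
    have hdK1 : d ∈ {x | pvsoW T A1 e x} := by
      have : T.nxt d ∈ {x | pvsoW T A1 e x} := by rw [← he]; exact pvso_W_refl T A1 e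
      exact (hK1 d).1 this
    have hs : T.Sym (pvsoR A1 {x | pvsoW T A1 e x}) := pvso_R_sym T s1 (fun a ha h1 => pvso_W_opp T ha h1)
    have hk : ∀ x, pvsoDel T (pvsoR A1 {x | pvsoW T A1 e x}) x = pvsoDel T (pvsoI d) x := by
      intro x
      rw [pvso_R_del T A1 hK1, pvso_del_I]
      by_cases hx : x ∈ {x | pvsoW T A1 e x}
      · rw [if_pos hx, del1, pvso_fc_neg (fun hh => hn ((hK1.sf T hh).1 hx)), add_zero]
      · rw [if_neg hx, pvso_fc_out T hK1 hdK1 hx]
    exact pvsg_parity T (pvsg_fin_R fA1 _) hs d hk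
  have hd'K' : d' ∈ pvsoK T r e e' := pvso_W_mono T hA1c hd'K1
  have hfin' : {x | pvsoW T r e x}.Finite := by
    refine hh.fin.subset fun x hx => ?_
    have hx' : pvsoW T r e x := hx
    exact ReflTransGen.head (Or.inl (by rw [he]; exact T.sf_nxt d)) hx'
  suffices hmain : PvsoIm T e e' r ∧ PvsoTog T (pvsoK T r e e') e e' A2 from ⟨hmain.1, hfin', ⟨A2, hmain.2, fA2⟩⟩
  suffices hmain : (∀ x, T.SF e x ∨ T.SF e' x → r x = 1) ∧ (∀ x, ¬ T.SF e x → ¬ T.SF e' x → pvsoDel T r x = 0) ∧ e' ∈ pvsoK T r e e' ∧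
      (∀ x ∈ pvsoK T r e e', A2 x = pvsoI e x + pvsoI e' x) ∧ (∀ x, x ∉ pvsoK T r e e' → pvsoDel T A2 x = 0) from
    ⟨⟨h.sym, hmain.1, hmain.2.1, hmain.2.2.1, ⟨A2, s2, hmain.2.2.2.1, hmain.2.2.2.2⟩⟩, ⟨s2, hmain.2.2.2.1, hmain.2.2.2.2⟩⟩
  refine ⟨?_, ?_, ?_, ?_, ?_⟩
  · intro x hx
    rw [he, he', pvsg_sf_nxt_iff, pvsg_sf_nxt2_iff] at hx
    exact h.one x hx
  · intro x h1 h2
    rw [he, pvsg_sf_nxt_iff] at h1
    rw [he', pvsg_sf_nxt2_iff] at h2
    exact h.ev x h1 h2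
  · have := (hK'.nxt2 T d').2 hd'K'
    rw [← he'] at this
    exact this
  · intro x hx
    have hxZ := hKZ x hx
    rw [hZ] at hxZ
    have ne1 : ∀ y, T.SF d y → y ≠ e' := fun y hy hh => hdd (by
      rw [hh, he'] at hy
      exact T.sf_trans hy (T.sf_symm (T.sf_nxt2 d')))
    have ne2 : ∀ y, T.SF d' y → y ≠ e := fun y hy hh => hd'd (by
      rw [hh, he] at hy
      exact T.sf_trans hy (T.sf_symm (T.sf_nxt d)))
    rcases hxZ with hx1 | hx1 | hx1
    · have n := ne1 x hx1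
      rcases hx1 with rfl | rfl | rfl
      · rw [v0, pvso_I_ne n, pvso_I_ne (by rw [he]; exact (T.nxt_ne_self x).symm), add_zero]
      · rw [a2, pvso_I_ne n, he, pvso_I_self, add_zero]
      · rw [v2, pvso_I_ne n, pvso_I_ne (by rw [he]; exact T.nxt_ne_self _), add_zero]
    · have n := ne2 x hx1
      rcases hx1 with rfl | rfl | rfl
      · rw [w0, pvso_I_ne n, pvso_I_ne (by rw [he']; exact (T.nxt2_ne_self x).symm), add_zero]
      · rw [w1, pvso_I_ne n, pvso_I_ne (by rw [he']; exact (T.nxt_ne_self _).symm), add_zero]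
      · rw [b2, pvso_I_ne n, he', pvso_I_self, zero_add]
    · have n1 : x ≠ e := fun hh => by
        have := hx1.1
        rw [hh, he, a2] at this
        exact one_ne_zero this
      have n2 : x ≠ e' := fun hh => by
        have := hx1.1
        rw [hh, he', b2] at this
        exact one_ne_zero this
      rw [hx1.1, pvso_I_ne n1, pvso_I_ne n2, add_zero]
  · intro x hx
    rw [del2, pvso_fc_out T hK' hdK' hx, pvso_fc_out T hK' hd'K' hx, add_zero]

theorem pvsg_im_iff (hT : T.IsSph) {d d' : D} (hdd : ¬ T.SF d d') (r : D → ZMod 2) :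
    PvsgIm T d d' r ↔ PvsgIm T (T.nxt d) (T.nxt (T.nxt d')) r := by
  have ns : ∀ {a a' : D}, ¬ T.SF a a' → ¬ T.SF (T.nxt a) (T.nxt (T.nxt a')) := fun {a a'} haa h =>
    haa (T.sf_trans (T.sf_trans (T.sf_nxt a) h) (T.sf_symm (T.sf_nxt2 a')))
  refine ⟨pvsg_theta_im hT hdd, fun h => ?_⟩
  have h1 := ns hdd
  have h2 := pvsg_theta_im hT h1 h
  have h3 := pvsg_theta_im hT (ns h1) h2
  rw [T.nxt3, T.nxt3 (T.nxt d'), T.nxt3] at h3
  exact h3

end pvsgC
/-! ## D. colourings; the map `Psi` -/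

section pvsgD

variable {V D : Type} (T : PvMap V D)

/-- a chosen toggle of finite support -/
noncomputable def pvsgG (K : Set D) (d d' : D) : D → ZMod 2 :=
  if h : ∃ g, PvsoTog T K d d' g ∧ {x | g x ≠ 0}.Finite then h.choose else 0

/-- colouring `↦` cochain which is odd at the two faces -/
noncomputable def pvsgRr (d d' : D) (s : V → Bool) (x : D) : ZMod 2 := pvsoCo T s x + pvsgG T {y | pvsoW T (pvsoCo T s) d y} d d' x

/-- the potential attached to the two walls -/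
noncomputable def pvsgU (d d' e e' : D) (K K' : Set D) : V → ZMod 2 := pvsoPot T fun x => pvsgG T K d d' x + pvsgG T K' e e' x

/-- the map -/
noncomputable def pvsgPsi (d d' e e' : D) (s : V → Bool) : V → Bool :=
  pvsoSh s (pvsgU T d d' e e' {y | pvsoW T (pvsoCo T s) d y} (pvsoK T (pvsgRr T d d' s) e e'))

theorem pvsgD_eqns_cite : True := by
  have := @pvsgG.eq_1; have := @pvsgRr.eq_1; have := @pvsgU.eq_1; have := @pvsgPsi.eq_1
  trivial

variable {T}

theorem pvsg_G_spec {K : Set D} {d d' : D} (h : ∃ g, PvsoTog T K d d' g ∧ {x | g x ≠ 0}.Finite) :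
    PvsoTog T K d d' (pvsgG T K d d') ∧ {x | pvsgG T K d d' x ≠ 0}.Finite := by
  unfold pvsgG
  rw [dif_pos h]
  exact h.choose_spec

theorem pvsg_wall_set (s : V → Bool) (d : D) : {x | T.Wall s d x} = {x | pvsoW T (pvsoCo T s) d x} :=
  Set.ext fun x => pvso_wall_iff s d x

theorem pvsg_psi (hT : T.IsSph) {d d' e e' : D} (hdd : ¬ T.SF d d') (hee : ¬ T.SF e e')
    (H : ∀ r, PvsgIm T d d' r → PvsgIm T e e' r) {s : V → Bool} (hs : T.SameLab s d d') (hw : ∀ a, {x | T.Wall s a x}.Finite) :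
    T.SameLab (pvsgPsi T d d' e e' s) e e' ∧ pvsgPsi T e e' d d' (pvsgPsi T d d' e e' s) = s ∧
      {y | T.Wall (pvsgPsi T d d' e e' s) e y} = pvsoK T (pvsgRr T d d' s) e e' ∧ (pvsoK T (pvsgRr T d d' s) e e').Finite := by
  have zz : ∀ a : ZMod 2, a + a = 0 := by decide
  have hL := (pvso_lab_iff s d d').1 hs
  have hK := pvso_W_face T (pvsoCo T s) d
  obtain ⟨g, hgd⟩ : ∃ g, g = pvsgG T {y | pvsoW T (pvsoCo T s) d y} d d' := ⟨_, rfl⟩
  obtain ⟨hg, hgf⟩ : PvsoTog T {y | pvsoW T (pvsoCo T s) d y} d d' g ∧ {x | g x ≠ 0}.Finite := by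
    rw [hgd]
    exact pvsg_G_spec (pvsg_tog_of_comp T hK (pvso_W_refl T _ d) hL.mem hL.comp)
  obtain ⟨hIm, hKe⟩ := pvsg_fwd hdd hL hg hgf (fun a => by rw [← pvsg_wall_set]; exact hw a)
  obtain ⟨r, hr⟩ : ∃ r, r = pvsgRr T d d' s := ⟨_, rfl⟩
  have hr' : (fun x => pvsoCo T s x + g x) = r := by rw [hr, hgd]; rfl
  rw [hr'] at hIm hKe
  have hIm' := H r hIm
  obtain ⟨g2, hg2d⟩ : ∃ g2, g2 = pvsgG T (pvsoK T r e e') e e' := ⟨_, rfl⟩
  obtain ⟨hg2, hg2f⟩ : PvsoTog T (pvsoK T r e e') e e' g2 ∧ {x | g2 x ≠ 0}.Finite := by rw [hg2d]; exact pvsg_G_spec hIm'.tog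
  obtain ⟨hL2, hKe2⟩ := pvsg_bwd hee hIm'.im hg2 hg2f
  have hrx : ∀ x, r x = pvsoCo T s x + g x := fun x => by rw [← hr']
  -- the potential
  have hm : ∃ u : V → ZMod 2, ∀ x, (fun x => g x + g2 x) x = u (T.src x) + u (T.tgt x) := by
    refine hT.h1 _ (pvso_sym_add T hg.1 hg2.1) (fun x => ?_)
    have e1 : pvsoDel T (fun x => g x + g2 x) x = pvsoDel T (pvsoCo T s) x + pvsoDel T (fun x => r x + g2 x) x := by
      rw [← pvso_del_add]
      refine pvso_del_congr T fun y _ => ?_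
      show g y + g2 y = pvsoCo T s y + (r y + g2 y)
      rw [hrx y, ← add_assoc, ← add_assoc, zz, zero_add]
    rw [pvso_co_coc, hL2.coc, add_zero] at e1
    exact e1
  obtain ⟨s', hs'⟩ : ∃ s', s' = pvsgPsi T d d' e e' s := ⟨_, rfl⟩
  have hs'2 : s' = pvsoSh s (pvsoPot T fun x => g x + g2 x) := by
    rw [hs', hgd, hg2d, hr]; rfl
  have hco : pvsoCo T s' = fun x => r x + g2 x := by
    funext x
    rw [hs'2, pvso_co_sh, ← pvso_pot_spec hm x, hrx x, add_assoc]
  rw [← hs']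
  have f2 : {y | pvsoW T (pvsoCo T s') e y} = pvsoK T r e e' := by rw [hco]; exact hKe2
  refine ⟨?_, ?_, by rw [pvsg_wall_set, ← hr]; exact f2, by rw [← hr]; exact pvsg_K_fin hIm'.fin e'⟩
  · rw [pvso_lab_iff, hco]; exact hL2
  · have f2' : {y | pvsoW T (pvsoCo T s') e y} = pvsoK T r e e' := by rw [hco]; exact hKe2
    have f1 : pvsgRr T e e' s' = r := by
      funext x
      unfold pvsgRr
      rw [f2, ← hg2d, hco]
      show r x + g2 x + g2 x = r x
      rw [add_assoc, zz, add_zero]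
    unfold pvsgPsi pvsgU
    rw [f2, f1, hKe, ← hg2d, ← hgd]
    have e3 : (fun x => g2 x + g x) = fun x => g x + g2 x := by funext x; exact add_comm _ _
    rw [e3, hs'2, pvso_sh_sh]
/-! ## E. EXIT: a piecewise flip (COVER + INJ) -/

/-- the darts of the faces met by a set of darts -/
def pvsgCl (T : PvMap V D) (A : Set D) : Set D := {x | ∃ a ∈ A, T.SF a x}

/-- the set of vertices which is flipped on the piece `i = (wall of s, wall of the image)` -/
noncomputable def pvsgA (T : PvMap V D) (d d' e e' : D) (i : Finset D × Finset D) : Set V :=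
  {v | pvsgU T d d' e e' (pvsgCl T ↑i.1) (pvsgCl T ↑i.2) v = 1}

theorem pvsgE_eqns_cite : True := by
  have := @pvsgCl.eq_1; have := @pvsgA.eq_1
  trivial

theorem pvsg_wall_cl {s : V → Bool} {d : D} (hd : T.Tag s d) : {x | T.Wall s d x} = pvsgCl T {a | T.Wall s d a ∧ T.Occ s a} := by
  have hocc : T.Occ s (T.nxt d) := by
    have := ((pvso_tag_iff s d).1 hd).2
    exact (pvso_co_one s _).1 this
  refine Set.ext fun x => ⟨fun hx => ?_, ?_⟩
  · have hx' : ReflTransGen (fun a b => T.SF a b ∨ (T.Occ s a ∧ b = T.opp a)) d x := hx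
    clear hx
    show ∃ a ∈ {a | T.Wall s d a ∧ T.Occ s a}, T.SF a x
    induction hx' with
    | refl => exact ⟨T.nxt d, ⟨ReflTransGen.single (Or.inl (T.sf_nxt d)), hocc⟩, T.sf_symm (T.sf_nxt d)⟩
    | @tail b c hab hbc ih =>
      rcases hbc with h1 | ⟨h1, rfl⟩
      · obtain ⟨a, ha, hab'⟩ := ih
        exact ⟨a, ha, T.sf_trans hab' h1⟩
      · refine ⟨T.opp b, ⟨ReflTransGen.tail hab (Or.inr ⟨h1, rfl⟩), ?_⟩, T.sf_refl _⟩
        rw [← pvso_co_one, pvso_co_sym s b, pvso_co_one]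
        exact h1
  · rintro ⟨a, ⟨ha, _⟩, hax⟩
    exact ReflTransGen.tail ha (Or.inl hax)

theorem pvsg_sh_flip (s : V → Bool) (u : V → ZMod 2) : pvsoSh s u = pvfFlip {v | u v = 1} s := by
  funext v
  unfold pvsoSh pvfFlip pvsoB
  by_cases h : u v = 1
  · rw [if_pos (show v ∈ {v | u v = 1} from h), h]; simp
  · rw [if_neg (show v ∉ {v | u v = 1} from h)]; simp [h]

theorem pvsg_core (hT : T.IsSph) {d d' : D} (hdd : ¬ T.SF d d') :
    ∃ A : Finset D × Finset D → Set V,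
      (∀ s, T.SameLab s d d' → (∀ e, {a | T.Wall s e a}.Finite) →
        ∃ i : Finset D × Finset D, {a | T.Wall s d a ∧ T.Occ s a} = ↑i.1 ∧ T.SameLab (pvfFlip (A i) s) (T.nxt d) (T.nxt (T.nxt d')) ∧
          {a | T.Wall (pvfFlip (A i) s) (T.nxt d) a ∧ T.Occ (pvfFlip (A i) s) a} = ↑i.2) ∧
      (∀ (s₁ s₂ : V → Bool) (i₁ i₂ : Finset D × Finset D), T.SameLab s₁ d d' → {a | T.Wall s₁ d a ∧ T.Occ s₁ a} = ↑i₁.1 →
        {a | T.Wall (pvfFlip (A i₁) s₁) (T.nxt d) a ∧ T.Occ (pvfFlip (A i₁) s₁) a} = ↑i₁.2 →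
        T.SameLab s₂ d d' → {a | T.Wall s₂ d a ∧ T.Occ s₂ a} = ↑i₂.1 →
        {a | T.Wall (pvfFlip (A i₂) s₂) (T.nxt d) a ∧ T.Occ (pvfFlip (A i₂) s₂) a} = ↑i₂.2 →
        pvfFlip (A i₁) s₁ = pvfFlip (A i₂) s₂ → i₁ = i₂) := by
  have zz : ∀ a : ZMod 2, a + a = 0 := by decide
  have hee : ¬ T.SF (T.nxt d) (T.nxt (T.nxt d')) := fun h =>
    hdd (T.sf_trans (T.sf_trans (T.sf_nxt d) h) (T.sf_symm (T.sf_nxt2 d')))
  obtain ⟨e, he⟩ : ∃ e, e = T.nxt d := ⟨_, rfl⟩
  obtain ⟨e', he'⟩ : ∃ e', e' = T.nxt (T.nxt d') := ⟨_, rfl⟩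
  rw [← he, ← he'] at hee ⊢
  refine ⟨pvsgA T d d' e e', ?_, ?_⟩
  · intro s hs hw
    obtain ⟨p1, _, p3, p4⟩ := pvsg_psi hT hdd hee (fun r => by rw [he, he']; exact (pvsg_im_iff hT hdd r).1) hs hw
    obtain ⟨s', hs'⟩ : ∃ s', s' = pvsgPsi T d d' e e' s := ⟨_, rfl⟩
    rw [← hs'] at p1 p3
    have fin1 : {a | T.Wall s d a ∧ T.Occ s a}.Finite := (hw d).subset fun a h => h.1
    have fin2 : {a | T.Wall s' e a ∧ T.Occ s' a}.Finite := by
      rw [← p3] at p4
      exact p4.subset fun a h => h.1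
    have c1 : pvsgCl T ↑(fin1.toFinset) = {y | pvsoW T (pvsoCo T s) d y} := by
      rw [Set.Finite.coe_toFinset, ← pvsg_wall_cl hs.1, pvsg_wall_set]
    have c2 : pvsgCl T ↑(fin2.toFinset) = pvsoK T (pvsgRr T d d' s) e e' := by
      rw [Set.Finite.coe_toFinset, ← pvsg_wall_cl p1.1, p3]
    have hfl : pvfFlip (pvsgA T d d' e e' (fin1.toFinset, fin2.toFinset)) s = s' := by
      have : s' = pvfFlip {v | pvsgU T d d' e e' {y | pvsoW T (pvsoCo T s) d y} (pvsoK T (pvsgRr T d d' s) e e') v = 1} s := by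
        rw [hs', ← pvsg_sh_flip]; rfl
      refine Eq.trans ?_ this.symm
      unfold pvsgA
      rw [c1, c2]
    refine ⟨(fin1.toFinset, fin2.toFinset), (Set.Finite.coe_toFinset fin1).symm, ?_, ?_⟩
    · rw [hfl]; exact p1
    · rw [hfl]; exact (Set.Finite.coe_toFinset fin2).symm
  · intro s₁ s₂ i₁ i₂ hs1 w1 w1' hs2 w2 w2' heq
    have e2 : i₁.2 = i₂.2 := by
      apply Finset.coe_injective
      rw [← w1', ← w2', heq]
    -- the two walls and their toggles
    have key : ∀ (s : V → Bool) (i : Finset D × Finset D), T.SameLab s d d' → {a | T.Wall s d a ∧ T.Occ s a} = ↑i.1 →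
        pvsgCl T ↑i.1 = {y | pvsoW T (pvsoCo T s) d y} ∧ PvsoTog T {y | pvsoW T (pvsoCo T s) d y} d d' (pvsgG T (pvsgCl T ↑i.1) d d') := by
      intro s i hs w
      have c : pvsgCl T ↑i.1 = {y | pvsoW T (pvsoCo T s) d y} := by rw [← w, ← pvsg_wall_cl hs.1, pvsg_wall_set]
      have hL := (pvso_lab_iff s d d').1 hs
      refine ⟨c, ?_⟩
      rw [c]
      exact (pvsg_G_spec (pvsg_tog_of_comp T (pvso_W_face T _ d) (pvso_W_refl T _ d) hL.mem hL.comp)).1
    obtain ⟨c1, t1⟩ := key s₁ i₁ hs1 w1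
    obtain ⟨c2, t2⟩ := key s₂ i₂ hs2 w2
    obtain ⟨g1, hg1⟩ : ∃ g1, g1 = pvsgG T (pvsgCl T ↑i₁.1) d d' := ⟨_, rfl⟩
    obtain ⟨g2, hg2⟩ : ∃ g2, g2 = pvsgG T (pvsgCl T ↑i₂.1) d d' := ⟨_, rfl⟩
    obtain ⟨G, hG⟩ : ∃ G, G = pvsgG T (pvsgCl T ↑i₁.2) e e' := ⟨_, rfl⟩
    rw [← hg1] at t1
    rw [← hg2] at t2
    have hL1 := (pvso_lab_iff s₁ d d').1 hs1
    have hL2 := (pvso_lab_iff s₂ d d').1 hs2
    have f1 : pvfFlip (pvsgA T d d' e e' i₁) s₁ = pvsoSh s₁ (pvsoPot T fun x => g1 x + G x) := by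
      rw [pvsg_sh_flip, hg1, hG]; rfl
    have f2 : pvfFlip (pvsgA T d d' e e' i₂) s₂ = pvsoSh s₂ (pvsoPot T fun x => g2 x + G x) := by
      rw [pvsg_sh_flip, hg2, hG, e2]; rfl
    -- `g1 + g2` is a coboundary
    obtain ⟨w, hw⟩ : ∃ w : V → ZMod 2, ∀ x, (fun x => g1 x + g2 x) x = w (T.src x) + w (T.tgt x) := by
      refine hT.h1 _ (pvso_sym_add T t1.1 t2.1) (fun x => ?_)
      have := pvso_del_add T g1 g2 x
      rw [t1.del (pvso_W_face T _ d) (pvso_W_refl T _ d) hL1.mem, t2.del (pvso_W_face T _ d) (pvso_W_refl T _ d) hL2.mem, zz] at this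
      exact this
    have fin : ∀ a, a ∈ (↑i₁.1 : Set D) ↔ a ∈ (↑i₂.1 : Set D) := by
      by_cases P1 : ∃ u : V → ZMod 2, ∀ x, (fun x => g1 x + G x) x = u (T.src x) + u (T.tgt x)
      · have P2 : ∃ u : V → ZMod 2, ∀ x, (fun x => g2 x + G x) x = u (T.src x) + u (T.tgt x) := by
          obtain ⟨u, hu⟩ := P1
          refine ⟨fun v => u v + w v, fun x => ?_⟩
          have h1 := hu x
          have h2 := hw x
          have z : ∀ a b c p q p' q' : ZMod 2, a + c = p + q → a + b = p' + q' → b + c = p + p' + (q + q') := by decide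
          exact z _ _ _ _ _ _ _ h1 h2
        have r12 : (fun x => pvsoCo T s₁ x + g1 x) = fun x => pvsoCo T s₂ x + g2 x := by
          funext x
          have h1 : pvsoCo T (pvsoSh s₁ (pvsoPot T fun x => g1 x + G x)) x = pvsoCo T s₁ x + (g1 x + G x) := by
            rw [pvso_co_sh, ← pvso_pot_spec P1 x]
          have h2 : pvsoCo T (pvsoSh s₂ (pvsoPot T fun x => g2 x + G x)) x = pvsoCo T s₂ x + (g2 x + G x) := by
            rw [pvso_co_sh, ← pvso_pot_spec P2 x]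
          rw [← f1, heq, f2, h2] at h1
          have z : ∀ a b c a' b' : ZMod 2, a' + (b' + c) = a + (b + c) → a + b = a' + b' := by decide
          exact z _ _ _ _ _ h1
        have k1 := (pvso_fwd hdd hL1 t1).2
        have k2 := (pvso_fwd hdd hL2 t2).2
        rw [r12, k2] at k1
        -- the walls agree, hence the occupied darts
        intro a
        rw [← w1, ← w2]
        have hK : ∀ x, T.Wall s₁ d x ↔ T.Wall s₂ d x := by
          intro x
          rw [pvso_wall_iff, pvso_wall_iff]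
          exact (Set.ext_iff.1 k1 x).symm
        have hO : T.Wall s₁ d a → (T.Occ s₁ a ↔ T.Occ s₂ a) := by
          intro ha
          have ha1 : a ∈ {y | pvsoW T (pvsoCo T s₁) d y} := (pvso_wall_iff s₁ d a).1 ha
          have ha2 : a ∈ {y | pvsoW T (pvsoCo T s₂) d y} := (pvso_wall_iff s₂ d a).1 ((hK a).1 ha)
          have h3 := congrFun r12 a
          have h3' : pvsoCo T s₁ a + g1 a = pvsoCo T s₂ a + g2 a := h3
          rw [t1.2.1 a ha1, t2.2.1 a ha2] at h3'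
          have h4 : pvsoCo T s₁ a = pvsoCo T s₂ a := add_right_cancel h3'
          rw [← pvso_co_one, ← pvso_co_one, h4]
        constructor
        · rintro ⟨h1, h2⟩
          exact ⟨(hK a).1 h1, (hO h1).1 h2⟩
        · rintro ⟨h1, h2⟩
          exact ⟨(hK a).2 h1, (hO ((hK a).2 h1)).2 h2⟩
      · have P2 : ¬ ∃ u : V → ZMod 2, ∀ x, (fun x => g2 x + G x) x = u (T.src x) + u (T.tgt x) := by
          rintro ⟨u, hu⟩
          refine P1 ⟨fun v => u v + w v, fun x => ?_⟩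
          have h1 := hu x
          have h2 := hw x
          have z : ∀ a b c p q p' q' : ZMod 2, b + c = p + q → a + b = p' + q' → a + c = p + p' + (q + q') := by decide
          exact z _ _ _ _ _ _ _ h1 h2
        have z1 : pvsoPot T (fun x => g1 x + G x) = 0 := by unfold pvsoPot; rw [dif_neg P1]
        have z2 : pvsoPot T (fun x => g2 x + G x) = 0 := by unfold pvsoPot; rw [dif_neg P2]
        have sh0 : ∀ s : V → Bool, pvsoSh s 0 = s := by
          intro s
          funext v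
          unfold pvsoSh pvsoB
          simp
        rw [f1, f2, z1, z2, sh0, sh0] at heq
        intro a
        rw [← w1, ← w2, heq]
    exact Prod.ext (Finset.coe_injective (Set.ext fin)) e2

end pvsgD

end Claimed.Agent.R289
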