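-- KEEP
import Claimed.Agent.R289.S1.OrthG
import Claimed.Agent.R289.S1.Bessel
import Claimed.Agent.R289.Defs.Bulk

/-!
# Row 289 (S0537, Cardy for Poisson-Voronoi), box S1, file S1/OrthInf = ORTHOGONALITY AND BESSEL IN INFINITE VOLUME      (helper268; prefix `pvf_`)

The measure wrap of the deterministic core `pvsg_core` (`S1/OrthG.lean`, helper53) on the `colLaw` kit (`S1/Meas.lean`):

* `pvf_orth_le`        one turn: `colLaw {SameLab s d d'} ≤ colLaw {SameLab s (nxt d) (nxt (nxt d'))}` (piecewise flip);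
* `pvf_orth_inf`       **TEX[fields:orthogonal] in infinite volume**: `T.FoInv`;
* `pvf_bessel_inf`, `pvf_bessel_inf_int`, `pvf_bessel_inf_U`, `pvf_bessel_inf_Q`, `pvf_bessel_inf_V`   the Bessel identities of `S1/Bessel.lean` (helper185) with all hypotheses discharged;
* label sums: `pvf_lsum_cls` (`lsum` = finite sum over the part of the label in `Z`), `pvf_lsum_sq_le` (ONE label is dominated by the energy), `pvf_lsum_markov`, `pvf_lsum_markov_inf`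
  (`colLaw {some label has |X_λ| > τ} ≤ (1/4) ∑ |x d|² / τ²`), `pvf_sel_l2` (second moment of a selected label).
-/

set_option autoImplicit false

namespace Claimed.Agent.R289

open MeasureTheory Set Relation

section wrap

variable {V D : Type} {T : PvMap V D}

theorem pvf_meas_ws [Countable D] (d : D) (L : Set D) : MeasurableSet {s : V → Bool | {a | T.Wall s d a ∧ T.Occ s a} = L} := by
  have e : {s : V → Bool | {a | T.Wall s d a ∧ T.Occ s a} = L} = ⋂ a, {s | (T.Wall s d a ∧ T.Occ s a) ↔ a ∈ L} := by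
    ext s
    simp only [mem_ofPred_eq, mem_iInter, Set.ext_iff]
  rw [e]
  refine MeasurableSet.iInter fun a => ?_
  have hm : MeasurableSet {s : V → Bool | T.Wall s d a ∧ T.Occ s a} := (pvf_meas_wall T d a).inter (pvf_meas_occ T a)
  by_cases h : a ∈ L
  · simpa only [h, iff_true] using hm
  · have e2 : {s : V → Bool | (T.Wall s d a ∧ T.Occ s a) ↔ a ∈ L} = {s | T.Wall s d a ∧ T.Occ s a}ᶜ := by
      ext s; simp only [h, iff_false, mem_ofPred_eq, mem_compl_iff]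
    rw [e2]; exact hm.compl

/-- **one turn** -/
theorem pvf_orth_le [Countable D] (hT : T.IsSph) (hfin : ∀ᵐ s ∂colLaw V, ∀ d, {d' | T.Wall s d d'}.Finite) {d d' : D} (hdd : ¬ T.SF d d') :
    colLaw V {s | T.SameLab s d d'} ≤ colLaw V {s | T.SameLab s (T.nxt d) (T.nxt (T.nxt d'))} := by
  obtain ⟨A, hcov, hinj⟩ := pvsg_core hT hdd
  have h0 : colLaw V {s | T.SameLab s d d'} = colLaw V {s | T.SameLab s d d' ∧ ∀ e, {a | T.Wall s e a}.Finite} := by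
    refine measure_congr ?_
    filter_upwards [hfin] with s hs
    exact propext ⟨fun h => ⟨h, hs⟩, fun h => h.1⟩
  rw [h0]
  refine pvf_piecewise_flip_le
    (fun i : Finset D × Finset D => {s | T.SameLab s d d' ∧ {a | T.Wall s d a ∧ T.Occ s a} = ↑i.1 ∧
      T.SameLab (pvfFlip (A i) s) (T.nxt d) (T.nxt (T.nxt d')) ∧
      {a | T.Wall (pvfFlip (A i) s) (T.nxt d) a ∧ T.Occ (pvfFlip (A i) s) a} = ↑i.2}) A ?_ ?_ ?_ ?_
  · intro i
    exact (pvf_meas_sameLab T d d').inter ((pvf_meas_ws d _).inter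
      ((pvf_measurable_flip (A i) (pvf_meas_sameLab T (T.nxt d) (T.nxt (T.nxt d')))).inter (pvf_measurable_flip (A i) (pvf_meas_ws (T.nxt d) _))))
  · rintro s ⟨hs, hw⟩
    obtain ⟨i, h1, h2, h3⟩ := hcov s hs hw
    exact mem_iUnion.2 ⟨i, hs, h1, h2, h3⟩
  · intro i j hij
    refine Set.disjoint_left.2 ?_
    rintro _ ⟨s₁, ⟨a1, a2, -, a4⟩, rfl⟩ ⟨s₂, ⟨b1, b2, -, b4⟩, hst⟩
    exact hij (hinj s₁ s₂ i j a1 a2 a4 b1 b2 b4 hst.symm)
  · rintro i _ ⟨s, ⟨-, -, h3, -⟩, rfl⟩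
    exact h3

theorem pvf_not_sf {d d' : D} (hdd : ¬ T.SF d d') : ¬ T.SF (T.nxt d) (T.nxt (T.nxt d')) := fun h =>
  hdd (T.sf_trans (T.sf_trans (T.sf_nxt d) h) (T.sf_symm (T.sf_nxt2 d')))

/-- **TEX[fields:orthogonal] in INFINITE VOLUME**: locally finite plane (or sphere) triangulation, a.s. finite walls -/
theorem pvf_orth_inf [Countable D] (hT : T.IsSph) (hfin : ∀ᵐ s ∂colLaw V, ∀ d, {d' | T.Wall s d d'}.Finite) : T.FoInv := by
  intro d d' hdd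
  refine le_antisymm (pvf_orth_le hT hfin hdd) ?_
  have h1 := pvf_not_sf hdd
  have h2 := pvf_not_sf h1
  have e1 := pvf_orth_le hT hfin h1
  have e2 := pvf_orth_le hT hfin h2
  have e3 : T.nxt (T.nxt (T.nxt (T.nxt d'))) = T.nxt d' := T.nxt3 (T.nxt d')
  rw [e3] at e1 e2
  rw [T.nxt3, T.nxt3] at e2
  exact e1.trans e2

/-- statement `orth_inf` of record (draft of helper227) -/
theorem orth_inf [Countable D] (hT : T.IsSph) (hfin : ∀ᵐ s ∂colLaw V, ∀ d, {d' | T.Wall s d d'}.Finite) {d d' : D} (hdd : ¬ T.SF d d') :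
    colLaw V {s | T.SameLab s d d'} = colLaw V {s | T.SameLab s (T.nxt d) (T.nxt (T.nxt d'))} :=
  pvf_orth_inf hT hfin d d' hdd

/-! ## the Bessel identities in infinite volume -/

/-- **Bessel identity** `fields:energy`: `E sum_lambda |sum_{d in lambda, d in Z} x d|^2 = 1/4 sum_{d in Z} |x d|^2`, `Z` finite and `nxt`-closed, `x` covariant -/
theorem pvf_bessel_inf [Countable D] (hT : T.IsSph) (hfin : ∀ᵐ s ∂colLaw V, ∀ d, {d' | T.Wall s d d'}.Finite) (Z : Finset D) (hZ : ∀ d ∈ Z, T.nxt d ∈ Z)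
    {ζ : ℂ} (hζ : ζ * (starRingEnd ℂ) ζ = 1) (hζ1 : ζ ≠ 1) (x : D → ℂ) (hx : ∀ d, x (T.nxt d) = ζ * x d) :
    ∫ s, T.foE x Z s ∂(colLaw V) = 1 / 4 * ∑ d ∈ Z, ‖x d‖ ^ 2 :=
  T.pvfo_bessel (pvf_orth_inf hT hfin) T.pvfo_meas Z hZ hζ hζ1 x hx

theorem pvf_bessel_inf_int [Countable D] (hT : T.IsSph) (hfin : ∀ᵐ s ∂colLaw V, ∀ d, {d' | T.Wall s d d'}.Finite) (Z : Finset D) (hZ : ∀ d ∈ Z, T.nxt d ∈ Z)
    {ζ : ℂ} (hζ : ζ * (starRingEnd ℂ) ζ = 1) (hζ1 : ζ ≠ 1) (x : D → ℂ) (hx : ∀ d, x (T.nxt d) = ζ * x d) :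
    ∫ s, T.foEn x Z s ∂(colLaw V) = ((1 / 4 * ∑ d ∈ Z, ‖x d‖ ^ 2 : ℝ) : ℂ) :=
  T.pvfo_bessel_int (pvf_orth_inf hT hfin) T.pvfo_meas Z hZ hζ hζ1 x hx

theorem pvf_bessel_inf_U [Countable D] (hT : T.IsSph) (hfin : ∀ᵐ s ∂colLaw V, ∀ d, {d' | T.Wall s d d'}.Finite) (Z : Finset D) (hZ : ∀ d ∈ Z, T.nxt d ∈ Z)
    (pos : V → ℂ) (g : D → ℂ) (hg : ∀ d, g (T.nxt d) = g d) :
    ∫ s, T.foE (fun d => g d * T.upart pos d) Z s ∂(colLaw V) = 1 / 4 * ∑ d ∈ Z, ‖g d * T.upart pos d‖ ^ 2 :=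
  T.pvfo_bessel_U (pvf_orth_inf hT hfin) T.pvfo_meas Z hZ pos g hg

theorem pvf_bessel_inf_Q [Countable D] (hT : T.IsSph) (hfin : ∀ᵐ s ∂colLaw V, ∀ d, {d' | T.Wall s d d'}.Finite) (Z : Finset D) (hZ : ∀ d ∈ Z, T.nxt d ∈ Z)
    (pos : V → ℂ) (g : D → ℂ) (hg : ∀ d, g (T.nxt d) = g d) :
    ∫ s, T.foE (fun d => g d * T.qpart pos d) Z s ∂(colLaw V) = 1 / 4 * ∑ d ∈ Z, ‖g d * T.qpart pos d‖ ^ 2 :=
  T.pvfo_bessel_Q (pvf_orth_inf hT hfin) T.pvfo_meas Z hZ pos g hg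

theorem pvf_bessel_inf_V [Countable D] (hT : T.IsSph) (hfin : ∀ᵐ s ∂colLaw V, ∀ d, {d' | T.Wall s d d'}.Finite) (Z : Finset D) (hZ : ∀ d ∈ Z, T.nxt d ∈ Z)
    (pos : V → ℂ) (g : D → ℂ) (hg : ∀ d, g (T.nxt d) = g d) :
    ∫ s, T.foE (fun d => g d * T.side pos d) Z s ∂(colLaw V)
      ≤ 1 / 2 * ∑ d ∈ Z, (‖g d * T.upart pos d‖ ^ 2 + ‖g d * T.qpart pos d‖ ^ 2) :=
  T.pvfo_bessel_V (pvf_orth_inf hT hfin) T.pvfo_meas Z hZ pos g hg

/-! ## label sums: one label against the energy -/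

/-- `lsum` is the finite sum over the part of the label in `Z`, for coefficients which vanish off `Z` -/
theorem pvf_lsum_cls (Z : Finset D) (x : D → ℂ) (hx : ∀ d, d ∉ Z → x d = 0) (s : V → Bool) (d : D) :
    T.lsum s x d = ∑ d' ∈ T.foCls Z s d, x d' := by
  classical
  unfold PvMap.lsum
  refine finsum_mem_eq_sum_of_inter_support_eq x ?_
  ext d'
  simp only [PvMap.foCls, mem_inter_iff, mem_ofPred_eq, Function.mem_support, Finset.coe_filter]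
  constructor
  · rintro ⟨h1, h2⟩
    exact ⟨⟨by_contra fun h => h2 (hx d' h), h1⟩, h2⟩
  · rintro ⟨⟨-, h1⟩, h2⟩
    exact ⟨h1, h2⟩

/-- **ONE label is dominated by the energy** -/
theorem pvf_lsum_sq_le (Z : Finset D) (x : D → ℂ) (hx : ∀ d, d ∉ Z → x d = 0) (s : V → Bool) (d : D) :
    ‖T.lsum s x d‖ ^ 2 ≤ T.foE x Z s := by
  classical
  rw [pvf_lsum_cls Z x hx]
  by_cases h : ∃ d₀ ∈ Z, T.SameLab s d d₀
  · obtain ⟨d₀, h0, h1⟩ := h
    have hmem : T.foCls Z s d ∈ T.foLabs Z s := by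
      unfold PvMap.foLabs
      rw [← T.pvfo_cls_congr Z s h1]
      exact Finset.mem_image_of_mem _ (Finset.mem_filter.2 ⟨h0, h1.2.1⟩)
    unfold PvMap.foE
    exact Finset.single_le_sum (f := fun L => ‖∑ d ∈ L, x d‖ ^ 2) (fun _ _ => by positivity) hmem
  · have he : T.foCls Z s d = ∅ := by
      unfold PvMap.foCls
      refine Finset.filter_eq_empty_iff.2 fun d₀ h0 h1 => h ⟨d₀, h0, h1⟩
    rw [he, Finset.sum_empty, norm_zero]
    have := T.pvfo_E_nonneg x Z s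
    simpa using this

/-- **Markov for the largest label**, from any bound of the mean energy -/
theorem pvf_lsum_markov (hm : T.FoMeas) (Z : Finset D) (x : D → ℂ) (hx : ∀ d, d ∉ Z → x d = 0) {τ : ℝ} (hτ : 0 < τ) :
    colLaw V {s | ∃ d, τ < ‖T.lsum s x d‖} ≤ ENNReal.ofReal ((∫ s, T.foE x Z s ∂(colLaw V)) / τ ^ 2) := by
  have hsub : {s | ∃ d, τ < ‖T.lsum s x d‖} ⊆ {s | τ ^ 2 ≤ T.foE x Z s} := by
    rintro s ⟨d, hd⟩
    have h1 := pvf_lsum_sq_le (T := T) Z x hx s d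
    have h2 : τ ^ 2 ≤ ‖T.lsum s x d‖ ^ 2 := pow_le_pow_left₀ hτ.le hd.le 2
    exact h2.trans h1
  refine (measure_mono hsub).trans ?_
  have hmk := mul_meas_ge_le_integral_of_nonneg (μ := colLaw V) (Filter.Eventually.of_forall fun s => T.pvfo_E_nonneg x Z s)
    (T.pvfo_E_integrable hm x Z) (τ ^ 2)
  have hpos : 0 < τ ^ 2 := by positivity
  have h3 : (colLaw V).real {s | τ ^ 2 ≤ T.foE x Z s} ≤ (∫ s, T.foE x Z s ∂(colLaw V)) / τ ^ 2 := by
    rw [le_div_iff₀ hpos, mul_comm]; exact hmk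
  rw [← ENNReal.ofReal_toReal (measure_ne_top (colLaw V) _)]
  exact ENNReal.ofReal_le_ofReal h3

/-- **Markov for the largest label in infinite volume**: `colLaw {some label has |X_λ| > τ} ≤ (1/4) ∑ |x d|² / τ²` -/
theorem pvf_lsum_markov_inf [Countable D] (hT : T.IsSph) (hfin : ∀ᵐ s ∂colLaw V, ∀ d, {d' | T.Wall s d d'}.Finite) (Z : Finset D) (hZ : ∀ d ∈ Z, T.nxt d ∈ Z)
    {ζ : ℂ} (hζ : ζ * (starRingEnd ℂ) ζ = 1) (hζ1 : ζ ≠ 1) (x : D → ℂ) (hx : ∀ d, x (T.nxt d) = ζ * x d) (hx0 : ∀ d, d ∉ Z → x d = 0)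
    {τ : ℝ} (hτ : 0 < τ) :
    colLaw V {s | ∃ d, τ < ‖T.lsum s x d‖} ≤ ENNReal.ofReal ((1 / 4 * ∑ d ∈ Z, ‖x d‖ ^ 2) / τ ^ 2) := by
  rw [← pvf_bessel_inf hT hfin Z hZ hζ hζ1 x hx]
  exact pvf_lsum_markov T.pvfo_meas Z x hx0 hτ

/-- **second moment of a selected label**: any (measurable or not) selection `σ s` of a dart; upper integral form -/
theorem pvf_sel_l2 (hm : T.FoMeas) (Z : Finset D) (x : D → ℂ) (hx : ∀ d, d ∉ Z → x d = 0) (σ : (V → Bool) → D) :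
    ∫⁻ s, ENNReal.ofReal (‖T.lsum s x (σ s)‖ ^ 2) ∂(colLaw V) ≤ ENNReal.ofReal (∫ s, T.foE x Z s ∂(colLaw V)) := by
  rw [ofReal_integral_eq_lintegral_ofReal (T.pvfo_E_integrable hm x Z) (Filter.Eventually.of_forall fun s => T.pvfo_E_nonneg x Z s)]
  exact lintegral_mono fun s => ENNReal.ofReal_le_ofReal (pvf_lsum_sq_le Z x hx s (σ s))

/-- the labels are finite when the walls are -/
theorem pvf_label_sub_wall (s : V → Bool) (d : D) : {d' | T.SameLab s d d'} ⊆ {d' | T.Wall s d d'} := fun _ h => h.2.2.1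

theorem pvf_label_finite {s : V → Bool} {d : D} (h : {d' | T.Wall s d d'}.Finite) : {d' | T.SameLab s d d'}.Finite :=
  h.subset (pvf_label_sub_wall s d)

/-- `lsum` depends only on the label -/
theorem pvf_lsum_congr (s : V → Bool) (x : D → ℂ) {d d' : D} (h : T.SameLab s d d') : T.lsum s x d' = T.lsum s x d := by
  unfold PvMap.lsum
  have e : ∀ a, T.SameLab s d' a ↔ T.SameLab s d a := fun a =>
    ⟨fun h' => T.sameLab_trans s h h', fun h' => T.sameLab_trans s (T.sameLab_symm s h) h'⟩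
  simp only [e]

/-- `lsum` vanishes at a dart which is not a tag -/
theorem pvf_lsum_not_tag (s : V → Bool) (x : D → ℂ) {d : D} (h : ¬ T.Tag s d) : T.lsum s x d = 0 := by
  unfold PvMap.lsum
  refine finsum_eq_zero_of_forall_eq_zero fun a => ?_
  have hn : ¬ T.SameLab s d a := fun h' => h h'.1
  have : IsEmpty (T.SameLab s d a) := ⟨hn⟩
  exact finsum_of_isEmpty _

/-- linearity of `lsum` on finite labels -/
theorem pvf_lsum_add {s : V → Bool} {d : D} (h : {d' | T.SameLab s d d'}.Finite) (x y : D → ℂ) :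
    T.lsum s (fun a => x a + y a) d = T.lsum s x d + T.lsum s y d := by
  unfold PvMap.lsum
  exact finsum_mem_add_distrib h

theorem pvf_lsum_smul (s : V → Bool) (d : D) (c : ℂ) (x : D → ℂ) : T.lsum s (fun a => c * x a) d = c * T.lsum s x d := by
  unfold PvMap.lsum
  have h1 : ∀ a, (∑ᶠ (_ : T.SameLab s d a), c * x a) = c • ∑ᶠ (_ : T.SameLab s d a), x a := fun a => by
    rw [smul_finsum]; rfl
  simp only [h1]
  rw [← smul_finsum]; rfl

/-- the energy does not depend on the window `Z`, as long as it carries the coefficients -/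
theorem pvf_foE_ext {Z Z' : Finset D} (hZ : Z ⊆ Z') (x : D → ℂ) (hx : ∀ d, d ∉ Z → x d = 0) (s : V → Bool) : T.foE x Z' s = T.foE x Z s := by
  classical
  have h : T.foEn x Z' s = T.foEn x Z s := by
    unfold PvMap.foEn
    have h1 : ∀ d, (∑ d' ∈ Z', if T.SameLab s d d' then x d * (starRingEnd ℂ) (x d') else 0)
        = ∑ d' ∈ Z, if T.SameLab s d d' then x d * (starRingEnd ℂ) (x d') else 0 := by
      intro d
      refine (Finset.sum_subset hZ fun d' _ h' => ?_).symm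
      rw [hx d' h', map_zero, mul_zero, ite_self]
    simp only [h1]
    refine (Finset.sum_subset hZ fun d _ h' => ?_).symm
    refine Finset.sum_eq_zero fun d' _ => ?_
    rw [hx d h', zero_mul, ite_self]
  have h2 := T.pvfo_E_eq x Z' s
  rw [h, ← T.pvfo_E_eq x Z s] at h2
  exact_mod_cast h2

/-- **Markov for the largest label on a finite sphere** -/
theorem pvf_lsum_markov_sph [Fintype V] [Finite D] (hT : T.IsSph) (Z : Finset D) (hZ : ∀ d ∈ Z, T.nxt d ∈ Z)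
    {ζ : ℂ} (hζ : ζ * (starRingEnd ℂ) ζ = 1) (hζ1 : ζ ≠ 1) (x : D → ℂ) (hx : ∀ d, x (T.nxt d) = ζ * x d) (hx0 : ∀ d, d ∉ Z → x d = 0)
    {τ : ℝ} (hτ : 0 < τ) :
    colLaw V {s | ∃ d, τ < ‖T.lsum s x d‖} ≤ ENNReal.ofReal ((1 / 4 * ∑ d ∈ Z, ‖x d‖ ^ 2) / τ ^ 2) := by
  rw [← T.pvfo_bessel_sph hT Z hZ hζ hζ1 x hx]
  exact pvf_lsum_markov T.pvfo_meas_fin Z x hx0 hτ

/-- second moment of a selected label on a finite sphere / in infinite volume, with the value of the energy -/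
theorem pvf_sel_l2_sph [Fintype V] [Finite D] (hT : T.IsSph) (Z : Finset D) (hZ : ∀ d ∈ Z, T.nxt d ∈ Z)
    {ζ : ℂ} (hζ : ζ * (starRingEnd ℂ) ζ = 1) (hζ1 : ζ ≠ 1) (x : D → ℂ) (hx : ∀ d, x (T.nxt d) = ζ * x d) (hx0 : ∀ d, d ∉ Z → x d = 0)
    (σ : (V → Bool) → D) :
    ∫⁻ s, ENNReal.ofReal (‖T.lsum s x (σ s)‖ ^ 2) ∂(colLaw V) ≤ ENNReal.ofReal (1 / 4 * ∑ d ∈ Z, ‖x d‖ ^ 2) := by
  rw [← T.pvfo_bessel_sph hT Z hZ hζ hζ1 x hx]
  exact pvf_sel_l2 T.pvfo_meas_fin Z x hx0 σ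

theorem pvf_sel_l2_inf [Countable D] (hT : T.IsSph) (hfin : ∀ᵐ s ∂colLaw V, ∀ d, {d' | T.Wall s d d'}.Finite) (Z : Finset D) (hZ : ∀ d ∈ Z, T.nxt d ∈ Z)
    {ζ : ℂ} (hζ : ζ * (starRingEnd ℂ) ζ = 1) (hζ1 : ζ ≠ 1) (x : D → ℂ) (hx : ∀ d, x (T.nxt d) = ζ * x d) (hx0 : ∀ d, d ∉ Z → x d = 0)
    (σ : (V → Bool) → D) :
    ∫⁻ s, ENNReal.ofReal (‖T.lsum s x (σ s)‖ ^ 2) ∂(colLaw V) ≤ ENNReal.ofReal (1 / 4 * ∑ d ∈ Z, ‖x d‖ ^ 2) := by
  rw [← pvf_bessel_inf hT hfin Z hZ hζ hζ1 x hx]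
  exact pvf_sel_l2 T.pvfo_meas Z x hx0 σ

end wrap

end Claimed.Agent.R289
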