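import Claimed.Agent.R289.S1P.Cov
import Claimed.Agent.R289.S1P.Meas
import Claimed.Agent.R289.Pl.Geo
import Claimed.Agent.R289.S1.OrthInf
import Claimed.Agent.R289.S1P.Ann
import Claimed.Agent.R289.Del.GenPos
import Claimed.Agent.R289.PppCnt

/-!
# Row 289 (S0537), box S1P (head helper244), file S1/Closed : E7 = PROP 1.6 (closed-sum tail, TEX[fields:closed-prop]) IN THE FULL PLANE      (owner helper104; prefix `pvcl`)

v2 (08:55Z): retyped on the RAW DARTS of `S1P/Raw.lean` (244): `Tr = DelTri (cfSites η)`, `s = cfCol η`, `pvqTag pvqSame pvqSum pvqCard pvqWQ pvqBar`.      (v1 had a private copy `PvX` of that device: withdrawn.)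
EXITS: `pvcl_closed` (mean), `pvcl_closed_prob` (probability), `pvcl_le_sum` (raw consumer form), `pvcl_le_sum_del` (consumer form on `delPl cfCol lsum qpart`).
A sum over labels is a sum over TAGS of `F / #label`; the share of the tag `x` sits AT ITS OWN VERTEX `x.1` (no anchors); infinite labels weigh zero.
* `pvclMass η ρ a x`   share of the tag `x` in `|Q_λ(1)|²`, if the label has diameter `≥ a` and all its tagged barycentres are within `ρ` of `x.1`  (`ρ = ⊤`: no condition)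
* `pvclM ρ a η = ∑_x pvclMass η ρ a x δ_{x.1}`,   `pvclN η = ∑_{x live} |q_t|² δ_{z_t}`,   `pvclSum η B a` = the closed sum over the labels with all rim vertices in `B`, diameter `≥ a`
 sec. 1  label algebra, termwise in `ℝ≥0∞` (104 + 81)      sec. 2  INPUTS typed in the form consumed: covariance (107, from `pvcv_sum_map`), measurability (286, `S1P/Code`), annealed Bessel (244, `S1P/Ann`), finite intensity (107, `pvcv_theta_fin`)
 sec. 3  compiled glue on `pvms_collar`, `pvms_tail` (107, `Mesh/Stat`)      sec. 4  consumer forms.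
-/

set_option autoImplicit false
set_option linter.unusedSectionVars false

namespace Claimed.Agent.R289

open MeasureTheory ProbabilityTheory Set Filter Topology Relation Claims.C0465
open scoped ENNReal NNReal

/-! ## 0. definitions -/

/-- the label of `x` has diameter `≥ a` -/
def pvclBig (η : Conf PvPt) (a : ℝ) (x : ℂ × ℂ) : Prop :=
  ∃ y y', pvqSame (DelTri (cfSites η)) (cfCol η) x y ∧ pvqSame (DelTri (cfSites η)) (cfCol η) x y' ∧ a ≤ ‖y.1 - y'.1‖

/-- all tagged barycentres of the label of `x` are within `ρ` of `x.1` -/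
def pvclRet (η : Conf PvPt) (ρ : ℝ≥0∞) (x : ℂ × ℂ) : Prop :=
  ∀ y, pvqSame (DelTri (cfSites η)) (cfCol η) x y → ENNReal.ofReal ‖pvqBar (cfSites η) y - x.1‖ ≤ ρ

/-- all rim vertices of the label of `x` lie in `B` -/
def pvclIn (η : Conf PvPt) (B : Set ℂ) (x : ℂ × ℂ) : Prop := ∀ y, pvqSame (DelTri (cfSites η)) (cfCol η) x y → y.1 ∈ B

open Classical in
/-- the share of the tag `x` in `|Q_λ(1)|²` -/
noncomputable def pvclMass (η : Conf PvPt) (ρ : ℝ≥0∞) (a : ℝ) (x : ℂ × ℂ) : ℝ≥0∞ :=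
  if pvqTag (DelTri (cfSites η)) (cfCol η) x ∧ pvclRet η ρ x ∧ pvclBig η a x then
    ENNReal.ofReal (‖pvqSum (DelTri (cfSites η)) (cfCol η) (pvqWQ (cfSites η)) x‖ ^ 2) / (pvqCard (DelTri (cfSites η)) (cfCol η) x : ℝ≥0∞) else 0

/-- `∑_λ |Q_λ(1)|²`, spread over the rim vertices of `λ` -/
noncomputable def pvclM (ρ : ℝ≥0∞) (a : ℝ) (η : Conf PvPt) : Measure ℂ := Measure.sum fun x : ℂ × ℂ => pvclMass η ρ a x • Measure.dirac x.1

open Classical in
/-- `3 ∑_t |q_t|² δ_{z_t}` (sum over the live raw darts) -/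
noncomputable def pvclN (η : Conf PvPt) : Measure ℂ :=
  Measure.sum fun x : ℂ × ℂ => (if ∃ c, DelTri (cfSites η) x.1 x.2 c then ENNReal.ofReal (‖pvqWQ (cfSites η) x‖ ^ 2) else 0) • Measure.dirac (pvqBar (cfSites η) x)

open Classical in
/-- **the closed sum** -/
noncomputable def pvclSum (η : Conf PvPt) (B : Set ℂ) (a : ℝ) : ℝ≥0∞ := ∑' x : ℂ × ℂ, if pvclIn η B x then pvclMass η ⊤ a x else 0

open Classical in
/-- the `Q`-weight masked by a set of barycentres (zero off the live darts) -/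
noncomputable def pvclW (Y W : Set ℂ) (x : ℂ × ℂ) : ℂ := if (∃ c, DelTri Y x.1 x.2 c) ∧ pvqBar Y x ∈ W then pvqWQ Y x else 0

open Classical in
/-- the masked Bessel sum `∑_λ |Q_λ(1_W)|²`      (= `pvqEn (cfSites η) (cfCol η) (pvclW (cfSites η) W)` of 244) -/
noncomputable def pvclBes (η : Conf PvPt) (W : Set ℂ) : ℝ≥0∞ :=
  ∑' x : ℂ × ℂ, if pvqTag (DelTri (cfSites η)) (cfCol η) x then
    ENNReal.ofReal (‖pvqSum (DelTri (cfSites η)) (cfCol η) (pvclW (cfSites η) W) x‖ ^ 2) / (pvqCard (DelTri (cfSites η)) (cfCol η) x : ℝ≥0∞) else 0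

theorem pvcl_eqns_cite : True := by
  have := @pvclBig.eq_1; have := @pvclRet.eq_1; have := @pvclIn.eq_1; have := @pvclMass.eq_1; have := @pvclM.eq_1; have := @pvclN.eq_1
  have := @pvclSum.eq_1; have := @pvclW.eq_1; have := @pvclBes.eq_1
  trivial

/-! ## 1. label algebra -/

theorem pvcl_same_refl {V : Type} {Tr : V → V → V → Prop} {s : V → Bool} {x : V × V} (h : pvqTag Tr s x) : pvqSame Tr s x x :=
  ⟨h, h, ReflTransGen.refl, ReflTransGen.refl⟩

theorem pvcl_M_apply (ρ : ℝ≥0∞) (a : ℝ) (η : Conf PvPt) {B : Set ℂ} (hB : MeasurableSet B) :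
    pvclM ρ a η B = ∑' x : ℂ × ℂ, pvclMass η ρ a x * B.indicator 1 x.1 := by
  unfold pvclM
  rw [Measure.sum_apply _ hB]
  refine tsum_congr fun x => ?_
  rw [Measure.smul_apply, Measure.dirac_apply' _ hB, smul_eq_mul]

open Classical in
theorem pvcl_N_apply (η : Conf PvPt) {B : Set ℂ} (hB : MeasurableSet B) :
    pvclN η B = ∑' x : ℂ × ℂ, (if ∃ c, DelTri (cfSites η) x.1 x.2 c then ENNReal.ofReal (‖pvqWQ (cfSites η) x‖ ^ 2) else 0) * B.indicator 1 (pvqBar (cfSites η) x) := by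
  unfold pvclN
  rw [Measure.sum_apply _ hB]
  refine tsum_congr fun x => ?_
  rw [Measure.smul_apply, Measure.dirac_apply' _ hB, smul_eq_mul]

/-- (A2) the retained shares located in `W` belong to labels which are complete in the mask `W'` -/
theorem pvcl_M_le_bes (η : Conf PvPt) {W W' : Set ℂ} {σ a : ℝ} (hσ : 0 ≤ σ) (hW : MeasurableSet W) (h : ∀ z ∈ W, ∀ w, ‖w - z‖ ≤ σ → w ∈ W') :
    pvclM (ENNReal.ofReal σ) a η W ≤ pvclBes η W' := by
  classical
  rw [pvcl_M_apply _ _ _ hW]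
  unfold pvclBes
  refine ENNReal.tsum_le_tsum fun x => ?_
  by_cases hx : x.1 ∈ W
  · rw [Set.indicator_of_mem hx, Pi.one_apply, mul_one]
    unfold pvclMass
    by_cases hc : pvqTag (DelTri (cfSites η)) (cfCol η) x ∧ pvclRet η (ENNReal.ofReal σ) x ∧ pvclBig η a x
    · rw [if_pos hc, if_pos hc.1]
      have e : pvqSum (DelTri (cfSites η)) (cfCol η) (pvqWQ (cfSites η)) x = pvqSum (DelTri (cfSites η)) (cfCol η) (pvclW (cfSites η) W') x := by
        unfold pvqSum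
        refine finsum_congr fun y => finsum_congr fun hy => ?_
        unfold pvclW
        rw [if_pos]
        obtain ⟨c, hc1, -⟩ := hy.2.1
        refine ⟨⟨c, hc1⟩, h _ hx _ ?_⟩
        exact (ENNReal.ofReal_le_ofReal_iff hσ).1 (hc.2.1 y hy)
      rw [e]
    · rw [if_neg hc]; exact zero_le
  · rw [Set.indicator_of_notMem hx, mul_zero]; exact zero_le

theorem pvcl_sum_mono (η : Conf PvPt) {B B' : Set ℂ} (h : B ⊆ B') (a : ℝ) : pvclSum η B a ≤ pvclSum η B' a := by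
  classical
  unfold pvclSum
  refine ENNReal.tsum_le_tsum fun x => ?_
  by_cases hx : pvclIn η B x
  · have hx' : pvclIn η B' x := fun y hy => h (hx y hy)
    rw [if_pos hx, if_pos hx']
  · rw [if_neg hx]; exact zero_le

/-- (A3) the shares of a label inside `B` sit in `B` -/
theorem pvcl_sum_le_M (η : Conf PvPt) {B : Set ℂ} (hB : MeasurableSet B) (a : ℝ) : pvclSum η B a ≤ pvclM ⊤ a η B := by
  classical
  rw [pvcl_M_apply _ _ _ hB]
  unfold pvclSum
  refine ENNReal.tsum_le_tsum fun x => ?_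
  by_cases hx : pvclIn η B x
  · rw [if_pos hx]
    by_cases ht : pvqTag (DelTri (cfSites η)) (cfCol η) x
    · rw [Set.indicator_of_mem (hx x (pvcl_same_refl ht)), Pi.one_apply, mul_one]
    · have : pvclMass η ⊤ a x = 0 := by
        unfold pvclMass
        rw [if_neg (fun hc => ht hc.1)]
      rw [this, zero_mul]
  · rw [if_neg hx]; exact zero_le

theorem pvcl_mass_mono_ret (η : Conf PvPt) {ρ ρ' : ℝ≥0∞} (h : ρ ≤ ρ') (a : ℝ) (x : ℂ × ℂ) : pvclMass η ρ a x ≤ pvclMass η ρ' a x := by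
  classical
  unfold pvclMass
  by_cases hc : pvqTag (DelTri (cfSites η)) (cfCol η) x ∧ pvclRet η ρ x ∧ pvclBig η a x
  · rw [if_pos hc, if_pos ⟨hc.1, fun y hy => (hc.2.1 y hy).trans h, hc.2.2⟩]
  · rw [if_neg hc]; exact zero_le

theorem pvcl_M_mono_ret (η : Conf PvPt) {ρ ρ' : ℝ≥0∞} (h : ρ ≤ ρ') (a : ℝ) {B : Set ℂ} (hB : MeasurableSet B) : pvclM ρ a η B ≤ pvclM ρ' a η B := by
  rw [pvcl_M_apply _ _ _ hB, pvcl_M_apply _ _ _ hB]
  exact ENNReal.tsum_le_tsum fun x => mul_le_mul_left (pvcl_mass_mono_ret η h a x) _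

/-- an infinite label weighs zero -/
theorem pvcl_mass_inf {η : Conf PvPt} {x : ℂ × ℂ} (h : ¬ {y | pvqSame (DelTri (cfSites η)) (cfCol η) x y}.Finite) (ρ : ℝ≥0∞) (a : ℝ) :
    pvclMass η ρ a x = 0 := by
  classical
  unfold pvclMass
  split_ifs with h1
  · have : pvqCard (DelTri (cfSites η)) (cfCol η) x = ⊤ := by
      unfold pvqCard
      exact Set.encard_eq_top_iff.2 h
    rw [this]
    simp
  · rfl

theorem pvcl_mass_congr {η : Conf PvPt} {ρ ρ' : ℝ≥0∞} {a a' : ℝ} {x : ℂ × ℂ} (h : (pvclRet η ρ x ∧ pvclBig η a x) ↔ (pvclRet η ρ' x ∧ pvclBig η a' x)) :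
    pvclMass η ρ a x = pvclMass η ρ' a' x := by
  classical
  unfold pvclMass
  by_cases h1 : pvqTag (DelTri (cfSites η)) (cfCol η) x ∧ pvclRet η ρ x ∧ pvclBig η a x
  · rw [if_pos h1, if_pos ⟨h1.1, h.1 h1.2⟩]
  · rw [if_neg h1, if_neg fun h2 => h1 ⟨h2.1, h.2 h2.2⟩]

theorem pvcl_mass_le_of_imp {η : Conf PvPt} {ρ ρ' : ℝ≥0∞} {a a' : ℝ} {x : ℂ × ℂ} (h : (pvclRet η ρ x ∧ pvclBig η a x) → (pvclRet η ρ' x ∧ pvclBig η a' x)) :
    pvclMass η ρ a x ≤ pvclMass η ρ' a' x := by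
  classical
  unfold pvclMass
  by_cases h1 : pvqTag (DelTri (cfSites η)) (cfCol η) x ∧ pvclRet η ρ x ∧ pvclBig η a x
  · rw [if_pos h1, if_pos ⟨h1.1, h h1.2⟩]
  · rw [if_neg h1]; exact zero_le

/-- every finite label is retained at some range -/
theorem pvcl_mass_iSup (η : Conf PvPt) (a : ℝ) (x : ℂ × ℂ) : pvclMass η ⊤ a x = ⨆ n : ℕ, pvclMass η (ENNReal.ofReal n) a x := by
  refine le_antisymm ?_ (iSup_le fun n => pvcl_mass_le_of_imp fun h => ⟨fun y _ => le_top, h.2⟩)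
  by_cases hfin : {y | pvqSame (DelTri (cfSites η)) (cfCol η) x y}.Finite
  · obtain ⟨M, hM⟩ := (hfin.image fun y => ‖pvqBar (cfSites η) y - x.1‖).bddAbove
    obtain ⟨n, hn⟩ := exists_nat_ge M
    refine le_trans (le_of_eq ?_) (le_iSup _ n)
    refine pvcl_mass_congr ⟨fun h => ⟨fun y hy => ?_, h.2⟩, fun h => ⟨fun y _ => le_top, h.2⟩⟩
    exact ENNReal.ofReal_le_ofReal ((hM ⟨y, hy, rfl⟩).trans hn)
  · rw [pvcl_mass_inf hfin]; exact zero_le

/-- (A4) -/
theorem pvcl_M_iSup (η : Conf PvPt) (a : ℝ) {B : Set ℂ} (hB : MeasurableSet B) : pvclM ⊤ a η B = ⨆ n : ℕ, pvclM (ENNReal.ofReal n) a η B := by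
  rw [pvcl_M_apply _ _ _ hB]
  simp_rw [pvcl_M_apply _ _ _ hB, pvcl_mass_iSup η a, ENNReal.iSup_mul]
  rw [ENNReal.tsum_eq_iSup_sum]
  simp_rw [ENNReal.tsum_eq_iSup_sum (f := fun x : ℂ × ℂ => pvclMass η (ENNReal.ofReal _) a x * B.indicator 1 x.1)]
  rw [iSup_comm]
  refine iSup_congr fun s => ?_
  refine ENNReal.finsetSum_iSup_of_monotone fun x n m hnm => ?_
  refine mul_le_mul_left (pvcl_mass_le_of_imp fun h => ⟨fun y hy => (h.1 y hy).trans (ENNReal.ofReal_le_ofReal (by exact_mod_cast hnm)), h.2⟩) _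

theorem pvcl_mass_anti (η : Conf PvPt) (ρ : ℝ≥0∞) {a a' : ℝ} (h : a ≤ a') (x : ℂ × ℂ) : pvclMass η ρ a' x ≤ pvclMass η ρ a x := by
  refine pvcl_mass_le_of_imp fun h1 => ⟨h1.1, ?_⟩
  obtain ⟨y, y', hy, hy', hh⟩ := h1.2
  exact ⟨y, y', hy, hy', h.trans hh⟩

/-- (A5) -/
theorem pvcl_M_anti (η : Conf PvPt) (ρ : ℝ≥0∞) {a a' : ℝ} (h : a ≤ a') {B : Set ℂ} (hB : MeasurableSet B) : pvclM ρ a' η B ≤ pvclM ρ a η B := by
  rw [pvcl_M_apply _ _ _ hB, pvcl_M_apply _ _ _ hB]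
  exact ENNReal.tsum_le_tsum fun x => mul_le_mul_left (pvcl_mass_anti η ρ h x) _

/-- a finite label has a finite diameter -/
theorem pvcl_mass_eventually (η : Conf PvPt) (x : ℂ × ℂ) : ∀ᶠ a in atTop, pvclMass η ⊤ a x = 0 := by
  classical
  by_cases hfin : {y | pvqSame (DelTri (cfSites η)) (cfCol η) x y}.Finite
  · obtain ⟨M, hM⟩ := ((hfin.prod hfin).image fun p : (ℂ × ℂ) × (ℂ × ℂ) => ‖p.1.1 - p.2.1‖).bddAbove
    filter_upwards [eventually_gt_atTop M] with a ha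
    unfold pvclMass
    rw [if_neg]
    rintro ⟨-, -, y, y', hy, hy', hh⟩
    have := hM ⟨(y, y'), ⟨hy, hy'⟩, rfl⟩
    simp only at this
    linarith
  · exact Eventually.of_forall fun a => pvcl_mass_inf hfin _ _

/-- (A6) -/
theorem pvcl_M_tail (η : Conf PvPt) {B : Set ℂ} (hB : MeasurableSet B) (hfin : pvclM ⊤ 0 η B ≠ ∞) : Tendsto (fun a => pvclM ⊤ a η B) atTop (𝓝 0) := by
  classical
  rw [pvcl_M_apply _ _ _ hB] at hfin
  rw [ENNReal.tendsto_nhds_zero]
  intro ε hε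
  have h1 := ENNReal.tendsto_tsum_compl_atTop_zero hfin
  rw [ENNReal.tendsto_nhds_zero] at h1
  obtain ⟨s, hs⟩ := (h1 ε hε).exists
  have h2 : ∀ᶠ a in atTop, ∀ x ∈ s, pvclMass η ⊤ a x = 0 := (Finset.eventually_all s).2 fun x _ => pvcl_mass_eventually η x
  filter_upwards [h2, eventually_ge_atTop (0 : ℝ)] with a ha ha0
  rw [pvcl_M_apply _ _ _ hB, ← ENNReal.sum_add_tsum_compl s, Finset.sum_eq_zero (fun x hx => by rw [ha x hx, zero_mul]), zero_add]
  refine le_trans ?_ hs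
  exact ENNReal.tsum_le_tsum (f := fun i : ↥(s : Set (ℂ × ℂ))ᶜ => pvclMass η ⊤ a i * B.indicator 1 (i : ℂ × ℂ).1)
    (g := fun i : { x // x ∉ s } => pvclMass η ⊤ 0 i * B.indicator 1 (i : ℂ × ℂ).1) fun i => mul_le_mul_left (pvcl_mass_anti η ⊤ ha0 i) _

/-! ## 2. the inputs, in the form consumed by the glue -/

/-- `pvclRet` under a similarity -/
theorem pvcl_ret_map {α β : ℂ} (hα : α ≠ 0) (η : Conf PvPt) (h : VorGP (cfSites η)) (ρ : ℝ≥0∞) (x : ℂ × ℂ) :
    pvclRet (cfMap (vorSim α β) η) (ENNReal.ofReal ‖α‖ * ρ) (Prod.map (vorSim α β) (vorSim α β) x) ↔ pvclRet η ρ x := by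
  unfold pvclRet
  rw [pvcv_forall_same hα η x]
  have h0 : ENNReal.ofReal ‖α‖ ≠ 0 := by simpa using hα
  refine forall_congr' fun y => imp_congr_right fun _ => ?_
  rw [pvcv_Bar hα (pvcv_sites α β η) h, Prod.map_fst, vorSim_norm, ENNReal.ofReal_mul (norm_nonneg _)]
  exact ENNReal.mul_le_mul_iff_right h0 ENNReal.ofReal_ne_top

/-- `pvclBig` under a similarity -/
theorem pvcl_big_map {α β : ℂ} (hα : α ≠ 0) (η : Conf PvPt) (a : ℝ) (x : ℂ × ℂ) :
    pvclBig (cfMap (vorSim α β) η) (‖α‖ * a) (Prod.map (vorSim α β) (vorSim α β) x) ↔ pvclBig η a x := by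
  unfold pvclBig
  have hn : 0 < ‖α‖ := norm_pos_iff.2 hα
  constructor
  · rintro ⟨y1, y2, h1, h2, h3⟩
    rw [pvq_nat_same (pvcv_nat_cf hα η), pvcv_col_comp hα] at h1 h2
    obtain ⟨y, rfl, hy⟩ := h1
    obtain ⟨y', rfl, hy'⟩ := h2
    refine ⟨y, y', hy, hy', ?_⟩
    rw [Prod.map_fst, Prod.map_fst, vorSim_norm] at h3
    exact le_of_mul_le_mul_left h3 hn
  · rintro ⟨y, y', hy, hy', h3⟩
    refine ⟨_, _, (pvcv_same hα η x y).2 hy, (pvcv_same hα η x y').2 hy', ?_⟩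
    rw [Prod.map_fst, Prod.map_fst, vorSim_norm]
    gcongr

/-- the shares under a similarity -/
theorem pvcl_mass_map {α β : ℂ} (hα : α ≠ 0) (η : Conf PvPt) (h : VorGP (cfSites η)) (ρ : ℝ≥0∞) (a : ℝ) (x : ℂ × ℂ) :
    pvclMass (cfMap (vorSim α β) η) (ENNReal.ofReal ‖α‖ * ρ) (‖α‖ * a) (Prod.map (vorSim α β) (vorSim α β) x) =
      ENNReal.ofReal (‖α‖ ^ 2) * pvclMass η ρ a x := by
  have hc := and_congr (pvcv_tag (b := β) hα η x) (and_congr (pvcl_ret_map (β := β) hα η h ρ x) (pvcl_big_map (β := β) hα η a x))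
  unfold pvclMass
  by_cases hx : pvqTag (DelTri (cfSites η)) (cfCol η) x ∧ pvclRet η ρ x ∧ pvclBig η a x
  · rw [if_pos hx, if_pos (hc.2 hx), pvcv_sum_WQ hα η h, pvcv_card hα, pvcv_ofReal_sq, mul_div_assoc]
  · rw [if_neg hx, if_neg (fun h' => hx (hc.1 h')), mul_zero]

/-- **covariance of `M`** under every similarity -/
theorem pvcl_M_map {α β : ℂ} (hα : α ≠ 0) (η : Conf PvPt) (h : VorGP (cfSites η)) (ρ : ℝ≥0∞) (a : ℝ) :
    pvclM (ENNReal.ofReal ‖α‖ * ρ) (‖α‖ * a) (cfMap (vorSim α β) η) = ENNReal.ofReal (‖α‖ ^ 2) • (pvclM ρ a η).map (vorSim α β) :=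
  pvcv_sum_map hα (fun x => pvcl_mass_map hα η h ρ a x) (fun _ _ => rfl)

/-- (b) covariance under translations      (107: `pvcv_sum_map` with `vorSim 1 w`) -/
theorem pvcl_M_tr (ρ : ℝ≥0∞) (a ε : ℝ) (w : ℂ) : ∀ᵐ η ∂(pvP ε), pvclM ρ a (cfMap (fun z => z + w) η) = (pvclM ρ a η).map (fun z => z + w) := by
  filter_upwards [pvcv_gp_ae ε] with η h
  have := pvcl_M_map (α := 1) (β := w) one_ne_zero η h ρ a
  simpa [← pvcv_add_eq] using this

/-- (215) `pvclN` is the `N` of `S1P/Cov` with constant one -/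
theorem pvcl_N_eq_ce (η : Conf PvPt) : pvclN η = pvcvN 1 η := by
  unfold pvclN pvcvN pvcvNm
  simp only [one_mul]

theorem pvcl_N_tr (ε : ℝ) (w : ℂ) : ∀ᵐ η ∂(pvP ε), pvclN (cfMap (fun z => z + w) η) = (pvclN η).map (fun z => z + w) := by
  filter_upwards [pvcv_N_cov_ae 1 ε w] with η hη
  rw [pvcl_N_eq_ce, pvcl_N_eq_ce, hη]

/-- (215) the diameter condition under a dilation -/
theorem pvcl_big_sc (a : ℝ) {c : ℝ} (hc : 0 < c) (η : Conf PvPt) (x : ℂ × ℂ) :
    pvclBig (cfMap (vorSim (c : ℂ) 0) η) (c * a) (Prod.map (vorSim (c : ℂ) 0) (vorSim (c : ℂ) 0) x) ↔ pvclBig η a x := by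
  have hc' : (c : ℂ) ≠ 0 := by exact_mod_cast hc.ne'
  have key : ∀ y y' : ℂ × ℂ, (c * a ≤ ‖(Prod.map (vorSim (c : ℂ) 0) (vorSim (c : ℂ) 0) y).1 - (Prod.map (vorSim (c : ℂ) 0) (vorSim (c : ℂ) 0) y').1‖) ↔ a ≤ ‖y.1 - y'.1‖ := by
    intro y y'
    have e : (Prod.map (vorSim (c : ℂ) 0) (vorSim (c : ℂ) 0) y).1 - (Prod.map (vorSim (c : ℂ) 0) (vorSim (c : ℂ) 0) y').1 = (c : ℂ) * (y.1 - y'.1) := by
      simp only [Prod.map_fst, vorSim]; ring
    rw [e, norm_mul, Complex.norm_real, Real.norm_of_nonneg hc.le]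
    exact mul_le_mul_iff_right₀ hc
  unfold pvclBig
  constructor
  · rintro ⟨y, y', h1, h2, h3⟩
    rw [pvq_nat_same (pvcv_nat_cf hc' η), pvcv_col_comp hc'] at h1 h2
    obtain ⟨z, rfl, hz⟩ := h1
    obtain ⟨z', rfl, hz'⟩ := h2
    exact ⟨z, z', hz, hz', (key z z').1 h3⟩
  · rintro ⟨z, z', hz, hz', h3⟩
    exact ⟨_, _, (pvcv_same hc' η x z).2 hz, (pvcv_same hc' η x z').2 hz', (key z z').2 h3⟩

/-- (215) the shares are homogeneous of degree two -/
theorem pvcl_mass_sc (a : ℝ) {c : ℝ} (hc : 0 < c) (η : Conf PvPt) (h : VorGP (cfSites η)) (x : ℂ × ℂ) :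
    pvclMass (cfMap (vorSim (c : ℂ) 0) η) ⊤ (c * a) (Prod.map (vorSim (c : ℂ) 0) (vorSim (c : ℂ) 0) x) = ENNReal.ofReal (c ^ 2) * pvclMass η ⊤ a x := by
  have hc' : (c : ℂ) ≠ 0 := by exact_mod_cast hc.ne'
  have hret : ∀ (η' : Conf PvPt) (x' : ℂ × ℂ), pvclRet η' ⊤ x' := fun _ _ _ _ => le_top
  unfold pvclMass
  by_cases hx : pvqTag (DelTri (cfSites η)) (cfCol η) x ∧ pvclRet η ⊤ x ∧ pvclBig η a x
  · rw [if_pos hx, if_pos ⟨(pvcv_tag hc' η x).2 hx.1, hret _ _, (pvcl_big_sc a hc η x).2 hx.2.2⟩, pvcv_sum_WQ hc' η h, pvcv_card hc', pvcv_ofReal_sq,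
      Complex.norm_real, Real.norm_of_nonneg hc.le, mul_div_assoc]
  · rw [if_neg hx, if_neg (fun h' => hx ⟨(pvcv_tag hc' η x).1 h'.1, hret _ _, (pvcl_big_sc a hc η x).1 h'.2.2⟩), mul_zero]

/-- (b) homogeneity      (107: `pvcv_sum_map` with `vorSim c 0`) -/
theorem pvcl_M_sc (a ε : ℝ) {c : ℝ} (hc : 0 < c) :
    ∀ᵐ η ∂(pvP ε), pvclM ⊤ (c * a) (cfMap (fun z => c • z) η) = ENNReal.ofReal (c ^ 2) • (pvclM ⊤ a η).map (fun z => c • z) := by
  filter_upwards [pvcv_gp_ae ε] with η hη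
  have hc' : (c : ℂ) ≠ 0 := by exact_mod_cast hc.ne'
  rw [pvcv_smul_eq]
  exact pvcv_sum_map hc' (fun x => pvcl_mass_sc a hc η hη x) (fun x _ => rfl)

/-- (215) `∀` over a label, in index code -/
theorem pvcl_code_forall (ω : PVSample) {p : DelgpIx × DelgpIx} (hp : pvcdPri2 ω p) (P : ℂ × ℂ → Prop) :
    (∀ y, pvqSame (DelTri (cfSites (pvConf ω))) (cfCol (pvConf ω)) (pvcdW ω p) y → P y) ↔ ∀ q, pvqSame (pvcdTr ω) (pvcdCol ω) p q → P (pvcdW ω q) := by
  have e := Set.ext_iff.1 (pvcd_code_same_set ω hp)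
  constructor
  · intro H q hq
    exact H _ ((e _).2 ⟨q, hq, rfl⟩)
  · intro H y hy
    obtain ⟨q, hq, rfl⟩ := (e y).1 hy
    exact H q hq

/-- (215) measurability of the label relation in index code -/
theorem pvcl_code_meas_same (p q : DelgpIx × DelgpIx) : Measurable fun ω => pvqSame (pvcdTr ω) (pvcdCol ω) p q :=
  measurableSet_setOfPred.1 (pvcd_meas_same pvcdTr pvcdCol pvcd_meas_Tr pvcd_measurable_Col p q)

open Classical in
/-- (215) the share of a tag, in index code -/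
noncomputable def pvclMassI (ρ : ℝ≥0∞) (a : ℝ) (p : DelgpIx × DelgpIx) (ω : PVSample) : ℝ≥0∞ :=
  if pvqTag (pvcdTr ω) (pvcdCol ω) p ∧ (∀ q, pvqSame (pvcdTr ω) (pvcdCol ω) p q → ENNReal.ofReal ‖pvcdBar ω q - delgpW ω p.1‖ ≤ ρ) ∧
      (∃ q q', pvqSame (pvcdTr ω) (pvcdCol ω) p q ∧ pvqSame (pvcdTr ω) (pvcdCol ω) p q' ∧ a ≤ ‖delgpW ω q.1 - delgpW ω q'.1‖) then
    ENNReal.ofReal (‖pvqSum (pvcdTr ω) (pvcdCol ω) (pvcdWQ ω) p‖ ^ 2) / (pvqCard (pvcdTr ω) (pvcdCol ω) p : ℝ≥0∞) else 0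

theorem pvcl_massI_cite : True := by
  have := @pvclMassI.eq_1
  trivial

/-- (215) -/
theorem pvcl_massI_meas (ρ : ℝ≥0∞) (a : ℝ) (p : DelgpIx × DelgpIx) : Measurable (pvclMassI ρ a p) := by
  unfold pvclMassI
  refine Measurable.ite ?_ ?_ measurable_const
  · refine measurableSet_setOfPred.2 (Measurable.and ?_ (Measurable.and ?_ ?_))
    · exact measurableSet_setOfPred.1 (pvcd_meas_tag pvcdTr pvcdCol pvcd_meas_Tr pvcd_measurable_Col p)
    · refine Measurable.forall fun q => (pvcl_code_meas_same p q).imp ?_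
      refine measurableSet_setOfPred.1 (measurableSet_le ?_ measurable_const)
      exact ((pvcd_measurable_Bar q).sub (delgp_measurable_W p.1)).norm.ennreal_ofReal
    · refine Measurable.exists fun q => Measurable.exists fun q' => (pvcl_code_meas_same p q).and ((pvcl_code_meas_same p q').and ?_)
      refine measurableSet_setOfPred.1 (measurableSet_le measurable_const ?_)
      exact ((delgp_measurable_W q.1).sub (delgp_measurable_W q'.1)).norm
  · refine Measurable.div ?_ ?_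
    · exact ((pvcd_measurable_sum pvcdTr pvcdCol pvcd_meas_Tr pvcd_measurable_Col pvcdWQ (fun y => pvcd_measurable_WQ y) p).norm.pow_const 2).ennreal_ofReal
    · exact pvcd_measurable_card pvcdTr pvcdCol pvcd_meas_Tr pvcd_measurable_Col (fun n : ℕ∞ => (n : ℝ≥0∞)) p

/-- (215) the dictionary for the share -/
theorem pvcl_massI_eq (ρ : ℝ≥0∞) (a : ℝ) {ω : PVSample} (hω : DelgpCf (pvConf ω)) {p : DelgpIx × DelgpIx} (hp : pvcdPri2 ω p) :
    pvclMass (pvConf ω) ρ a (pvcdW ω p) = pvclMassI ρ a p ω := by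
  have hgp := hω.gp
  have e := Set.ext_iff.1 (pvcd_code_same_set ω hp)
  have c1 := pvcd_code_tag ω hp
  have c2 : pvclRet (pvConf ω) ρ (pvcdW ω p) ↔ ∀ q, pvqSame (pvcdTr ω) (pvcdCol ω) p q → ENNReal.ofReal ‖pvcdBar ω q - delgpW ω p.1‖ ≤ ρ := by
    unfold pvclRet
    rw [pvcl_code_forall ω hp]
    refine forall_congr' fun q => imp_congr_right fun hq => ?_
    rw [pvcd_Bar_eq hgp (pvcd_same_pri2 hq)]
    rfl
  have c3 : pvclBig (pvConf ω) a (pvcdW ω p) ↔
      ∃ q q', pvqSame (pvcdTr ω) (pvcdCol ω) p q ∧ pvqSame (pvcdTr ω) (pvcdCol ω) p q' ∧ a ≤ ‖delgpW ω q.1 - delgpW ω q'.1‖ := by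
    unfold pvclBig
    constructor
    · rintro ⟨y, y', h1, h2, h3⟩
      obtain ⟨q, hq, rfl⟩ := (e y).1 h1
      obtain ⟨q', hq', rfl⟩ := (e y').1 h2
      exact ⟨q, q', hq, hq', h3⟩
    · rintro ⟨q, q', hq, hq', h3⟩
      exact ⟨pvcdW ω q, pvcdW ω q', (e _).2 ⟨q, hq, rfl⟩, (e _).2 ⟨q', hq', rfl⟩, h3⟩
  classical
  unfold pvclMass pvclMassI
  rw [pvcd_code_sum_WQ hgp hp, pvcd_code_card ω hp]
  exact if_congr (and_congr c1 (and_congr c2 c3)) rfl rfl

/-- (215) the shares live on the pairs of sites -/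
theorem pvcl_mass_supp (η : Conf PvPt) (ρ : ℝ≥0∞) (a : ℝ) (x : ℂ × ℂ) (h : pvclMass η ρ a x ≠ 0) : x.1 ∈ cfSites η ∧ x.2 ∈ cfSites η := by
  unfold pvclMass at h
  split_ifs at h with hc
  · obtain ⟨c, ht, -⟩ := hc.1
    exact ⟨ht.1, ht.2.1⟩
  · exact absurd rfl h

/-- (e) measurability      (286, `S1P/Code.lean`) -/
theorem pvcl_M_aem (ρ : ℝ≥0∞) (a ε : ℝ) {B : Set ℂ} (hB : MeasurableSet B) : AEMeasurable (fun η => pvclM ρ a η B) (pvP ε) := by
  exact pvcd_aemeasurable_sum (fun η x => pvclMass η ρ a x) (fun _ x => x.1) (fun η x h => pvcl_mass_supp η ρ a x h) (pvclMassI ρ a) (fun p ω => delgpW ω p.1)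
    (pvcl_massI_meas ρ a) (fun p => delgp_measurable_W p.1) (fun ω hω p hp => pvcl_massI_eq ρ a hω hp) (fun _ _ _ _ => rfl) hB ε

theorem pvcl_N_aem (ε : ℝ) {B : Set ℂ} (hB : MeasurableSet B) : AEMeasurable (fun η => pvclN η B) (pvP ε) := by
  classical
  refine pvcd_aemeasurable_sum (fun η x => if ∃ c, DelTri (cfSites η) x.1 x.2 c then ENNReal.ofReal (‖pvqWQ (cfSites η) x‖ ^ 2) else 0)
    (fun η x => pvqBar (cfSites η) x) ?_ (fun p ω => if ∃ k, pvcdTr ω p.1 p.2 k then ENNReal.ofReal (‖pvcdWQ ω p‖ ^ 2) else 0) (fun p ω => pvcdBar ω p)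
    ?_ (fun p => pvcd_measurable_Bar p) ?_ (fun ω hω p hp => pvcd_Bar_eq hω.gp hp) hB ε
  · intro η x h
    split_ifs at h with hc
    · obtain ⟨c, ht⟩ := hc
      exact ⟨ht.1, ht.2.1⟩
    · exact absurd rfl h
  · intro p
    refine Measurable.ite ?_ ((pvcd_measurable_WQ p).norm.pow_const 2).ennreal_ofReal measurable_const
    exact measurableSet_setOfPred.2 (Measurable.exists fun k => measurableSet_setOfPred.1 (pvcd_meas_Tr p.1 p.2 k))
  · intro ω hω p hp
    have c : (∃ c, DelTri (cfSites (pvConf ω)) (pvcdW ω p).1 (pvcdW ω p).2 c) ↔ ∃ k, pvcdTr ω p.1 p.2 k := by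
      constructor
      · rintro ⟨c, hc⟩
        obtain ⟨k, hk, rfl⟩ := (pvcd_natOn ω).rng _ hp.1 _ hp.2 c hc
        exact ⟨k, hp.1, hp.2, hk, hc⟩
      · rintro ⟨k, hk⟩
        exact ⟨delgpW ω k, hk.2.2.2⟩
    show (if ∃ c, DelTri (cfSites (pvConf ω)) (pvcdW ω p).1 (pvcdW ω p).2 c then ENNReal.ofReal (‖pvqWQ (cfSites (pvConf ω)) (pvcdW ω p)‖ ^ 2) else 0) = _
    rw [pvcd_WQ_eq hω.gp hp]
    exact if_congr c rfl rfl

theorem pvcl_sum_aem (ε : ℝ) {B : Set ℂ} (hB : MeasurableSet B) (a : ℝ) : AEMeasurable (fun η => pvclSum η B a) (pvP ε) := by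
  classical
  have key := pvcd_aemeasurable_sum (fun η x => if pvclIn η B x then pvclMass η ⊤ a x else 0) (fun _ x => x.1)
    (fun η x h => by
      split_ifs at h with hc
      · exact pvcl_mass_supp η ⊤ a x h
      · exact absurd rfl h)
    (fun p ω => if ∀ q, pvqSame (pvcdTr ω) (pvcdCol ω) p q → delgpW ω q.1 ∈ B then pvclMassI ⊤ a p ω else 0) (fun p ω => delgpW ω p.1)
    (fun p => by
      refine Measurable.ite ?_ (pvcl_massI_meas ⊤ a p) measurable_const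
      refine measurableSet_setOfPred.2 (Measurable.forall fun q => (pvcl_code_meas_same p q).imp ?_)
      exact measurableSet_setOfPred.1 (delgp_measurable_W q.1 hB))
    (fun p => delgp_measurable_W p.1)
    (fun ω hω p hp => by
      have c : pvclIn (pvConf ω) B (pvcdW ω p) ↔ ∀ q, pvqSame (pvcdTr ω) (pvcdCol ω) p q → delgpW ω q.1 ∈ B := by
        unfold pvclIn
        rw [pvcl_code_forall ω hp (fun y => y.1 ∈ B)]
        rfl
      show (if pvclIn (pvConf ω) B (pvcdW ω p) then pvclMass (pvConf ω) ⊤ a (pvcdW ω p) else 0) = _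
      rw [pvcl_massI_eq ⊤ a hω hp]
      exact if_congr c rfl rfl)
    (fun _ _ _ _ => rfl) MeasurableSet.univ ε
  refine key.congr (Eventually.of_forall fun η => ?_)
  show Measure.sum (fun x : ℂ × ℂ => (if pvclIn η B x then pvclMass η ⊤ a x else 0) • Measure.dirac x.1) Set.univ = pvclSum η B a
  rw [Measure.sum_apply _ MeasurableSet.univ]
  unfold pvclSum
  refine tsum_congr fun x => ?_
  rw [Measure.smul_apply, measure_univ, smul_eq_mul, mul_one]

/-! ### (e) measurability of the two sides of the annealed Bessel bound      (286) -/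

open Classical in
/-- the coded masked weight -/
noncomputable def pvclWI (W : Set ℂ) (p : DelgpIx × DelgpIx) (ω : PVSample) : ℂ := if (∃ k, pvcdTr ω p.1 p.2 k) ∧ pvcdBar ω p ∈ W then pvcdWQ ω p else 0

theorem pvcl_eqns_cite3 : True := by
  have := @pvclWI.eq_1
  trivial

theorem pvcl_measurable_WI {W : Set ℂ} (hW : MeasurableSet W) (p : DelgpIx × DelgpIx) : Measurable (pvclWI W p) := by
  unfold pvclWI
  exact Measurable.ite ((pvcd_meas_live p).inter (pvcd_measurable_Bar p hW)) (pvcd_measurable_WQ p) measurable_const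

theorem pvcl_W_code {ω : PVSample} (hω : DelgpCf (pvConf ω)) {p : DelgpIx × DelgpIx} (hp : pvcdPri2 ω p) (W : Set ℂ) :
    pvclW (cfSites (pvConf ω)) W (pvcdW ω p) = pvclWI W p ω := by
  unfold pvclW pvclWI
  rw [pvcd_WQ_eq hω.gp hp, pvcd_Bar_eq hω.gp hp]
  have e := pvcd_code_live ω hp
  by_cases h : (∃ k, pvcdTr ω p.1 p.2 k) ∧ pvcdBar ω p ∈ W
  · rw [if_pos h, if_pos ⟨e.2 h.1, h.2⟩]
  · rw [if_neg h, if_neg fun h' => h ⟨e.1 h'.1, h'.2⟩]

theorem pvcl_W_sites {Y W : Set ℂ} {x : ℂ × ℂ} (h : pvclW Y W x ≠ 0) : x.1 ∈ Y ∧ x.2 ∈ Y := by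
  unfold pvclW at h
  split_ifs at h with h1
  · exact pvcd_live_sites h1.1
  · exact absurd rfl h

/-- (e) the two sides of the annealed Bessel bound are a.e. measurable -/
theorem pvcl_bes_aem (ε : ℝ) {W : Set ℂ} (hW : MeasurableSet W) : AEMeasurable (fun η => pvclBes η W) (pvP ε) := by
  classical
  unfold pvclBes
  refine pvcd_aemeasurable_tsum _ ?_ (pvcdMassI (fun _ => univ) (pvclWI W)) (pvcd_measurable_massI (fun _ => MeasurableSet.univ) (pvcl_measurable_WI hW)) ?_ ε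
  · intro η x h
    split_ifs at h with h1
    · exact pvcd_tag_sites h1
    · exact absurd rfl h
  · intro ω hω p hp
    rw [← pvcd_mass_eq hp True (pvclW (cfSites (pvConf ω)) W) (by simp) fun q hq => pvcl_W_code hω hq W]
    simp only [and_true]

theorem pvcl_W_aem (ε : ℝ) {W : Set ℂ} (hW : MeasurableSet W) : AEMeasurable (fun η => ∑' x : ℂ × ℂ, ENNReal.ofReal (‖pvclW (cfSites η) W x‖ ^ 2)) (pvP ε) := by
  refine pvcd_aemeasurable_tsum (fun η x => ENNReal.ofReal (‖pvclW (cfSites η) W x‖ ^ 2)) ?_ (fun p ω => ENNReal.ofReal (‖pvclWI W p ω‖ ^ 2))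
    (fun p => ((pvcl_measurable_WI hW p).norm.pow_const 2).ennreal_ofReal) ?_ ε
  · intro η x h
    refine pvcl_W_sites (W := W) fun h0 => h ?_
    simp only [h0, norm_zero, ne_eq, OfNat.ofNat_ne_zero, not_false_eq_true, zero_pow, ENNReal.ofReal_zero]
  · intro ω hω p hp
    simp only [pvcl_W_code hω hp]

/-- (134) the orthogonality in infinite volume holds for almost every geometry -/
theorem pvcl_inv {ε : ℝ} (hε : 0 < ε) : PvqInv ε := by
  filter_upwards [pvqf_fin_quenched' hε] with b hb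
  obtain ⟨h, hf⟩ := hb
  have := pvqf_countable_D h
  exact ⟨h, pvf_orth_inf (delp_isSph h) hf⟩

/-- (134) finitely many live darts have their barycentre in a bounded set -/
theorem pvcl_W_finite {Y : Set ℂ} (h : DelGood Y) {W : Set ℂ} (hWb : Bornology.IsBounded W) : {x | pvclW Y W x ≠ 0}.Finite := by
  obtain ⟨M, hM⟩ := hWb.subset_closedBall (0 : ℂ)
  choose R hR using plg_del_near h
  obtain ⟨t, -, ht⟩ := (isCompact_closedBall (0 : ℂ) M).elim_nhds_subcover (fun p => Metric.closedBall p (1 / 4))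
    (fun p _ => Metric.closedBall_mem_nhds p (by norm_num))
  refine (t.finite_toSet.biUnion fun p _ => (h.lf (R p)).prod (h.lf (R p))).subset ?_
  intro x hx
  have hx' : (∃ c, DelTri Y x.1 x.2 c) ∧ pvqBar Y x ∈ W := by
    by_contra hn
    exact hx (by unfold pvclW; rw [if_neg hn])
  obtain ⟨⟨c, hc⟩, hb⟩ := hx'
  have hbar : pvqBar Y x = delBar x.1 x.2 c := by unfold pvqBar delBar; rw [del_apex_eq h.gp hc]
  have hmem : delBar x.1 x.2 c ∈ delT x.1 x.2 c := dela_open_subset _ _ _ (dela_bar_mem hc.left)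
  obtain ⟨p, hp, hq⟩ := mem_iUnion₂.1 (ht (hM hb))
  rw [hbar, Metric.mem_closedBall, dist_eq_norm] at hq
  obtain ⟨r1, r2, -⟩ := hR p _ _ _ _ hc hmem hq
  exact mem_iUnion₂.2 ⟨p, hp, ⟨hc.1, mem_closedBall_zero_iff.2 r1⟩, ⟨hc.2.1, mem_closedBall_zero_iff.2 r2⟩⟩

theorem pvcl_qq_rot (a b c : ℂ) : pvqq b c a = (starRingEnd ℂ) pvOm * pvqq a b c := by
  unfold pvqq
  have h1 := pvOm_mul_conj
  have h2 := pvOm_conj_sq
  linear_combination (-(b - c) / 3) * h1 + (-(c - a) / 3) * h2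

/-- (134) the masked weight is covariant under the rotation of a face -/
theorem pvcl_W_cov {Y : Set ℂ} (hY : VorGP Y) (W : Set ℂ) {a b c : ℂ} (h : DelTri Y a b c) :
    pvclW Y W (b, c) = (starRingEnd ℂ) pvOm * pvclW Y W (a, b) := by
  have h' := del_tri_cyc h
  have e1 : delApex Y a b = c := del_apex_eq hY h
  have e2 : delApex Y b c = a := del_apex_eq hY h'
  have hb : pvqBar Y (b, c) = pvqBar Y (a, b) := by
    unfold pvqBar
    simp only [e1, e2]
    ring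
  have hq : pvqWQ Y (b, c) = (starRingEnd ℂ) pvOm * pvqWQ Y (a, b) := by
    unfold pvqWQ
    simp only [e1, e2]
    exact pvcl_qq_rot a b c
  unfold pvclW
  by_cases hW : pvqBar Y (a, b) ∈ W
  · rw [if_pos ⟨⟨a, h'⟩, hb ▸ hW⟩, if_pos ⟨⟨c, h⟩, hW⟩, hq]
  · rw [if_neg (fun hn => hW (hb ▸ hn.2)), if_neg (fun hn => hW hn.2), mul_zero]

/-- (d) **annealed Bessel bound with a deterministic mask**      (244, `S1P/Ann.lean` (4) with `w Y = pvclW Y W`; the constant `1/4` is not needed) -/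
theorem pvcl_bessel {W : Set ℂ} (hW : MeasurableSet W) (hWb : Bornology.IsBounded W) : ∫⁻ η, pvclBes η W ∂(pvP 1) ≤ ∫⁻ η, pvclN η W ∂(pvP 1) := by
  classical
  set w : Set ℂ → ℂ × ℂ → ℂ := fun Y => if VorGP Y then pvclW Y W else 0 with hw
  have hgp : ∀ᵐ η ∂(pvP 1), VorGP (cfSites η) := pvcv_gp_ae 1
  have e1 : ∀ η, VorGP (cfSites η) → pvqEn (cfSites η) (cfCol η) (w (cfSites η)) = pvclBes η W := by
    intro η h
    simp only [hw, if_pos h]
    rfl
  have e2 : ∀ η, VorGP (cfSites η) → ∑' x, ENNReal.ofReal (‖w (cfSites η) x‖ ^ 2) = pvclN η W := by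
    intro η h
    rw [pvcl_N_apply η hW]
    refine tsum_congr fun x => ?_
    simp only [hw, if_pos h]
    unfold pvclW
    by_cases h1 : ∃ c, DelTri (cfSites η) x.1 x.2 c
    · by_cases h2 : pvqBar (cfSites η) x ∈ W
      · rw [if_pos ⟨h1, h2⟩, if_pos h1, indicator_of_mem h2, Pi.one_apply, mul_one]
      · rw [if_neg (fun hn => h2 hn.2), indicator_of_notMem h2, mul_zero]
        simp
    · rw [if_neg (fun hn => h1 hn.1), if_neg h1, zero_mul]
      simp
  have hcov : ∀ Y a b c, DelTri Y a b c → w Y (b, c) = (starRingEnd ℂ) pvOm * w Y (a, b) := by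
    intro Y a b c h
    by_cases hY : VorGP Y
    · simp only [hw, if_pos hY]
      exact pvcl_W_cov hY W h
    · simp only [hw, if_neg hY, Pi.zero_apply, mul_zero]
  have hlive : ∀ Y x, w Y x ≠ 0 → DelAdj Y x.1 x.2 := by
    intro Y x hx
    by_cases hY : VorGP Y
    · simp only [hw, if_pos hY] at hx
      have hx' : (∃ c, DelTri Y x.1 x.2 c) ∧ pvqBar Y x ∈ W := by
        by_contra hn
        exact hx (by unfold pvclW; rw [if_neg hn])
      obtain ⟨⟨c, hc⟩, -⟩ := hx'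
      exact hc.adj
    · simp only [hw, if_neg hY, Pi.zero_apply, ne_eq, not_true_eq_false] at hx
  have hfin : ∀ Y, DelGood Y → {x | w Y x ≠ 0}.Finite := by
    intro Y h
    simp only [hw, if_pos h.gp]
    exact pvcl_W_finite h hWb
  have hM : AEMeasurable (fun η => pvqEn (cfSites η) (cfCol η) (w (cfSites η))) (pvP 1) :=
    (pvcl_bes_aem 1 hW).congr (hgp.mono fun η h => (e1 η h).symm)
  have hN : AEMeasurable (fun η => ∑' x, ENNReal.ofReal (‖w (cfSites η) x‖ ^ 2)) (pvP 1) :=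
    (pvcl_N_aem 1 hW).congr (hgp.mono fun η h => (e2 η h).symm)
  have hfin' : ∀ᵐ η ∂(pvP 1), {x | w (cfSites η) x ≠ 0}.Finite := by
    filter_upwards [pvq_live_fin_ae one_pos] with η hη
    refine (hη W hWb).subset fun x hx => ?_
    by_contra hn
    apply hx
    by_cases hY : VorGP (cfSites η)
    · simp only [hw, if_pos hY]
      unfold pvclW
      exact if_neg hn
    · simp only [hw, if_neg hY, Pi.zero_apply]
  have main := pvq_ann (pvcl_inv one_pos) PvMap.pvfo_om_conj_mul PvMap.pvfo_om_conj_ne_one w (fun Y _ => hcov Y) (fun Y _ => hlive Y) hfin' hM hN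
  rw [lintegral_congr_ae (hgp.mono e1), lintegral_congr_ae (hgp.mono e2)] at main
  refine main.trans ?_
  calc (4 : ℝ≥0∞)⁻¹ * ∫⁻ η, pvclN η W ∂(pvP 1) ≤ 1 * ∫⁻ η, pvclN η W ∂(pvP 1) := by
        gcongr
        exact ENNReal.inv_le_one.2 (by norm_num)
    _ = _ := one_mul _

/-- (F) **finite second moment of the triangles**      (107, `pvcv_theta_fin`) -/
theorem pvcl_N_fin : ∫⁻ η, pvclN η pvmsU ∂(pvP 1) ≠ ∞ := by
  simp only [pvcl_N_eq_ce]
  exact pvcv_N_fin ENNReal.one_ne_top one_pos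

/-! ## 3. the closed-sum tail -/

/-- the intensity of the retained labels is bounded by the intensity of the triangles -/
theorem pvcl_ret_le (n : ℕ) : ∫⁻ η, pvclM (ENNReal.ofReal n) 0 η pvmsU ∂(pvP 1) ≤ ∫⁻ η, pvclN η pvmsU ∂(pvP 1) := by
  refine pvms_collar (τ := fun a => cfMap fun z => z + a) (M := pvclM (ENNReal.ofReal n) 0) (N := pvclN) (s := n)
    (fun B hB => pvcl_M_aem _ _ _ hB) (fun B hB => pvcl_N_aem _ hB) (pvms_tr 1) (fun a => pvcl_M_tr _ _ _ a) (fun a => pvcl_N_tr _ a)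
    pvcl_N_fin (Nat.cast_nonneg n) fun R _ => ?_
  have hb : Bornology.IsBounded (pvmR (-(n : ℝ)) (R + n) (-(n : ℝ)) (R + n)) := by
    refine (Metric.isBounded_closedBall (x := (0 : ℂ)) (r := 2 * ((R : ℝ) + n))).subset fun z hz => ?_
    have hR : (0 : ℝ) ≤ R := Nat.cast_nonneg R
    have hn : (0 : ℝ) ≤ n := Nat.cast_nonneg n
    rw [mem_closedBall_zero_iff]
    refine (Complex.norm_le_abs_re_add_abs_im z).trans ?_
    have h1 : |z.re| ≤ R + n := abs_le.2 ⟨by linarith [hz.1.1], hz.1.2.le⟩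
    have h2 : |z.im| ≤ R + n := abs_le.2 ⟨by linarith [hz.2.1], hz.2.2.le⟩
    linarith
  refine le_trans ?_ (pvcl_bessel (pvm_R_meas _ _ _ _) hb)
  refine lintegral_mono fun η => pvcl_M_le_bes _ (Nat.cast_nonneg n) (pvm_R_meas _ _ _ _) fun z hz w hw => ?_
  have h1 := (Complex.abs_re_le_norm (w - z)).trans hw
  have h2 := (Complex.abs_im_le_norm (w - z)).trans hw
  rw [Complex.sub_re, abs_le] at h1
  rw [Complex.sub_im, abs_le] at h2
  exact ⟨⟨by linarith [hz.1.1, h1.1], by linarith [hz.1.2, h1.2]⟩, ⟨by linarith [hz.2.1, h2.1], by linarith [hz.2.2, h2.2]⟩⟩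

/-- finite intensity of `∑_λ |Q_λ(1)|²` -/
theorem pvcl_M_fin : pvmsTh (pvclM ⊤ 0) 1 ≠ ∞ := by
  have h : pvmsTh (pvclM ⊤ 0) 1 ≤ ∫⁻ η, pvclN η pvmsU ∂(pvP 1) := by
    unfold pvmsTh
    simp_rw [pvcl_M_iSup _ 0 pvms_U_meas]
    rw [lintegral_iSup' (fun n => pvcl_M_aem _ _ _ pvms_U_meas)
      (Eventually.of_forall fun η n m hnm => pvcl_M_mono_ret _ (ENNReal.ofReal_le_ofReal (by exact_mod_cast hnm)) 0 pvms_U_meas)]
    exact iSup_le pvcl_ret_le
  exact ne_top_of_le_ne_top pvcl_N_fin h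

/-- **TEX[fields:closed-prop] for the random measure** -/
theorem pvcl_tail {a : ℝ} (ha : 0 < a) {B : Set ℂ} (hB : MeasurableSet B) (hBfin : volume B ≠ ∞) :
    Tendsto (fun ε => ∫⁻ η, pvclM ⊤ a η B ∂(pvP ε)) (𝓝[>] 0) (𝓝 0) := by
  refine pvms_tail (M := pvclM ⊤) (fun D ε _ B hB => pvcl_M_aem _ _ _ hB) (fun D w => pvcl_M_tr _ _ _ w)
    (fun D c hc => pvcl_M_sc D 1 hc) (fun D hD => Eventually.of_forall fun η => pvcl_M_anti _ _ hD pvms_U_meas) pvcl_M_fin ?_ ha hB hBfin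
  have h := ae_lt_top' (pvcl_M_aem ⊤ 0 1 pvms_U_meas) pvcl_M_fin
  filter_upwards [h] with η hη
  exact pvcl_M_tail _ pvms_U_meas hη.ne

/-- **EXIT E7 = TEX[fields:closed-prop]**: the closed sums over the labels inside a bounded set, of diameter at least `a`, tend to zero in mean -/
theorem pvcl_closed {B : Set ℂ} (hB : Bornology.IsBounded B) {a : ℝ} (ha : 0 < a) :
    Tendsto (fun ε => ∫⁻ η, pvclSum η B a ∂(pvP ε)) (𝓝[>] 0) (𝓝 0) := by
  obtain ⟨R, hR⟩ := hB.subset_closedBall (0 : ℂ)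
  have hfin : volume (Metric.closedBall (0 : ℂ) R) ≠ ∞ := (isCompact_closedBall _ _).measure_lt_top.ne
  refine tendsto_of_tendsto_of_tendsto_of_le_of_le tendsto_const_nhds (pvcl_tail ha measurableSet_closedBall hfin) (fun _ => zero_le) fun ε => ?_
  exact lintegral_mono fun η => (pvcl_sum_mono _ hR a).trans (pvcl_sum_le_M _ measurableSet_closedBall a)

/-- **EXIT E7, in probability** -/
theorem pvcl_closed_prob {B : Set ℂ} (hB : Bornology.IsBounded B) (hBm : MeasurableSet B) {a τ : ℝ} (ha : 0 < a) (hτ : 0 < τ) :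
    Tendsto (fun ε => pvP ε {η | ENNReal.ofReal τ ≤ pvclSum η B a}) (𝓝[>] 0) (𝓝 0) := by
  have h := ENNReal.Tendsto.div_const (pvcl_closed hB ha) (b := ENNReal.ofReal τ) (Or.inr (by simpa using hτ))
  rw [ENNReal.zero_div] at h
  refine tendsto_of_tendsto_of_tendsto_of_le_of_le tendsto_const_nhds h (fun _ => zero_le) fun ε => ?_
  exact meas_ge_le_lintegral_div (pvcl_sum_aem ε hBm a) (by simpa using hτ) ENNReal.ofReal_ne_top

/-! ## 4. consumer forms -/

/-- `pvqSame` is symmetric and transitive on a good configuration -/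
theorem pvcl_same_symm {Y : Set ℂ} (h : DelGood Y) (s : ℂ → Bool) {x y : ℂ × ℂ} (hxy : pvqSame (DelTri Y) s x y) : pvqSame (DelTri Y) s y x := by
  obtain ⟨d, rfl⟩ := pvq_del_tag_code h s hxy.1
  obtain ⟨d', rfl⟩ := pvq_del_tag_code h s hxy.2.1
  rw [pvq_del_same'] at hxy ⊢
  exact PvMap.sameLab_symm _ _ hxy

theorem pvcl_same_trans {Y : Set ℂ} (h : DelGood Y) (s : ℂ → Bool) {x y z : ℂ × ℂ} (hxy : pvqSame (DelTri Y) s x y) (hyz : pvqSame (DelTri Y) s y z) :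
    pvqSame (DelTri Y) s x z := by
  obtain ⟨d, rfl⟩ := pvq_del_tag_code h s hxy.1
  obtain ⟨d', rfl⟩ := pvq_del_tag_code h s hxy.2.1
  obtain ⟨d'', rfl⟩ := pvq_del_tag_code h s hyz.2.1
  rw [pvq_del_same'] at hxy hyz ⊢
  exact PvMap.sameLab_trans _ _ hxy hyz

/-- the neighbours of a site are finitely many -/
theorem pvcl_adj_finite {Y : Set ℂ} (h : DelGood Y) (a : ℂ) : {b | DelAdj Y a b}.Finite := by
  obtain ⟨R, hR⟩ := (h.bdd a).subset_closedBall (0 : ℂ)
  refine (h.lf (2 * R + ‖a‖)).subset ?_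
  rintro b ⟨ha, hb, -, z, hza, hzb⟩
  refine ⟨hb, ?_⟩
  rw [mem_closedBall_zero_iff]
  have h1 : ‖z‖ ≤ R := by simpa using hR hza
  have h2 : ‖z - b‖ ≤ ‖z - a‖ := hzb a ha
  have h3 : ‖b‖ ≤ ‖z‖ + ‖z - b‖ := by
    have := norm_sub_le z (z - b)
    simpa using this
  have h4 : ‖z - a‖ ≤ ‖z‖ + ‖a‖ := norm_sub_le z a
  linarith

/-- a label with all its rim vertices in a bounded set is finite -/
theorem pvcl_lab_finite {η : Conf PvPt} (h : DelGood (cfSites η)) {B : Set ℂ} (hB : Bornology.IsBounded B) {x : ℂ × ℂ} (hx : pvclIn η B x) :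
    {y | pvqSame (DelTri (cfSites η)) (cfCol η) x y}.Finite := by
  obtain ⟨R, hR⟩ := hB.subset_closedBall (0 : ℂ)
  refine ((h.lf R).biUnion fun a _ => ((pvcl_adj_finite h a).image fun b => (a, b))).subset ?_
  intro q hq
  obtain ⟨k, hk, -⟩ := hq.2.1
  refine mem_iUnion₂.2 ⟨q.1, ⟨hk.1, hR (hx q hq)⟩, q.2, (del_tri_adj hk).1, rfl⟩

/-- class functions: the label of `y` is the label of `x` -/
theorem pvcl_same_congr {Y : Set ℂ} (h : DelGood Y) (s : ℂ → Bool) {x y : ℂ × ℂ} (hxy : pvqSame (DelTri Y) s x y) (z : ℂ × ℂ) :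
    pvqSame (DelTri Y) s y z ↔ pvqSame (DelTri Y) s x z :=
  ⟨fun hz => pvcl_same_trans h s hxy hz, fun hz => pvcl_same_trans h s (pvcl_same_symm h s hxy) hz⟩

open Classical in
/-- the shares of one finite label add up to `|Q_λ(1)|²` -/
theorem pvcl_lab_sum {η : Conf PvPt} (h : DelGood (cfSites η)) {B : Set ℂ} {a : ℝ} {x : ℂ × ℂ}
    (hx : pvqTag (DelTri (cfSites η)) (cfCol η) x) (hfin : {y | pvqSame (DelTri (cfSites η)) (cfCol η) x y}.Finite) (hin : pvclIn η B x) (hbig : pvclBig η a x) :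
    ∑ y ∈ hfin.toFinset, (if pvclIn η B y then pvclMass η ⊤ a y else 0) = ENNReal.ofReal (‖pvqSum (DelTri (cfSites η)) (cfCol η) (pvqWQ (cfSites η)) x‖ ^ 2) := by
  set Q := ENNReal.ofReal (‖pvqSum (DelTri (cfSites η)) (cfCol η) (pvqWQ (cfSites η)) x‖ ^ 2) with hQ
  have hcard : (pvqCard (DelTri (cfSites η)) (cfCol η) x : ℝ≥0∞) = (hfin.toFinset.card : ℝ≥0∞) := by
    unfold pvqCard
    rw [hfin.encard_eq_coe_toFinset_card]
    simp
  have hterm : ∀ y ∈ hfin.toFinset, (if pvclIn η B y then pvclMass η ⊤ a y else 0) = Q / (hfin.toFinset.card : ℝ≥0∞) := by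
    intro y hy
    have hxy : pvqSame (DelTri (cfSites η)) (cfCol η) x y := by simpa using hy
    have hc := pvcl_same_congr h (cfCol η) hxy
    have e1 : pvclIn η B y := fun z hz => hin z ((hc z).1 hz)
    have e2 : pvclBig η a y := by
      obtain ⟨u, v, hu, hv, huv⟩ := hbig
      exact ⟨u, v, (hc u).2 hu, (hc v).2 hv, huv⟩
    have e3 : pvclRet η ⊤ y := fun _ _ => le_top
    have e4 : pvqSum (DelTri (cfSites η)) (cfCol η) (pvqWQ (cfSites η)) y = pvqSum (DelTri (cfSites η)) (cfCol η) (pvqWQ (cfSites η)) x := by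
      unfold pvqSum
      refine finsum_congr fun z => ?_
      rw [propext (hc z)]
    have e5 : pvqCard (DelTri (cfSites η)) (cfCol η) y = pvqCard (DelTri (cfSites η)) (cfCol η) x := by
      unfold pvqCard
      congr 1
      ext z
      exact hc z
    rw [if_pos e1, pvclMass, if_pos ⟨hxy.2.1, e3, e2⟩, e4, e5, hcard]
  rw [Finset.sum_congr rfl hterm, Finset.sum_const, nsmul_eq_mul]
  have hne : (hfin.toFinset.card : ℝ≥0∞) ≠ 0 := by
    have : x ∈ hfin.toFinset := by simpa using pvcl_same_refl hx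
    have := Finset.card_pos.2 ⟨x, this⟩
    exact_mod_cast this.ne'
  exact ENNReal.mul_div_cancel hne (ENNReal.natCast_ne_top _)

/-- (A1) **RAW CONSUMER FORM**: one label inside `B` of diameter `≥ a` is bounded by the closed sum -/
theorem pvcl_le_sum {η : Conf PvPt} (h : DelGood (cfSites η)) {B : Set ℂ} (hB : Bornology.IsBounded B) {a : ℝ} {x : ℂ × ℂ}
    (hx : pvqTag (DelTri (cfSites η)) (cfCol η) x) (hin : pvclIn η B x) (hbig : pvclBig η a x) :
    ENNReal.ofReal (‖pvqSum (DelTri (cfSites η)) (cfCol η) (pvqWQ (cfSites η)) x‖ ^ 2) ≤ pvclSum η B a := by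
  classical
  rw [← pvcl_lab_sum h hx (pvcl_lab_finite h hB hin) hin hbig]
  exact ENNReal.sum_le_tsum _

/-- **RAW CONSUMER FORM FOR FAMILIES** (as used by TR23): pairwise different labels inside `B`, of diameter `≥ a` -/
theorem pvcl_sum_ge {η : Conf PvPt} (h : DelGood (cfSites η)) {B : Set ℂ} (hB : Bornology.IsBounded B) {a : ℝ} {ι : Type} (t : Finset ι) (x : ι → ℂ × ℂ)
    (hx : ∀ i ∈ t, pvqTag (DelTri (cfSites η)) (cfCol η) (x i)) (hin : ∀ i ∈ t, pvclIn η B (x i)) (hbig : ∀ i ∈ t, pvclBig η a (x i))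
    (hne : ∀ i ∈ t, ∀ j ∈ t, i ≠ j → ¬ pvqSame (DelTri (cfSites η)) (cfCol η) (x i) (x j)) :
    ∑ i ∈ t, ENNReal.ofReal (‖pvqSum (DelTri (cfSites η)) (cfCol η) (pvqWQ (cfSites η)) (x i)‖ ^ 2) ≤ pvclSum η B a := by
  classical
  have hfin : ∀ i, i ∈ t → {y | pvqSame (DelTri (cfSites η)) (cfCol η) (x i) y}.Finite := fun i hi => pvcl_lab_finite h hB (hin i hi)
  let L : ι → Finset (ℂ × ℂ) := fun i => if hi : i ∈ t then (hfin i hi).toFinset else ∅
  have hL : ∀ i (hi : i ∈ t), L i = (hfin i hi).toFinset := fun i hi => dif_pos hi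
  have hdis : (t : Set ι).PairwiseDisjoint L := by
    intro i hi j hj hij
    rw [Function.onFun, Finset.disjoint_left]
    intro y hyi hyj
    rw [hL i hi] at hyi
    rw [hL j hj] at hyj
    have h1 : pvqSame (DelTri (cfSites η)) (cfCol η) (x i) y := by simpa using hyi
    have h2 : pvqSame (DelTri (cfSites η)) (cfCol η) (x j) y := by simpa using hyj
    exact hne i hi j hj hij (pvcl_same_trans h _ h1 (pvcl_same_symm h _ h2))
  calc ∑ i ∈ t, ENNReal.ofReal (‖pvqSum (DelTri (cfSites η)) (cfCol η) (pvqWQ (cfSites η)) (x i)‖ ^ 2)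
      = ∑ i ∈ t, ∑ y ∈ L i, (if pvclIn η B y then pvclMass η ⊤ a y else 0) := by
        refine Finset.sum_congr rfl fun i hi => ?_
        rw [hL i hi, pvcl_lab_sum h (hx i hi) (hfin i hi) (hin i hi) (hbig i hi)]
    _ = ∑ y ∈ t.biUnion L, (if pvclIn η B y then pvclMass η ⊤ a y else 0) := (Finset.sum_biUnion hdis).symm
    _ ≤ pvclSum η B a := ENNReal.sum_le_tsum _

/-- the same for a countable (or any) family -/
theorem pvcl_tsum_ge {η : Conf PvPt} (h : DelGood (cfSites η)) {B : Set ℂ} (hB : Bornology.IsBounded B) {a : ℝ} {ι : Type} (x : ι → ℂ × ℂ)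
    (hx : ∀ i, pvqTag (DelTri (cfSites η)) (cfCol η) (x i)) (hin : ∀ i, pvclIn η B (x i)) (hbig : ∀ i, pvclBig η a (x i))
    (hne : ∀ i j, i ≠ j → ¬ pvqSame (DelTri (cfSites η)) (cfCol η) (x i) (x j)) :
    ∑' i, ENNReal.ofReal (‖pvqSum (DelTri (cfSites η)) (cfCol η) (pvqWQ (cfSites η)) (x i)‖ ^ 2) ≤ pvclSum η B a := by
  rw [ENNReal.tsum_eq_iSup_sum]
  exact iSup_le fun t => pvcl_sum_ge h hB t x (fun i _ => hx i) (fun i _ => hin i) (fun i _ => hbig i) fun i _ j _ hij => hne i j hij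

/-- **CONSUMER FORM** in the vocabulary of record -/
theorem pvcl_le_sum_del {η : Conf PvPt} (h : DelGood (cfSites η)) {B : Set ℂ} (hB : Bornology.IsBounded B) {a : ℝ} {d : (delPl h).Dart}
    (hd : (delPl h).toMap.Tag (cfCol η ∘ Subtype.val) d)
    (hin : ∀ d', (delPl h).toMap.SameLab (cfCol η ∘ Subtype.val) d d' → (((delPl h).toMap.src d' : ↥(cfSites η)) : ℂ) ∈ B)
    (hbig : ∃ d' d'', (delPl h).toMap.SameLab (cfCol η ∘ Subtype.val) d d' ∧ (delPl h).toMap.SameLab (cfCol η ∘ Subtype.val) d d'' ∧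
      a ≤ ‖(((delPl h).toMap.src d' : ↥(cfSites η)) : ℂ) - (((delPl h).toMap.src d'' : ↥(cfSites η)) : ℂ)‖) :
    ENNReal.ofReal (‖(delPl h).toMap.lsum (cfCol η ∘ Subtype.val) ((delPl h).toMap.qpart Subtype.val) d‖ ^ 2) ≤ pvclSum η B a := by
  have e : (delPl h).toMap.lsum (cfCol η ∘ Subtype.val) ((delPl h).toMap.qpart Subtype.val) d
      = pvqSum (DelTri (cfSites η)) (cfCol η) (pvqWQ (cfSites η)) (pvqCode d) := by
    rw [pvq_del_sum]
    congr 1
    funext d'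
    exact (pvq_del_qpart h d').symm
  rw [e]
  refine pvcl_le_sum h hB ((pvq_del_tag h _ d).2 hd) (fun y hy => ?_) ?_
  · obtain ⟨d', rfl, hd'⟩ := (pvq_del_same h _ d y).1 hy
    exact hin d' hd'
  · obtain ⟨d', d'', h1, h2, h3⟩ := hbig
    exact ⟨pvqCode d', pvqCode d'', (pvq_del_same' h _ d d').2 h1, (pvq_del_same' h _ d d'').2 h2, h3⟩

end Claimed.Agent.R289
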